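import Crest.Agent.R232.Basic

/-! Row 232.  Auxiliary lemmas for the atomic decompositions. -/

set_option autoImplicit false
open Finset Matrix

namespace Crest.Agent.R232.AtomsAux

variable {n : ℕ}

theorem sum_en (d al : Fin n → Fin n → ℝ) (I : Finset ℤ) (t : ℤ → ℝ) (hs : ℤ → Fin n → ℝ) (q : ℝ) :
    ∑ x, ∑ y, al x y * ∑ i ∈ I, t i * |sl d (hs i) x y| ^ q = ∑ i ∈ I, t i * en d al q (hs i) := by
  simp only [en, mul_sum]
  refine (sum_congr rfl fun x _ => sum_comm).trans (sum_comm.trans ?_)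
  exact sum_congr rfl fun i _ => sum_congr rfl fun x _ => sum_congr rfl fun y _ => by ring

theorem split (P : ℕ → Matrix (Fin n) (Fin n) ℝ) (e : ℝ) (m : ℕ) (lev : ℕ → Fin n → ℤ) (I : Finset ℤ)
    (hI : ∀ k < m, ∀ z, lev k z ∈ I) (u : ℕ → Fin n → ℝ) :
    (fun x => e * ∑ k ∈ range m, (P k *ᵥ u k) x) = ∑ i ∈ I, fun x =>
      e * ∑ k ∈ range m, (P k *ᵥ fun z => if lev k z = i then u k z else 0) x := by
  funext x
  rw [Finset.sum_apply, ← mul_sum, sum_comm]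
  congr 1
  refine sum_congr rfl fun k hk => ?_
  simp only [mulVec, dotProduct]
  rw [sum_comm]
  refine sum_congr rfl fun z _ => ?_
  rw [← mul_sum, sum_ite_eq, if_pos (hI k (mem_range.1 hk) z)]

theorem mulVec_mul (A : Matrix (Fin n) (Fin n) ℝ) (e : ℝ) (f : Fin n → ℝ) (x : Fin n) :
    (A *ᵥ fun z => e * f z) x = e * (A *ᵥ f) x := by
  simp only [mulVec, dotProduct, mul_sum]
  exact sum_congr rfl fun z _ => by ring

theorem le_clog (r : ℝ) : r ≤ (2 : ℝ) ^ Int.clog 2 r := by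
  exact_mod_cast Int.self_le_zpow_clog (R := ℝ) (b := 2) (by norm_num) r

theorem clog_le {r : ℝ} (hr : 0 < r) : (2 : ℝ) ^ Int.clog 2 r ≤ 2 * r := by
  have := Int.zpow_pred_clog_lt_self (R := ℝ) (b := 2) (by norm_num) hr
  rw [zpow_sub_one₀ (by norm_num)] at this
  push_cast at this
  linarith

/-- one term of a weighted sum of squares -/
theorem le_sqrt_mul {I : Finset ℤ} {β : ℤ → ℝ} {s : ℝ} {i : ℤ} (hi : i ∈ I) :
    |β i| ≤ √(∑ j ∈ I, ((2 : ℝ) ^ j) ^ s * |β j| ^ (2 : ℝ)) * ((2 : ℝ) ^ i) ^ (-(s / 2)) := by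
  have h0 : (0 : ℝ) < (2 : ℝ) ^ i := by positivity
  have h1 : ((2 : ℝ) ^ i) ^ s * |β i| ^ (2 : ℝ) ≤ ∑ j ∈ I, ((2 : ℝ) ^ j) ^ s * |β j| ^ (2 : ℝ) :=
    single_le_sum (f := fun j => ((2 : ℝ) ^ j) ^ s * |β j| ^ (2 : ℝ)) (fun j _ => by positivity) hi
  rw [Real.rpow_neg h0.le, ← div_eq_mul_inv, le_div_iff₀ (by positivity)]
  refine Real.le_sqrt_of_sq_le (le_trans (le_of_eq ?_) h1)
  rw [mul_pow, ← Real.rpow_two (_ ^ (s / 2)), ← Real.rpow_mul h0.le, Real.rpow_two, mul_comm]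
  congr 2
  ring

theorem le_mul {I : Finset ℤ} {β : ℤ → ℝ} {s : ℝ} {i : ℤ} (hi : i ∈ I) :
    |β i| ≤ (∑ j ∈ I, ((2 : ℝ) ^ j) ^ s * |β j| ^ (1 : ℝ)) * ((2 : ℝ) ^ i) ^ (-s) := by
  have h0 : (0 : ℝ) < (2 : ℝ) ^ i := by positivity
  have h1 : ((2 : ℝ) ^ i) ^ s * |β i| ^ (1 : ℝ) ≤ ∑ j ∈ I, ((2 : ℝ) ^ j) ^ s * |β j| ^ (1 : ℝ) :=
    single_le_sum (f := fun j => ((2 : ℝ) ^ j) ^ s * |β j| ^ (1 : ℝ)) (fun j _ => by positivity) hi
  rw [Real.rpow_neg h0.le, ← div_eq_mul_inv, le_div_iff₀ (by positivity)]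
  rwa [Real.rpow_one, mul_comm] at h1

theorem self_le_rpow {C p : ℝ} (hC : 1 ≤ C) (hp : 1 ≤ p) : C ≤ C ^ p := by
  simpa using Real.rpow_le_rpow_of_exponent_le hC hp

end Crest.Agent.R232.AtomsAux
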