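import Crest.Agent.R232.Basic

/-! Row 232, task Pot.  Forward potentials `Z k = a k + M Z (k+1)`. -/

set_option autoImplicit false
open Finset Matrix

namespace Crest.Agent.R232

variable {n : ℕ}

namespace Pot

theorem down {m : ℕ} {P : ℕ → Prop} (h0 : ∀ k, m ≤ k → P k) (hs : ∀ k < m, P (k + 1) → P k) (k : ℕ) :
    P k := by
  have : ∀ j k, m ≤ k + j → P k := fun j => by
    induction j with
    | zero => exact h0
    | succ j ih =>
      intro k hk
      rcases le_or_gt m k with h | h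
      exacts [h0 k h, hs k h (ih _ (by omega))]
  exact this m k (by omega)

theorem bern {y Z r : ℝ} (hy : 0 ≤ y) (hZ : 0 ≤ Z) (hr : 1 < r) :
    Z ^ r ≤ y ^ r + r * ((Z - y) * Z ^ (r - 1)) := by
  rcases hZ.eq_or_lt with rfl | hZ
  · rw [Real.zero_rpow (by linarith), Real.zero_rpow (by linarith)]
    simpa using Real.rpow_nonneg hy r
  have h1 := one_add_mul_self_le_rpow_one_add (s := y / Z - 1) (by linarith [div_nonneg hy hZ.le]) hr.le
  rw [add_sub_cancel, Real.div_rpow hy hZ.le, le_div_iff₀ (Real.rpow_pos_of_pos hZ r)] at h1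
  rw [Real.rpow_sub_one hZ.ne']
  have : (1 + r * (y / Z - 1)) * Z ^ r = Z ^ r - r * ((Z - y) * (Z ^ r / Z)) := by field_simp; ring
  linarith

theorem young {s Z r : ℝ} (hs : 0 ≤ s) (hZ : 0 ≤ Z) (hr : 1 < r) :
    r * (s * Z ^ (r - 1)) ≤ (r - 1) * Z ^ r + s ^ r := by
  have h1 := bern hs hZ hr
  have h2 : Z ^ r = Z * Z ^ (r - 1) := by
    rw [mul_comm, ← Real.rpow_add_one' hZ (by linarith), sub_add_cancel]
  rw [h2] at h1 ⊢
  linarith

theorem lin (A : Matrix (Fin n) (Fin n) ℝ) (s t : ℝ) (f g : Fin n → ℝ) (x : Fin n) :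
    (A *ᵥ fun z => s * f z + t * g z) x = s * (A *ᵥ f) x + t * (A *ᵥ g) x := by
  simp only [mulVec, dotProduct, mul_add, sum_add_distrib, mul_sum, mul_left_comm]

theorem lin1 (A : Matrix (Fin n) (Fin n) ℝ) (s : ℝ) (f : Fin n → ℝ) (x : Fin n) :
    (A *ᵥ fun z => s * f z) x = s * (A *ᵥ f) x := by
  simp only [mulVec, dotProduct, mul_sum, mul_left_comm]

theorem zero (c : Ch n) (m : ℕ) (a : ℕ → Fin n → ℝ) (x : Fin n) :
    c.pot m a 0 x = ∑ k ∈ range m, ((c.M ^ k) *ᵥ a k) x := by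
  simp [Ch.pot]

end Pot

namespace Ch.OK
variable {c : Ch n} {L : ℝ}

theorem pot_of_le (_h : c.OK L) (m : ℕ) (a : ℕ → Fin n → ℝ) {k : ℕ} (hk : m ≤ k) :
    c.pot m a k = 0 := by
  funext x
  simp [Ch.pot, Nat.sub_eq_zero_of_le hk]

theorem pot_succ (_h : c.OK L) (m : ℕ) (a : ℕ → Fin n → ℝ) {k : ℕ} (hk : k < m) :
    c.pot m a k = a k + c.M *ᵥ c.pot m a (k + 1) := by
  have e : c.pot m a (k + 1) = ∑ j ∈ range (m - (k + 1)), (c.M ^ j) *ᵥ a (k + 1 + j) := by
    funext x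
    simp [Ch.pot, Finset.sum_apply]
  rw [e, mulVec_sum]
  funext x
  rw [Ch.pot, show m - k = m - (k + 1) + 1 by omega, sum_range_succ', add_comm, Pi.add_apply, Finset.sum_apply]
  simp only [pow_zero, one_mulVec, add_zero, mulVec_mulVec, ← pow_succ', add_assoc, add_comm 1]

theorem pot_nonneg (h : c.OK L) (m : ℕ) {a : ℕ → Fin n → ℝ} (ha : ∀ k z, 0 ≤ a k z) (k : ℕ)
    (z : Fin n) : 0 ≤ c.pot m a k z := by
  exact sum_nonneg fun j _ => (h.stoch.pow j).apply_nonneg (ha _) z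

theorem le_pot (h : c.OK L) (m : ℕ) {a : ℕ → Fin n → ℝ} (ha : ∀ k z, 0 ≤ a k z) {k : ℕ}
    (hk : k < m) (z : Fin n) : a k z ≤ c.pot m a k z := by
  rw [h.pot_succ m a hk, Pi.add_apply]
  exact le_add_of_nonneg_right (h.stoch.apply_nonneg (h.pot_nonneg m ha _) z)

/-- Let `Y` be the potential of the cut charges.  `Y k ≤ Z k` termwise, and `Y k ≤ lam` by downward
induction: where `Z k z ≤ lam` use `Y ≤ Z`, elsewhere `Y k z = (M Y (k+1)) z ≤ lam`.
The left side is `Y 0 x`. -/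
theorem pot_cut (h : c.OK L) (m : ℕ) {a : ℕ → Fin n → ℝ} (ha : ∀ k z, 0 ≤ a k z) {lam : ℝ}
    (hlam : 0 ≤ lam) (x : Fin n) :
    ∑ k ∈ range m, ((c.M ^ k) *ᵥ fun z => if c.pot m a k z ≤ lam then a k z else 0) x ≤ lam := by
  set b : ℕ → Fin n → ℝ := fun k z => if c.pot m a k z ≤ lam then a k z else 0 with hb
  have hba : ∀ k z, b k z ≤ a k z := fun k z => by
    simp only [hb]
    split_ifs
    exacts [le_rfl, ha k z]
  have h1 : ∀ k z, c.pot m b k z ≤ c.pot m a k z := fun k z =>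
    sum_le_sum fun j _ => (h.stoch.pow j).mono (hba _) z
  have h2 : ∀ k, ∀ z, c.pot m b k z ≤ lam := Pot.down (m := m)
    (fun k hk z => by rw [h.pot_of_le m b hk]; exact hlam) fun k hk ih z => by
      by_cases hz : c.pot m a k z ≤ lam
      · exact (h1 k z).trans hz
      · rw [h.pot_succ m b hk, Pi.add_apply, show b k z = 0 from if_neg hz, zero_add, ← h.stoch.const lam z]
        exact h.stoch.mono ih z
  exact (Pot.zero c m b x).symm.trans_le (h2 0 x)

/-- `Z k ^ r ≤ r W k` for `W` the potential of `a k * Z k ^ (r-1)`: downward induction,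
`Z^r ≤ (Z - a)^r + r a Z^(r-1)` (Bernoulli) and `(M Z')^r ≤ M (Z'^r)` (`Stoch.rpow_le`). -/
theorem pot_rpow_le (h : c.OK L) (m : ℕ) {a : ℕ → Fin n → ℝ} (ha : ∀ k z, 0 ≤ a k z) {r : ℝ}
    (hr : 1 < r) (k : ℕ) (z : Fin n) :
    c.pot m a k z ^ r ≤ r * c.pot m (fun j u => a j u * c.pot m a j u ^ (r - 1)) k z := by
  revert z
  refine Pot.down (m := m) (P := fun k => ∀ z, c.pot m a k z ^ r ≤
    r * c.pot m (fun j u => a j u * c.pot m a j u ^ (r - 1)) k z) (fun k hk z => ?_) (fun k hk ih z => ?_) k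
  · rw [h.pot_of_le m _ hk, h.pot_of_le m _ hk, Pi.zero_apply, Real.zero_rpow (by linarith), mul_zero]
  · have h1 := Pot.bern (h.stoch.apply_nonneg (h.pot_nonneg m ha (k + 1)) z) (h.pot_nonneg m ha k z) hr
    have h2 := (h.stoch.rpow_le (h.pot_nonneg m ha (k + 1)) hr.le z).trans (h.stoch.mono ih z)
    have h3 : c.pot m a k z - (c.M *ᵥ c.pot m a (k + 1)) z = a k z := by
      rw [h.pot_succ m a hk, Pi.add_apply, add_sub_cancel_right]
    rw [Pot.lin1] at h2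
    rw [h3] at h1
    rw [h.pot_succ m (fun j u => a j u * c.pot m a j u ^ (r - 1)) hk, Pi.add_apply]
    linarith

/-- Let `a k = M^k ab k`, `U = ∑ ab k`, `W` as above, `Q` the left side; `∑ pi W 0 = Q` (`stat`),
`M^k W k ≤ W 0`.  `Q = ∑_k ⟨ab k, M^k (Z k ^ (r-1))⟩` (`selfadj`).  Young
`Z^(r-1) * s ≤ ((r-1)/r) Z^r + s^r / r` with `s = r U x` gives
`r U x * M^k (Z k^(r-1)) x ≤ (r-1) W 0 x + r^(r-1) U x ^ r`; multiply by `ab k x / U x`, sum:
`r Q ≤ (r-1) Q + r^(r-1) ∑ pi U^r`. -/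
theorem pot_Q (h : c.OK L) (m : ℕ) {ab : ℕ → Fin n → ℝ} (hab : ∀ k z, 0 ≤ ab k z) {r : ℝ}
    (hr : 1 < r) :
    ∑ k ∈ range m, ∑ z, c.pi z * (((c.M ^ k) *ᵥ ab k) z *
        c.pot m (fun j => (c.M ^ j) *ᵥ ab j) k z ^ (r - 1)) ≤
      r ^ (r - 1) * ∑ z, c.pi z * (∑ k ∈ range m, ab k z) ^ r := by
  set a : ℕ → Fin n → ℝ := fun j => (c.M ^ j) *ᵥ ab j with ha
  have ha0 : ∀ k z, 0 ≤ a k z := fun k z => (h.stoch.pow k).apply_nonneg (hab k) z
  set w : ℕ → Fin n → ℝ := fun j u => a j u * c.pot m a j u ^ (r - 1) with hw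
  have hw0 : ∀ k z, 0 ≤ w k z := fun k z => mul_nonneg (ha0 k z) (Real.rpow_nonneg (h.pot_nonneg m ha0 k z) _)
  have hr0 : 0 < r := by linarith
  have e1 : ∑ x, c.pi x * c.pot m w 0 x = ∑ k ∈ range m, ∑ z, c.pi z * w k z := by
    simp only [Pot.zero, mul_sum]
    rw [sum_comm]
    exact sum_congr rfl fun k _ => h.stat k (w k)
  have e2 : ∀ k ≤ m, ∀ x, ((c.M ^ k) *ᵥ c.pot m w k) x ≤ c.pot m w 0 x := fun k => by
    induction k with
    | zero => intro _ x; simp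
    | succ k ih =>
      intro hk x
      refine le_trans ?_ (ih (by omega) x)
      rw [pow_succ, ← mulVec_mulVec]
      refine (h.stoch.pow k).mono (fun z => ?_) x
      rw [h.pot_succ m w hk, Pi.add_apply]
      exact le_add_of_nonneg_left (hw0 k z)
  have e3 : ∑ k ∈ range m, ∑ z, c.pi z * w k z =
      ∑ x, c.pi x * ∑ k ∈ range m, ab k x * ((c.M ^ k) *ᵥ fun z => c.pot m a k z ^ (r - 1)) x := by
    simp only [mul_sum]
    exact (sum_congr rfl fun k _ => h.selfadj k (ab k) _).trans sum_comm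
  have e4 : ∀ x, r * ∑ k ∈ range m, ab k x * ((c.M ^ k) *ᵥ fun z => c.pot m a k z ^ (r - 1)) x ≤
      (r - 1) * c.pot m w 0 x + r ^ (r - 1) * (∑ k ∈ range m, ab k x) ^ r := fun x => by
    set U := ∑ k ∈ range m, ab k x with hU
    have hU0 : 0 ≤ U := sum_nonneg fun k _ => hab k x
    have hR : 0 ≤ (r - 1) * c.pot m w 0 x + r ^ (r - 1) * U ^ r :=
      add_nonneg (mul_nonneg (by linarith) (h.pot_nonneg m hw0 0 x)) (by positivity)
    rcases hU0.eq_or_lt with h0 | h0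
    · rw [sum_eq_zero fun k hk => by
        rw [(sum_eq_zero_iff_of_nonneg fun k _ => hab k x).1 h0.symm k hk, zero_mul], mul_zero]
      exact hR
    have e5 : ∀ k ∈ range m, r * U * ((c.M ^ k) *ᵥ fun z => c.pot m a k z ^ (r - 1)) x ≤
        (r - 1) * c.pot m w 0 x + r ^ (r - 1) * U ^ r := fun k hk => by
      have s1 := (h.stoch.pow k).mono (f := fun z => r * U * c.pot m a k z ^ (r - 1))
        (g := fun z => (r - 1) * c.pot m w k z + r ^ (r - 1) * U ^ r * 1) (fun z => by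
          have y1 := Pot.young (mul_nonneg hr0.le hU0) (h.pot_nonneg m ha0 k z) hr
          have y2 := mul_le_mul_of_nonneg_left (h.pot_rpow_le m ha0 hr k z) (sub_nonneg.2 hr.le)
          rw [Real.mul_rpow hr0.le hU0] at y1
          have y3 : r ^ r = r * r ^ (r - 1) := by
            rw [mul_comm, ← Real.rpow_add_one hr0.ne', sub_add_cancel]
          rw [y3] at y1
          exact le_of_mul_le_mul_left (by linarith) hr0) x
      rw [Pot.lin1, Pot.lin, (h.stoch.pow k).const] at s1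
      have s2 := mul_le_mul_of_nonneg_left (e2 k (mem_range.1 hk).le x) (sub_nonneg.2 hr.le)
      linarith
    refine le_of_mul_le_mul_left ?_ h0
    have e6 := sum_le_sum fun k hk => mul_le_mul_of_nonneg_left (e5 k hk) (hab k x)
    rw [← sum_mul] at e6
    refine le_trans (le_of_eq ?_) e6
    simp only [mul_sum]
    exact sum_congr rfl fun k _ => by ring
  have e5 := sum_le_sum fun x (_ : x ∈ univ) => mul_le_mul_of_nonneg_left (e4 x) (h.pi_pos x).le
  simp only [mul_add, sum_add_distrib, mul_left_comm (c.pi _), ← mul_sum] at e5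
  rw [← e3, e1] at e5
  change ∑ k ∈ range m, ∑ z, c.pi z * w k z ≤ _
  linarith

/-- With `r = L + 1`: the left side is `Z 0 x`, `pi x * Z 0 x ^ r ≤ r Q ≤ r^r B^r`, so
`Z 0 x ≤ r B (1 / pi x)^(1/r) ≤ 2 L * e * B`. -/
theorem pot_JN (h : c.OK L) (m : ℕ) {ab : ℕ → Fin n → ℝ} (hab : ∀ k z, 0 ≤ ab k z) {B : ℝ}
    (hB : ∀ z, ∑ k ∈ range m, ab k z ≤ B) (x : Fin n) :
    ∑ k ∈ range m, ((c.M ^ (2 * k)) *ᵥ ab k) x ≤ 6 * L * B := by
  set a : ℕ → Fin n → ℝ := fun j => (c.M ^ j) *ᵥ ab j with ha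
  have ha0 : ∀ k z, 0 ≤ a k z := fun k z => (h.stoch.pow k).apply_nonneg (hab k) z
  have hL := h.one_le
  have hr : 1 < L + 1 := by linarith
  have hr0 : 0 < L + 1 := by linarith
  have hB0 : 0 ≤ B := (sum_nonneg fun k _ => hab k x).trans (hB x)
  have e0 : ∑ k ∈ range m, ((c.M ^ (2 * k)) *ᵥ ab k) x = c.pot m a 0 x := by
    simp only [Pot.zero, ha, mulVec_mulVec, ← pow_add, two_mul]
  set w : ℕ → Fin n → ℝ := fun j u => a j u * c.pot m a j u ^ (L + 1 - 1) with hw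
  have hw0 : ∀ k z, 0 ≤ w k z := fun k z => mul_nonneg (ha0 k z) (Real.rpow_nonneg (h.pot_nonneg m ha0 k z) _)
  have e1 : ∑ x, c.pi x * c.pot m w 0 x = ∑ k ∈ range m, ∑ z, c.pi z * w k z := by
    simp only [Pot.zero, mul_sum]
    rw [sum_comm]
    exact sum_congr rfl fun k _ => h.stat k (w k)
  have e2 : c.pi x * c.pot m w 0 x ≤ (L + 1) ^ (L + 1 - 1) * B ^ (L + 1) := by
    refine (single_le_sum (f := fun x => c.pi x * c.pot m w 0 x)
      (fun z _ => mul_nonneg (h.pi_pos z).le (h.pot_nonneg m hw0 0 z)) (mem_univ x)).trans ?_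
    rw [e1]
    refine (h.pot_Q m hab hr).trans (mul_le_mul_of_nonneg_left ?_ (by positivity))
    refine (sum_le_sum fun z _ => mul_le_mul_of_nonneg_left (Real.rpow_le_rpow
      (sum_nonneg fun k _ => hab k z) (hB z) hr0.le) (h.pi_pos z).le).trans ?_
    rw [← sum_mul, h.pi_sum, one_mul]
  have e3 : 1 ≤ c.pi x * Real.exp 1 ^ (L + 1) := by
    rw [Real.exp_one_rpow, ← div_le_iff₀' (h.pi_pos x)]
    exact (Real.log_le_iff_le_exp (div_pos one_pos (h.pi_pos x))).1 (by linarith [h.logpi x])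
  have e4 : c.pot m a 0 x ^ (L + 1) ≤ (Real.exp 1 * ((L + 1) * B)) ^ (L + 1) := by
    have y3 : (L + 1) ^ (L + 1) = (L + 1) * (L + 1) ^ (L + 1 - 1) := by
      rw [mul_comm, ← Real.rpow_add_one hr0.ne', sub_add_cancel]
    rw [Real.mul_rpow (by positivity) (by positivity), Real.mul_rpow hr0.le hB0, y3]
    calc _ ≤ (L + 1) * c.pot m w 0 x := h.pot_rpow_le m ha0 hr 0 x
      _ ≤ (c.pi x * Real.exp 1 ^ (L + 1)) * ((L + 1) * c.pot m w 0 x) :=
          le_mul_of_one_le_left (mul_nonneg hr0.le (h.pot_nonneg m hw0 0 x)) e3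
      _ = Real.exp 1 ^ (L + 1) * ((L + 1) * (c.pi x * c.pot m w 0 x)) := by ring
      _ ≤ Real.exp 1 ^ (L + 1) * ((L + 1) * ((L + 1) ^ (L + 1 - 1) * B ^ (L + 1))) := by gcongr
      _ = _ := by ring
  rw [e0]
  refine ((Real.rpow_le_rpow_iff (h.pot_nonneg m ha0 0 x) (by positivity) hr0).1 e4).trans ?_
  calc _ ≤ 3 * ((2 * L) * B) := by
        gcongr
        · linarith [Real.exp_one_lt_d9]
        · linarith
    _ = _ := by ring

end Ch.OK

end Crest.Agent.R232
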