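import Crest.Agent.R232.Ent

/-! Row 232, task Syn1.  The `L¹` bound of the doubled synthesis operator.

`rho j z = ∑ al |sl (ker j · z)| ≤ √(8 iota j z)`: `ka - kb = (√ka - √kb)(√ka + √kb)`,
Cauchy-Schwarz, `∑ al (√kx + √ky)² ≤ 2 ∑ al (kx + ky) ≤ 8 ∑ pi k = 8` (`al_symm`, `marg`,
`ker_sum`).  Then `en 1 (syn2 g) ≤ ∑_z pi z * eta ∑_k |g k z| rho (2k) z`
`≤ ∑_z pi z √(vsq) √(8 eta ∑_k iota (2k) z)` and `∑_{k<m} iota (2k) ≤ ∑_{j<2m} iota j`
(`iota_sum_le`). -/

set_option autoImplicit false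
open Finset Matrix

namespace Crest.Agent.R232

variable {n : ℕ}

namespace Ch.OK
variable {c : Ch n} {L : ℝ}

theorem rho_le (h : c.OK L) (j : ℕ) (z : Fin n) :
    ∑ x, ∑ y, c.al x y * |sl c.d (fun u => c.ker j u z) x y| ≤ √(8 * c.iota j z) := by
  set a : Fin n → ℝ := fun u => √(c.ker j u z) with ha
  have hsq : ∀ u, a u ^ 2 = c.ker j u z := fun u => Real.sq_sqrt (h.ker_nonneg j u z)
  have hfac : ∀ x y, sl c.d (fun u => c.ker j u z) x y = sl c.d a x y * (a x + a y) := by
    intro x y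
    simp only [sl, ← hsq]
    ring
  have h8 : ∑ x, ∑ y, c.al x y * (a x + a y) ^ 2 ≤ 8 := by
    have h1 : ∑ x, ∑ y, c.al x y * c.ker j x z ≤ 2 := by
      calc ∑ x, ∑ y, c.al x y * c.ker j x z = ∑ x, (∑ y, c.al x y) * c.ker j x z := by
            simp only [sum_mul]
        _ ≤ ∑ x, 2 * c.pi x * c.ker j x z := sum_le_sum fun x _ =>
            mul_le_mul_of_nonneg_right (h.marg x) (h.ker_nonneg j x z)
        _ = 2 := by simp only [mul_assoc, ← mul_sum, h.ker_sum, mul_one]
    have h2 : ∑ x, ∑ y, c.al x y * c.ker j y z = ∑ x, ∑ y, c.al x y * c.ker j x z := by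
      rw [sum_comm]
      exact sum_congr rfl fun x _ => sum_congr rfl fun y _ => by rw [h.al_symm]
    calc ∑ x, ∑ y, c.al x y * (a x + a y) ^ 2
        ≤ ∑ x, ∑ y, (2 * (c.al x y * c.ker j x z) + 2 * (c.al x y * c.ker j y z)) := by
          refine sum_le_sum fun x _ => sum_le_sum fun y _ => ?_
          rw [← hsq, ← hsq]
          have := mul_nonneg (h.al_nonneg x y) (sq_nonneg (a x - a y))
          nlinarith
      _ = 2 * ∑ x, ∑ y, c.al x y * c.ker j x z + 2 * ∑ x, ∑ y, c.al x y * c.ker j y z := by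
          simp only [sum_add_distrib, mul_sum]
      _ ≤ 8 := by rw [h2]; linarith
  refine Real.le_sqrt_of_sq_le ?_
  have hcs := Finset.sum_sq_le_sum_mul_sum_of_sq_eq_mul (univ : Finset (Fin n × Fin n))
    (r := fun p => c.al p.1 p.2 * |sl c.d (fun u => c.ker j u z) p.1 p.2|)
    (f := fun p => c.al p.1 p.2 * (a p.1 + a p.2) ^ 2)
    (g := fun p => c.al p.1 p.2 * (sl c.d a p.1 p.2) ^ 2)
    (fun p _ => mul_nonneg (h.al_nonneg _ _) (sq_nonneg _))
    (fun p _ => mul_nonneg (h.al_nonneg _ _) (sq_nonneg _))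
    (fun p _ => by rw [mul_pow, sq_abs, hfac]; ring)
  simp only [Fintype.sum_prod_type] at hcs
  refine hcs.trans (mul_le_mul_of_nonneg_right h8 ?_)
  exact sum_nonneg fun x _ => sum_nonneg fun y _ => mul_nonneg (h.al_nonneg _ _) (sq_nonneg _)

theorem syn2_one (h : c.OK L) (m : ℕ) (g : ℕ → Fin n → ℝ) :
    en c.d c.al 1 (c.syn2 m g) ≤ 4 * √L * ∑ z, c.pi z * √(c.vsq m g z) := by
  have he := h.eta_pos
  have hi : ∀ k z, 0 ≤ c.iota k z := fun k z =>
    sum_nonneg fun x _ => sum_nonneg fun y _ => mul_nonneg (h.al_nonneg _ _) (sq_nonneg _)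
  have hsl : ∀ x y, sl c.d (c.syn2 m g) x y = ∑ z, ∑ k ∈ range m,
      c.pi z * (c.eta * (g k z * sl c.d (fun u => c.ker (2 * k) u z) x y)) := by
    intro x y
    simp only [sl, Ch.syn2, h.mulVec_eq_ker]
    rw [← mul_sub, ← sum_sub_distrib, sum_comm, mul_sum, sum_div]
    refine sum_congr rfl fun k _ => ?_
    rw [← sum_sub_distrib, mul_sum, sum_div]
    exact sum_congr rfl fun z _ => by ring
  have h1 : en c.d c.al 1 (c.syn2 m g) ≤ ∑ z, c.pi z * ∑ k ∈ range m,
      c.eta * (|g k z| * √(8 * c.iota (2 * k) z)) := by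
    rw [en_one]
    calc ∑ x, ∑ y, c.al x y * |sl c.d (c.syn2 m g) x y|
        ≤ ∑ x, ∑ y, ∑ z, ∑ k ∈ range m, c.pi z * (c.eta * (|g k z| *
            (c.al x y * |sl c.d (fun u => c.ker (2 * k) u z) x y|))) := by
          refine sum_le_sum fun x _ => sum_le_sum fun y _ => ?_
          rw [hsl]
          refine (mul_le_mul_of_nonneg_left ((abs_sum_le_sum_abs _ _).trans
            (sum_le_sum fun z _ => abs_sum_le_sum_abs _ _)) (h.al_nonneg x y)).trans (le_of_eq ?_)
          rw [mul_sum]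
          refine sum_congr rfl fun z _ => ?_
          rw [mul_sum]
          refine sum_congr rfl fun k _ => ?_
          rw [abs_mul, abs_mul, abs_mul, abs_of_pos he, abs_of_pos (h.pi_pos z)]
          ring
      _ = ∑ z, c.pi z * ∑ k ∈ range m, c.eta * (|g k z| *
            ∑ x, ∑ y, c.al x y * |sl c.d (fun u => c.ker (2 * k) u z) x y|) := by
          simp only [mul_sum]
          rw [sum_congr rfl fun x _ => sum_comm, sum_comm]
          refine sum_congr rfl fun z _ => ?_
          rw [sum_congr rfl fun x _ => sum_comm, sum_comm]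
      _ ≤ _ := by
          refine sum_le_sum fun z _ => mul_le_mul_of_nonneg_left (sum_le_sum fun k _ => ?_)
            (h.pi_pos z).le
          exact mul_le_mul_of_nonneg_left
            (mul_le_mul_of_nonneg_left (h.rho_le _ z) (abs_nonneg _)) he.le
  refine h1.trans ?_
  rw [mul_sum]
  refine sum_le_sum fun z _ => ?_
  rw [mul_left_comm]
  refine mul_le_mul_of_nonneg_left ?_ (h.pi_pos z).le
  have hL : 0 ≤ L := zero_le_one.trans h.one_le
  have h2 : ∑ k ∈ range m, c.iota (2 * k) z ≤ ∑ j ∈ range (2 * m), c.iota j z := by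
    rw [← sum_image (s := range m) (g := fun k => 2 * k) (f := fun j => c.iota j z)
      (fun a _ b _ hab => by simpa using hab)]
    refine sum_le_sum_of_subset_of_nonneg (fun j hj => ?_) fun j _ _ => hi j z
    obtain ⟨k, hk, rfl⟩ := mem_image.1 hj
    rw [mem_range] at hk ⊢
    omega
  have h3 : ∑ k ∈ range m, c.eta * (8 * c.iota (2 * k) z) ≤ 16 * L := by
    have h4 := h.iota_sum_le (2 * m) z
    have h5 := mul_le_mul_of_nonneg_left h2 he.le
    rw [← mul_sum, ← mul_sum]
    linarith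
  have hcs := Finset.sum_sq_le_sum_mul_sum_of_sq_eq_mul (range m)
    (r := fun k => c.eta * (|g k z| * √(8 * c.iota (2 * k) z)))
    (f := fun k => c.eta * (8 * c.iota (2 * k) z))
    (g := fun k => c.eta * g k z ^ 2)
    (fun k _ => by have := hi (2 * k) z; positivity)
    (fun k _ => by positivity)
    (fun k _ => by
      have := hi (2 * k) z
      rw [mul_pow, mul_pow, sq_abs, Real.sq_sqrt (by positivity)]; ring)
  have hv : ∑ k ∈ range m, c.eta * g k z ^ 2 = c.vsq m g z := by rw [Ch.vsq, mul_sum]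
  rw [hv] at hcs
  have hv0 := h.vsq_nonneg m g z
  refine (abs_le_of_sq_le_sq' (b := _)  ?_ (by positivity)).2
  rw [mul_pow, mul_pow, Real.sq_sqrt hL, Real.sq_sqrt hv0]
  refine hcs.trans (mul_le_mul_of_nonneg_right (by linarith) hv0)

end Ch.OK

end Crest.Agent.R232
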