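import Crest.Agent.R232.Basic

/-! Row 232, task SynInf.  Pointwise slope bound of the synthesis operator, and the remainder.

`M^k g x - M^k g y = ∑ z, pi z (√kx - √ky)(√kx + √ky) g z`, Cauchy-Schwarz over `(k, z)`:
`|syn x - syn y|² ≤ (eta ∑_k hel k x y) * (eta ∑_k ∑_z pi (√kx + √ky)² g²)` and
`(√a + √b)² ≤ 2a + 2b`, so the second factor is `≤ 4 B`; the first is `theta * d²`. -/

set_option autoImplicit false
open Finset Matrix

namespace Crest.Agent.R232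

variable {n : ℕ}

namespace Ch.OK
variable {c : Ch n} {L : ℝ}

theorem syn_inf (h : c.OK L) (m : ℕ) {Θ B : ℝ} (hΘ : ∀ x y, c.theta m x y ≤ Θ)
    (g : ℕ → Fin n → ℝ)
    (hB : ∀ x, c.eta * ∑ k ∈ range m, ((c.M ^ k) *ᵥ fun z => g k z ^ 2) x ≤ B) (x y : Fin n) :
    |sl c.d (c.syn m g) x y| ≤ 2 * √(Θ * B) := by
  by_cases hxy : x = y
  · rw [hxy, sl_self, abs_zero]; positivity
  have hd := h.isD.pos x y hxy
  have he := h.eta_pos
  set a : ℕ × Fin n → ℝ := fun p => √(c.pi p.2) * (√(c.ker p.1 x p.2) - √(c.ker p.1 y p.2)) with ha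
  set b : ℕ × Fin n → ℝ := fun p =>
    √(c.pi p.2) * ((√(c.ker p.1 x p.2) + √(c.ker p.1 y p.2)) * g p.1 p.2) with hb
  have h1 : c.syn m g x - c.syn m g y = c.eta * ∑ p ∈ range m ×ˢ univ, a p * b p := by
    simp only [Ch.syn, ← mul_sub, ← sum_sub_distrib, h.mulVec_eq_ker, sum_product]
    congr 1
    refine sum_congr rfl fun k _ => sum_congr rfl fun z _ => ?_
    have e1 := Real.mul_self_sqrt (h.pi_pos z).le
    have e2 := Real.mul_self_sqrt (h.ker_nonneg k x z)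
    have e3 := Real.mul_self_sqrt (h.ker_nonneg k y z)
    simp only [ha, hb]
    calc _ = (√(c.pi z) * √(c.pi z)) * ((√(c.ker k x z) * √(c.ker k x z) -
          √(c.ker k y z) * √(c.ker k y z)) * g k z) := by rw [e1, e2, e3]; ring
      _ = _ := by ring
  have h2 : c.eta * ∑ p ∈ range m ×ˢ univ, a p ^ 2 = c.theta m x y * c.d x y ^ 2 := by
    rw [Ch.theta, div_mul_cancel₀ _ (by positivity)]
    simp only [Ch.hel, sum_product, ha, mul_pow, Real.sq_sqrt (h.pi_pos _).le]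
  have h3 : c.eta * ∑ p ∈ range m ×ˢ univ, b p ^ 2 ≤ 4 * B := by
    have a1 := hB x
    have a2 := hB y
    have a3 : ∑ p ∈ range m ×ˢ univ, b p ^ 2 ≤
        2 * ∑ k ∈ range m, ((c.M ^ k) *ᵥ fun z => g k z ^ 2) x +
          2 * ∑ k ∈ range m, ((c.M ^ k) *ᵥ fun z => g k z ^ 2) y := by
      simp only [h.mulVec_eq_ker, sum_product, mul_sum, ← sum_add_distrib]
      refine sum_le_sum fun k _ => sum_le_sum fun z _ => ?_
      simp only [hb, mul_pow, Real.sq_sqrt (h.pi_pos _).le]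
      have e2 := Real.sq_sqrt (h.ker_nonneg k x z)
      have e3 := Real.sq_sqrt (h.ker_nonneg k y z)
      have e4 : (√(c.ker k x z) + √(c.ker k y z)) ^ 2 ≤ 2 * c.ker k x z + 2 * c.ker k y z := by
        nlinarith [sq_nonneg (√(c.ker k x z) - √(c.ker k y z))]
      have e5 := mul_le_mul_of_nonneg_left (mul_le_mul_of_nonneg_right e4 (sq_nonneg (g k z)))
        (h.pi_pos z).le
      linarith
    have a4 := mul_le_mul_of_nonneg_left a3 he.le
    linarith
  have h4 := sum_mul_sq_le_sq_mul_sq (range m ×ˢ (univ : Finset (Fin n))) a b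
  have hA : 0 ≤ c.eta * ∑ p ∈ range m ×ˢ univ, a p ^ 2 := by positivity
  have hBn : 0 ≤ c.eta * ∑ p ∈ range m ×ˢ univ, b p ^ 2 := by positivity
  have hΘ0 : 0 ≤ Θ := (h.theta_nonneg m x y).trans (hΘ x y)
  have h5 : (c.syn m g x - c.syn m g y) ^ 2 ≤ (Θ * c.d x y ^ 2) * (4 * B) := by
    calc _ = c.eta ^ 2 * (∑ p ∈ range m ×ˢ univ, a p * b p) ^ 2 := by rw [h1]; ring
      _ ≤ c.eta ^ 2 * ((∑ p ∈ range m ×ˢ univ, a p ^ 2) * ∑ p ∈ range m ×ˢ univ, b p ^ 2) :=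
          mul_le_mul_of_nonneg_left h4 (by positivity)
      _ = (c.eta * ∑ p ∈ range m ×ˢ univ, a p ^ 2) * (c.eta * ∑ p ∈ range m ×ˢ univ, b p ^ 2) := by ring
      _ ≤ _ := mul_le_mul (by rw [h2]; exact mul_le_mul_of_nonneg_right (hΘ x y) (sq_nonneg _)) h3 hBn
          (by positivity)
  have hB0 : 0 ≤ B := by linarith
  refine abs_le_of_sq_le_sq ?_ (by positivity)
  rw [mul_pow, Real.sq_sqrt (by positivity), sl, div_pow, div_le_iff₀ (by positivity)]
  linarith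

/-- With `f0 = f - f x` (constants do not change slopes, `Stoch.const`),
`M^(4m) f0 = syn m (fun k => (1 / (m eta)) • M^(4m-k) f0)` and `|M^j f0| ≤ O` (`Stoch.abs_le`),
so `syn_inf` applies with `B = O² / (m eta)`. -/
theorem rem_le (h : c.OK L) (m : ℕ) (hm : 1 ≤ m) {Θ O : ℝ} (hΘ : ∀ x y, c.theta m x y ≤ Θ)
    (f : Fin n → ℝ) (hO : ∀ x y, |f x - f y| ≤ O) (x y : Fin n) :
    |sl c.d ((c.M ^ (4 * m)) *ᵥ f) x y| ≤ 2 * √(Θ * (O ^ 2 / (m * c.eta))) := by
  have he := h.eta_pos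
  have hm' : (0 : ℝ) < m := by exact_mod_cast hm
  set f0 : Fin n → ℝ := fun z => f z - f x with hf0
  have h1 : sl c.d ((c.M ^ (4 * m)) *ᵥ f) x y = sl c.d ((c.M ^ (4 * m)) *ᵥ f0) x y := by
    have e : (c.M ^ (4 * m)) *ᵥ f0 = (c.M ^ (4 * m)) *ᵥ f - (c.M ^ (4 * m)) *ᵥ fun _ => f x := by
      rw [← mulVec_sub]; rfl
    rw [e, sl_sub]
    simp only [sl, (h.stoch.pow (4 * m)).const]
    ring
  have h2 : (c.M ^ (4 * m)) *ᵥ f0 =
      c.syn m fun k => (1 / (m * c.eta)) • ((c.M ^ (4 * m - k)) *ᵥ f0) := by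
    funext u
    simp only [Ch.syn]
    rw [sum_congr rfl (g := fun _ => (1 / (m * c.eta)) * ((c.M ^ (4 * m)) *ᵥ f0) u) fun k hk => by
      rw [mulVec_smul, mulVec_mulVec, ← pow_add, show k + (4 * m - k) = 4 * m by
        have := mem_range.1 hk; omega]
      rfl]
    rw [sum_const, card_range, nsmul_eq_mul]
    field_simp
  rw [h1, h2]
  refine h.syn_inf m hΘ _ (fun u => ?_) x y
  have h3 : ∀ k ∈ range m, ((c.M ^ k) *ᵥ fun z =>
      ((1 / (m * c.eta)) • ((c.M ^ (4 * m - k)) *ᵥ f0)) z ^ 2) u ≤ (1 / (m * c.eta)) ^ 2 * O ^ 2 := by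
    intro k _
    refine ((h.stoch.pow k).mono (g := fun _ => (1 / (m * c.eta)) ^ 2 * O ^ 2) (fun z => ?_) u).trans_eq
      ((h.stoch.pow k).const _ u)
    rw [Pi.smul_apply, smul_eq_mul, mul_pow]
    refine mul_le_mul_of_nonneg_left ?_ (by positivity)
    have := (h.stoch.pow (4 * m - k)).abs_le (f := f0) (fun z => hO z x) z
    exact sq_le_sq' (abs_le.1 this).1 (abs_le.1 this).2
  refine (mul_le_mul_of_nonneg_left (sum_le_sum h3) he.le).trans_eq ?_
  rw [sum_const, card_range, nsmul_eq_mul]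
  field_simp

end Ch.OK

end Crest.Agent.R232
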