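import Crest.Agent.R232.Defs

/-! Row 232, task TwoSided.  A two-sided geometric summation lemma.

If `A = 0` or `B = 0` all terms vanish.  Otherwise take `j = ⌊logb 2 (B/A) / (a+b)⌋`,
`G = A^(b/(a+b)) B^(a/(a+b))`.  Then `A 2^(ja) ≤ G`, `B 2^(-jb) ≤ 2^b G`, so
`β i ≤ 2^b G ρ^|i-j|` with `ρ = 2^(-min a b) < 1`, and `∑_{t ∈ ℤ} ρ^|t| (1 + |t|)` converges. -/

set_option autoImplicit false
open Finset Matrix

namespace Crest.Agent.R232

variable {n : ℕ}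

theorem twoSided (a b : ℝ) (ha : 0 < a) (hb : 0 < b) :
    ∃ C : ℝ, 0 < C ∧ ∀ (I : Finset ℤ) (β : ℤ → ℝ) (A B : ℝ), 0 ≤ A → 0 ≤ B →
      (∀ i ∈ I, 0 ≤ β i) → (∀ i ∈ I, β i ≤ A * ((2 : ℝ) ^ i) ^ a) →
      (∀ i ∈ I, β i ≤ B * ((2 : ℝ) ^ i) ^ (-b)) →
      ∃ j : ℤ, ∑ i ∈ I, β i * (1 + |((i - j : ℤ) : ℝ)|) ≤
        C * (A ^ (b / (a + b)) * B ^ (a / (a + b))) := by
  set μ : ℝ := min a b with hμ
  have hμ0 : 0 < μ := lt_min ha hb
  set ρ : ℝ := (2 : ℝ) ^ (-μ) with hρ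
  have hρ0 : 0 < ρ := Real.rpow_pos_of_pos two_pos _
  have hρ1 : ρ < 1 := Real.rpow_lt_one_of_one_lt_of_neg one_lt_two (by linarith)
  set F : ℤ → ℝ := fun t => ρ ^ t.natAbs * (1 + |(t : ℝ)|) with hF
  have hF0 : ∀ t, 0 ≤ F t := fun t => by rw [hF]; positivity
  have hN : Summable fun k : ℕ => ρ ^ k * (1 + (k : ℝ)) := by
    have h1 := summable_geometric_of_lt_one hρ0.le hρ1
    have h2 := summable_pow_mul_geometric_of_norm_lt_one 1 (r := ρ)
      (by rwa [Real.norm_eq_abs, abs_of_pos hρ0])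
    refine (h1.add h2).congr fun k => ?_
    ring
  have hS : Summable F := by
    refine Summable.of_nat_of_neg (hN.congr fun k => ?_) (hN.congr fun k => ?_)
    · simp [hF]
    · simp [hF]
  have hT : 0 ≤ ∑' t, F t := tsum_nonneg hF0
  have h2b : 0 < (2 : ℝ) ^ b := Real.rpow_pos_of_pos two_pos _
  refine ⟨(2 : ℝ) ^ b * (∑' t, F t) + 1, by positivity, fun I β A B hA hB h0 h1 h2 => ?_⟩
  have hG0 : 0 ≤ A ^ (b / (a + b)) * B ^ (a / (a + b)) := by positivity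
  have hzero : (∀ i ∈ I, β i ≤ 0) → ∃ j : ℤ, ∑ i ∈ I, β i * (1 + |((i - j : ℤ) : ℝ)|) ≤
      ((2 : ℝ) ^ b * (∑' t, F t) + 1) * (A ^ (b / (a + b)) * B ^ (a / (a + b))) := by
    intro hz
    refine ⟨0, le_trans (sum_nonpos fun i hi => ?_) (by positivity)⟩
    exact mul_nonpos_of_nonpos_of_nonneg (hz i hi) (by positivity)
  rcases hA.eq_or_lt with rfl | hA
  · exact hzero fun i hi => by simpa using h1 i hi
  rcases hB.eq_or_lt with rfl | hB
  · exact hzero fun i hi => by simpa using h2 i hi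
  obtain ⟨α, rfl⟩ : ∃ α : ℝ, A = (2 : ℝ) ^ α :=
    ⟨Real.logb 2 A, (Real.rpow_logb two_pos (by norm_num) hA).symm⟩
  obtain ⟨γ, rfl⟩ : ∃ γ : ℝ, B = (2 : ℝ) ^ γ :=
    ⟨Real.logb 2 B, (Real.rpow_logb two_pos (by norm_num) hB).symm⟩
  have hs : 0 < a + b := by linarith
  set u : ℝ := (γ - α) / (a + b) with hu
  set j : ℤ := ⌊u⌋ with hj
  set e : ℝ := α * (b / (a + b)) + γ * (a / (a + b)) with he
  have hG : ((2 : ℝ) ^ α) ^ (b / (a + b)) * ((2 : ℝ) ^ γ) ^ (a / (a + b)) = (2 : ℝ) ^ e := by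
    rw [← Real.rpow_mul two_pos.le, ← Real.rpow_mul two_pos.le, ← Real.rpow_add two_pos]
  have hα : α = e - a * u := by rw [he, hu]; field_simp; ring
  have hγ : γ = e + b * u := by rw [he, hu]; field_simp; ring
  have hj1 : (j : ℝ) ≤ u := Int.floor_le u
  have hj2 : u < j + 1 := Int.lt_floor_add_one u
  have hρpow : ∀ t : ℤ, ρ ^ t.natAbs = (2 : ℝ) ^ (-μ * |(t : ℝ)|) := by
    intro t
    rw [hρ, ← Real.rpow_natCast, ← Real.rpow_mul two_pos.le, Nat.cast_natAbs, Int.cast_abs]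
  have hβ : ∀ i ∈ I, β i ≤ (2 : ℝ) ^ b * (2 : ℝ) ^ e * ρ ^ (i - j).natAbs := by
    intro i hi
    rw [hρpow, ← Real.rpow_add two_pos, ← Real.rpow_add two_pos]
    push_cast
    rcases le_or_gt i j with hij | hij
    · refine (h1 i hi).trans ?_
      rw [← Real.rpow_intCast, ← Real.rpow_mul two_pos.le, ← Real.rpow_add two_pos]
      refine Real.rpow_le_rpow_of_exponent_le one_le_two ?_
      have h3 : (i : ℝ) ≤ j := by exact_mod_cast hij
      rw [abs_of_nonpos (by linarith), hα]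
      have h4 : μ ≤ a := min_le_left _ _
      nlinarith [mul_nonneg (sub_nonneg.2 h4) (sub_nonneg.2 h3), mul_nonneg ha.le (sub_nonneg.2 hj1)]
    · refine (h2 i hi).trans ?_
      rw [← Real.rpow_intCast, ← Real.rpow_mul two_pos.le, ← Real.rpow_add two_pos]
      refine Real.rpow_le_rpow_of_exponent_le one_le_two ?_
      have h3 : (j : ℝ) ≤ i := by exact_mod_cast hij.le
      rw [abs_of_nonneg (by linarith), hγ]
      have h4 : μ ≤ b := min_le_right _ _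
      nlinarith [mul_nonneg (sub_nonneg.2 h4) (sub_nonneg.2 h3), mul_nonneg hb.le (sub_nonneg.2 hj2.le)]
  refine ⟨j, ?_⟩
  rw [hG]
  have h2e : 0 < (2 : ℝ) ^ e := Real.rpow_pos_of_pos two_pos _
  have hsum : ∑ i ∈ I, F (i - j) ≤ ∑' t, F t := by
    rw [← sum_image (s := I) (g := fun i => i - j) (f := F) (fun x _ y _ hxy => by simpa using hxy)]
    exact hS.sum_le_tsum _ fun t _ => hF0 t
  calc ∑ i ∈ I, β i * (1 + |((i - j : ℤ) : ℝ)|)
      ≤ ∑ i ∈ I, (2 : ℝ) ^ b * (2 : ℝ) ^ e * F (i - j) := by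
        refine sum_le_sum fun i hi => ?_
        rw [hF, ← mul_assoc]
        exact mul_le_mul_of_nonneg_right (hβ i hi) (by positivity)
    _ = (2 : ℝ) ^ b * (2 : ℝ) ^ e * ∑ i ∈ I, F (i - j) := by rw [mul_sum]
    _ ≤ (2 : ℝ) ^ b * (2 : ℝ) ^ e * ∑' t, F t := mul_le_mul_of_nonneg_left hsum (by positivity)
    _ ≤ _ := by nlinarith

end Crest.Agent.R232
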