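import Crest.Agent.R232.Syn2
import Crest.Agent.R232.SynInf
import Crest.Agent.R232.Syn1
import Crest.Agent.R232.Pot
import Crest.Agent.R232.TwoSided
import Crest.Agent.R232.AtomsAux

/-! Row 232, task AtomsLo.  Atoms for `1 < p < 2`.

`V z = √(vsq m y z)`, `lev z = Int.clog 2 (V z)` (`V ≤ 2^lev`, `2^lev < 2 V` when `V > 0`; when
`V z = 0` all `y k z`, `k < m`, vanish), `I` = image of `lev`,
`g i k z = if lev z = i then y k z else 0`, `hs i = syn2 m (g i)`.
(a) `syn2_eq`, `syn_inf` with `B = 6 L 4^i` (`Stoch.sq_le`, `pot_JN` with `ab = eta * g²`):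
`|sl| ≤ 12 L 2^i`.  `Φ₂ = ∑ i, (2^i)^(p-2) sl²`, `Φ₁ = ∑ i, (2^i)^(p-1) |sl|`;
`∑ al Φ₂ ≤ 2 ∑_z pi (2^lev)^(p-2) V² ≤ 2 ∑ pi V^p` (`syn2_two`; `2^lev ≥ V`, `p - 2 < 0`),
`∑ al Φ₁ ≤ 4 √L ∑_z pi (2^lev)^(p-1) V ≤ 8 √L ∑ pi V^p` (`syn2_one`).
(b) `twoSided ((2-p)/2) (p-1)` with `A = √Φ₂`, `B = Φ₁`: the `p`-th power is
`C^p Φ₂^(p-1) Φ₁^(2-p) ≤ C^p √L^(2-p) (Φ₂ + Φ₁/√L)` (weighted AM-GM). -/

set_option autoImplicit false
open Finset Matrix

namespace Crest.Agent.R232

variable {n : ℕ}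

theorem atoms_lo (p : ℝ) (hp1 : 1 < p) (hp : p < 2) :
    ∃ C : ℝ, 1 ≤ C ∧ ∀ (n : ℕ) (c : Ch n) (L : ℝ), c.OK L → ∀ m : ℕ,
      (∀ x y, c.theta m x y ≤ 6 * L) → ∀ y : ℕ → Fin n → ℝ,
      IsAtoms c.d c.al p (C * L) (C * L ^ (1 / p - 1 / 2)) (c.vn m p y) (c.syn2 m y) := by
  obtain ⟨C₀, hC₀, H⟩ := twoSided ((2 - p) / 2) (p - 1) (by linarith) (by linarith)
  set T : ℝ := 10 * C₀ ^ p with hT
  have hT0 : 0 ≤ T := by positivity
  refine ⟨12 + T, by linarith, fun n c L h m hΘ y => ?_⟩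
  have hL := h.one_le
  have he := h.eta_pos
  let lev : Fin n → ℤ := fun z => Int.clog 2 √(c.vsq m y z)
  let I : Finset ℤ := univ.image lev
  have hI : ∀ z, lev z ∈ I := fun z => mem_image_of_mem _ (mem_univ _)
  let g : ℤ → ℕ → Fin n → ℝ := fun i k z => if lev z = i then y k z else 0
  have hg : ∀ i z, c.vsq m (g i) z = if lev z = i then c.vsq m y z else 0 := fun i z => by
    simp only [Ch.vsq, g]
    split_ifs <;> simp
  have hU := h.vsq_nonneg m y
  have hS := h.vn_nonneg m p y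
  have hv : c.vn m p y = ∑ z, c.pi z * √(c.vsq m y z) ^ p := by
    refine sum_congr rfl fun z _ => ?_
    rw [Real.sqrt_eq_rpow, ← Real.rpow_mul (hU z)]
    congr 2
    ring
  have hA : ∀ i x z, |sl c.d (c.syn2 m (g i)) x z| ≤ 12 * L * (2 : ℝ) ^ i := by
    intro i x z
    rw [h.syn2_eq]
    have h1 := h.syn_inf m hΘ (fun k => (c.M ^ k) *ᵥ g i k) (B := 6 * L * ((2 : ℝ) ^ i) ^ 2)
      (fun x => ?_) x z
    · rw [show 6 * L * (6 * L * ((2 : ℝ) ^ i) ^ 2) = (6 * L * (2 : ℝ) ^ i) ^ 2 by ring,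
        Real.sqrt_sq (by positivity)] at h1
      linarith
    refine le_trans ?_ (h.pot_JN m (ab := fun k z => c.eta * g i k z ^ 2) (fun k z => by positivity)
      (fun z => ?_) x)
    · rw [mul_sum]
      refine sum_le_sum fun k _ => ?_
      rw [AtomsAux.mulVec_mul, two_mul, pow_add, ← mulVec_mulVec]
      exact mul_le_mul_of_nonneg_left
        ((h.stoch.pow k).mono (fun z => (h.stoch.pow k).sq_le _ z) x) he.le
    · rw [← mul_sum, ← Ch.vsq, hg]
      split_ifs with hz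
      · rw [← hz]
        exact (Real.sqrt_le_left (by positivity)).1 (AtomsAux.le_clog _)
      · positivity
  have hΦ₂ : ∑ x, ∑ z, c.al x z * ∑ i ∈ I, ((2 : ℝ) ^ i) ^ (p - 2) *
      |sl c.d (c.syn2 m (g i)) x z| ^ (2 : ℝ) ≤ 2 * c.vn m p y := by
    rw [AtomsAux.sum_en]
    calc ∑ i ∈ I, ((2 : ℝ) ^ i) ^ (p - 2) * en c.d c.al 2 (c.syn2 m (g i))
        ≤ ∑ i ∈ I, ((2 : ℝ) ^ i) ^ (p - 2) * (2 * ∑ z, c.pi z * c.vsq m (g i) z) :=
          sum_le_sum fun i _ => mul_le_mul_of_nonneg_left (h.syn2_two m _) (by positivity)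
      _ = 2 * ∑ z, c.pi z * (((2 : ℝ) ^ lev z) ^ (p - 2) * c.vsq m y z) := by
          simp only [hg, mul_sum]
          rw [sum_comm]
          refine sum_congr rfl fun z _ => ?_
          rw [sum_eq_single_of_mem _ (hI z)]
          · rw [if_pos rfl]
            ring
          · intro i _ hi
            rw [if_neg hi.symm]
            ring
      _ ≤ 2 * c.vn m p y := by
          rw [hv]
          refine mul_le_mul_of_nonneg_left (sum_le_sum fun z _ =>
            mul_le_mul_of_nonneg_left ?_ (h.pi_pos z).le) zero_le_two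
          rcases (hU z).eq_or_lt with h3 | h3
          · rw [← h3, mul_zero]
            positivity
          · have h4 := Real.sqrt_pos.2 h3
            refine (mul_le_mul_of_nonneg_right (Real.rpow_le_rpow_of_nonpos h4 (AtomsAux.le_clog _)
              (by linarith)) h3.le).trans (le_of_eq ?_)
            conv_lhs => enter [2]; rw [← Real.sq_sqrt h3.le, ← Real.rpow_two]
            rw [← Real.rpow_add h4]
            congr 1
            ring
  have hΦ₁ : ∑ x, ∑ z, c.al x z * ∑ i ∈ I, ((2 : ℝ) ^ i) ^ (p - 1) *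
      |sl c.d (c.syn2 m (g i)) x z| ^ (1 : ℝ) ≤ 8 * √L * c.vn m p y := by
    rw [AtomsAux.sum_en]
    calc ∑ i ∈ I, ((2 : ℝ) ^ i) ^ (p - 1) * en c.d c.al 1 (c.syn2 m (g i))
        ≤ ∑ i ∈ I, ((2 : ℝ) ^ i) ^ (p - 1) * (4 * √L * ∑ z, c.pi z * √(c.vsq m (g i) z)) :=
          sum_le_sum fun i _ => mul_le_mul_of_nonneg_left (h.syn2_one m _) (by positivity)
      _ = 4 * √L * ∑ z, c.pi z * (((2 : ℝ) ^ lev z) ^ (p - 1) * √(c.vsq m y z)) := by
          simp only [hg, mul_sum]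
          rw [sum_comm]
          refine sum_congr rfl fun z _ => ?_
          rw [sum_eq_single_of_mem _ (hI z)]
          · rw [if_pos rfl]
            ring
          · intro i _ hi
            rw [if_neg hi.symm, Real.sqrt_zero]
            ring
      _ ≤ 4 * √L * ∑ z, 2 * (c.pi z * √(c.vsq m y z) ^ p) := by
          refine mul_le_mul_of_nonneg_left (sum_le_sum fun z _ => ?_) (by positivity)
          rw [mul_left_comm _ (c.pi z)]
          refine mul_le_mul_of_nonneg_left ?_ (h.pi_pos z).le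
          rcases (Real.sqrt_nonneg (c.vsq m y z)).eq_or_lt with h3 | h3
          · rw [← h3, mul_zero]
            positivity
          · refine (mul_le_mul_of_nonneg_right (Real.rpow_le_rpow (by positivity) (AtomsAux.clog_le h3)
              (by linarith)) h3.le).trans ?_
            rw [Real.mul_rpow zero_le_two h3.le, mul_assoc, ← Real.rpow_add_one h3.ne', sub_add_cancel]
            refine mul_le_mul_of_nonneg_right ?_ (by positivity)
            simpa using Real.rpow_le_rpow_of_exponent_le one_le_two (show p - 1 ≤ 1 by linarith)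
      _ = 8 * √L * c.vn m p y := by
          rw [← mul_sum, ← hv]
          ring
  have hs : 0 < √L := Real.sqrt_pos.2 (by linarith)
  have hj : ∀ x z, ∃ j : ℤ, (∑ i ∈ I, |sl c.d (c.syn2 m (g i)) x z| * (1 + |((i - j : ℤ) : ℝ)|)) ^ p ≤
      C₀ ^ p * √L ^ (2 - p) * ((∑ i ∈ I, ((2 : ℝ) ^ i) ^ (p - 2) *
        |sl c.d (c.syn2 m (g i)) x z| ^ (2 : ℝ)) + (√L)⁻¹ * ∑ i ∈ I, ((2 : ℝ) ^ i) ^ (p - 1) *
        |sl c.d (c.syn2 m (g i)) x z| ^ (1 : ℝ)) := by
    intro x z
    set Φ := ∑ i ∈ I, ((2 : ℝ) ^ i) ^ (p - 2) * |sl c.d (c.syn2 m (g i)) x z| ^ (2 : ℝ) with hΦ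
    set Ψ := ∑ i ∈ I, ((2 : ℝ) ^ i) ^ (p - 1) * |sl c.d (c.syn2 m (g i)) x z| ^ (1 : ℝ) with hΨ
    have hΦ0 : 0 ≤ Φ := sum_nonneg fun i _ => by positivity
    have hΨ0 : 0 ≤ Ψ := sum_nonneg fun i _ => by positivity
    obtain ⟨j, hj⟩ := H I (fun i => |sl c.d (c.syn2 m (g i)) x z|) √Φ Ψ (Real.sqrt_nonneg _) hΨ0
      (fun _ _ => abs_nonneg _) (fun i hi => by
        rw [show (2 - p) / 2 = -((p - 2) / 2) by ring]
        exact AtomsAux.le_sqrt_mul (β := fun i => sl c.d (c.syn2 m (g i)) x z) hi)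
      fun i hi => AtomsAux.le_mul (β := fun i => sl c.d (c.syn2 m (g i)) x z) hi
    refine ⟨j, (Real.rpow_le_rpow (sum_nonneg fun i _ => by positivity) hj (by linarith)).trans ?_⟩
    have hp0 : p ≠ 0 := by linarith
    rw [Real.mul_rpow hC₀.le (by positivity), Real.mul_rpow (by positivity) (by positivity),
      Real.sqrt_eq_rpow Φ, ← Real.rpow_mul hΦ0, ← Real.rpow_mul hΦ0, ← Real.rpow_mul hΨ0,
      mul_assoc (C₀ ^ p),
      show 1 / 2 * ((p - 1) / ((2 - p) / 2 + (p - 1))) * p = p - 1 by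
        rw [show (2 - p) / 2 + (p - 1) = p / 2 by ring]; field_simp,
      show (2 - p) / 2 / ((2 - p) / 2 + (p - 1)) * p = 2 - p by
        rw [show (2 - p) / 2 + (p - 1) = p / 2 by ring]; field_simp]
    refine mul_le_mul_of_nonneg_left ?_ (by positivity)
    have h1 := Real.geom_mean_le_arith_mean2_weighted (w₁ := p - 1) (w₂ := 2 - p) (p₁ := Φ)
      (p₂ := (√L)⁻¹ * Ψ) (by linarith) (by linarith) hΦ0 (by positivity) (by ring)
    have h2 : Ψ ^ (2 - p) = √L ^ (2 - p) * ((√L)⁻¹ * Ψ) ^ (2 - p) := by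
      rw [← Real.mul_rpow hs.le (by positivity), mul_inv_cancel_left₀ hs.ne']
    rw [h2, mul_left_comm]
    refine mul_le_mul_of_nonneg_left (h1.trans ?_) (by positivity)
    have h3 : 0 ≤ (√L)⁻¹ * Ψ := by positivity
    nlinarith
  choose j hj using hj
  refine ⟨I, fun i => c.syn2 m (g i), j, ?_, fun i _ x z => (hA i x z).trans ?_, ?_, ?_⟩
  · exact AtomsAux.split (fun k => c.M ^ (2 * k)) c.eta m (fun _ => lev) I (fun _ _ => hI) y
  · refine mul_le_mul_of_nonneg_right ?_ (by positivity)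
    nlinarith
  · refine (sum_le_sum fun x _ => sum_le_sum fun z _ =>
      mul_le_mul_of_nonneg_left (hj x z) (h.al_nonneg x z)).trans ?_
    simp only [mul_left_comm (c.al _ _) (C₀ ^ p * _), ← mul_sum]
    simp only [mul_add (c.al _ _), sum_add_distrib, mul_left_comm (c.al _ _) (√L)⁻¹, ← mul_sum]
    have h1 := add_le_add hΦ₂ (mul_le_mul_of_nonneg_left hΦ₁ (inv_pos.2 hs).le)
    refine (mul_le_mul_of_nonneg_left h1 (by positivity)).trans ?_
    have hp0 : p ≠ 0 := by linarith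
    rw [Real.mul_rpow (by linarith) (by positivity), ← Real.rpow_mul (by linarith),
      show (1 / p - 1 / 2) * p = 1 / 2 * (2 - p) by field_simp, Real.rpow_mul (by linarith),
      ← Real.sqrt_eq_rpow]
    have h2 := AtomsAux.self_le_rpow (C := 12 + T) (p := p) (by linarith) (by linarith)
    calc _ = T * √L ^ (2 - p) * c.vn m p y := by
          rw [hT]; field_simp; ring
      _ ≤ _ := mul_le_mul_of_nonneg_right
          (mul_le_mul_of_nonneg_right (by linarith) (by positivity)) hS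
  · rw [qq_lo hp]
    refine hΦ₁.trans (mul_le_mul_of_nonneg_right ?_ hS)
    have h1 : √L ≤ L := Real.sqrt_le_iff.2 ⟨by linarith, by nlinarith⟩
    nlinarith

end Crest.Agent.R232
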