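import Crest.Agent.R232.AtomsHi
import Crest.Agent.R232.AtomsLo

/-! Row 232, task Ana.  The analysis side, by duality. -/

set_option autoImplicit false
open Finset Matrix

namespace Crest.Agent.R232

variable {n : ℕ}

theorem atoms (p : ℝ) (hp1 : 1 < p) (hp2 : p ≠ 2) :
    ∃ C : ℝ, 1 ≤ C ∧ ∀ (n : ℕ) (c : Ch n) (L : ℝ), c.OK L → ∀ m : ℕ,
      (∀ x y, c.theta m x y ≤ 6 * L) → ∀ y : ℕ → Fin n → ℝ,
      IsAtoms c.d c.al p (C * L) (C * L ^ |1 / 2 - 1 / p|) (c.vn m p y) (c.syn2 m y) := by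
  have hp0 : 0 < p := by linarith
  rcases hp2.lt_or_gt with h | h
  · have : |1 / 2 - 1 / p| = 1 / p - 1 / 2 := by
      rw [abs_of_neg, neg_sub]
      have := one_div_lt_one_div_of_lt hp0 h
      linarith
    rw [this]
    exact atoms_lo p hp1 h
  · have : |1 / 2 - 1 / p| = 1 / 2 - 1 / p := by
      rw [abs_of_pos]
      have := one_div_lt_one_div_of_lt (by norm_num) h
      linarith
    rw [this]
    exact atoms_hi p h

/-- `p' = p / (p-1)`, `atoms p'`, `IsAtoms.en_le`.  With `y k = M^(2k) Lap f`, `U = vsq m y`,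
`w k z = y k z * U z ^ ((p-2)/2)`: `vsq m w = U^(p-1)`, `vn m p' w = vn m p y = S`, and
`S = eta ∑_k ⟨y k, w k⟩ = ⟨Lap f, syn2 m w⟩ = (1/2) ∑ al sl f sl h` (`selfadj`, `green`);
Young `|ab| ≤ |N a|^p / p + |b / N|^p' / p'` gives `S ≤ (N^p en p f + S) / 2`. -/
theorem ana (p : ℝ) (hp1 : 1 < p) (hp2 : p ≠ 2) :
    ∃ C : ℝ, 1 ≤ C ∧ ∀ (n : ℕ) (c : Ch n) (L : ℝ), c.OK L → ∀ m : ℕ,
      (∀ x y, c.theta m x y ≤ 6 * L) → ∀ f : Fin n → ℝ,
      c.vn m p (fun k => (c.M ^ (2 * k)) *ᵥ c.Lap f) ≤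
        (C * L ^ |1 / 2 - 1 / p|) ^ p * en c.d c.al p f := by
  have hp0 : 0 < p := by linarith
  have hp1' : 0 < p - 1 := by linarith
  have hc := Real.HolderConjugate.conjExponent hp1
  set q := Real.conjExponent p with hq
  have hq' : q = p / (p - 1) := rfl
  have hq1 : 1 < q := hc.symm.lt
  have hq2 : q ≠ 2 := by
    intro h
    rw [hq', div_eq_iff hp1'.ne'] at h
    exact hp2 (by linarith)
  have hab : |1 / 2 - 1 / q| = |1 / 2 - 1 / p| := by
    rw [← abs_neg]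
    congr 1
    rw [hq']
    field_simp
    ring
  obtain ⟨C, hC, H⟩ := atoms q hq1 hq2
  refine ⟨C, hC, fun n c L h m hΘ f => ?_⟩
  set y : ℕ → Fin n → ℝ := fun k => (c.M ^ (2 * k)) *ᵥ c.Lap f with hy
  set N := C * L ^ |1 / 2 - 1 / p| with hN
  have hN0 : 0 < N := mul_pos (by linarith) (Real.rpow_pos_of_pos (by linarith [h.one_le]) _)
  let w : ℕ → Fin n → ℝ := fun k z => y k z * c.vsq m y z ^ ((p - 2) / 2)
  have hU := h.vsq_nonneg m y
  have hw : ∀ z, c.vsq m w z = c.vsq m y z ^ (p - 1) := fun z => by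
    have e1 : c.vsq m w z = c.vsq m y z * (c.vsq m y z ^ ((p - 2) / 2)) ^ 2 := by
      conv_rhs => enter [1]; rw [Ch.vsq]
      simp only [Ch.vsq, w, mul_pow, ← sum_mul, mul_assoc]
    rw [e1, ← Real.rpow_two, ← Real.rpow_mul (hU z), mul_comm,
      ← Real.rpow_add_one' (hU z) (by linarith)]
    congr 1
    ring
  have hS : c.vn m q w = c.vn m p y := by
    refine sum_congr rfl fun z _ => ?_
    rw [hw, ← Real.rpow_mul (hU z), hq']
    congr 2
    field_simp
  have h1 := (H n c L h m hΘ w).en_le h.al_nonneg (by linarith)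
  rw [hab, ← hN, hS] at h1
  have h2 : c.vn m p y = ∑ x, c.pi x * (c.Lap f x * c.syn2 m w x) := by
    have e1 : ∀ z, c.vsq m y z ^ (p / 2) = c.eta * ∑ k ∈ range m, y k z * w k z := fun z => by
      have e2 : c.eta * ∑ k ∈ range m, y k z * w k z = c.vsq m y z * c.vsq m y z ^ ((p - 2) / 2) := by
        conv_rhs => enter [1]; rw [Ch.vsq]
        simp only [w, ← mul_assoc, ← sum_mul, sq]
      rw [e2, mul_comm, ← Real.rpow_add_one' (hU z) (by linarith)]
      congr 1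
      ring
    simp only [Ch.vn, e1, Ch.syn2, mul_sum]
    rw [sum_comm, sum_comm (s := univ)]
    refine sum_congr rfl fun k _ => ?_
    have e3 := congrArg (c.eta * ·) (h.selfadj (2 * k) (c.Lap f) (w k))
    simp only [mul_sum] at e3
    refine Eq.trans (sum_congr rfl fun z _ => ?_) (e3.trans (sum_congr rfl fun z _ => ?_))
    · simp only [hy]; ring
    · ring
  rw [h.green] at h2
  have h3 : ∑ x, ∑ z, c.al x z * (sl c.d f x z * sl c.d (c.syn2 m w) x z) ≤
      N ^ p * en c.d c.al p f + (N ^ q)⁻¹ * en c.d c.al q (c.syn2 m w) := by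
    simp only [en, mul_sum, ← sum_add_distrib]
    refine sum_le_sum fun x _ => sum_le_sum fun z _ => ?_
    have e1 := Real.young_inequality (N * sl c.d f x z) (N⁻¹ * sl c.d (c.syn2 m w) x z) hc
    rw [abs_mul N, abs_mul N⁻¹, abs_of_pos hN0, abs_of_pos (inv_pos.2 hN0),
      Real.mul_rpow hN0.le (abs_nonneg _), Real.mul_rpow (inv_pos.2 hN0).le (abs_nonneg _),
      Real.inv_rpow hN0.le, mul_mul_mul_comm, mul_inv_cancel₀ hN0.ne', one_mul] at e1
    have e2 := add_le_add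
      (div_le_self (a := N ^ p * |sl c.d f x z| ^ p) (by positivity) hp1.le)
      (div_le_self (a := (N ^ q)⁻¹ * |sl c.d (c.syn2 m w) x z| ^ q) (by positivity) hq1.le)
    have e3 := mul_le_mul_of_nonneg_left (e1.trans e2) (h.al_nonneg x z)
    linarith
  have h4 : (N ^ q)⁻¹ * en c.d c.al q (c.syn2 m w) ≤ c.vn m p y := by
    rwa [inv_mul_le_iff₀ (by positivity)]
  linarith

end Crest.Agent.R232
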