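import Crest.Agent.R232.Syn2
import Crest.Agent.R232.SynInf
import Crest.Agent.R232.Pot
import Crest.Agent.R232.TwoSided
import Crest.Agent.R232.AtomsAux

/-! Row 232, task AtomsHi.  Atoms for `p > 2`.

`ab k z = eta * y k z ^ 2`, `a k = M^k ab k`, `Z = pot m a`, `u k = M^k y k` (`eta u² ≤ a`),
level `lev k z = Int.clog 2 √(Z k z)` (so `Z ≤ 4^lev`, and `4^lev < 4 Z` when `Z > 0`; when `Z = 0`
also `a = 0`).  `I` = image of `lev` on `range m × univ`,
`hs i = syn m (fun k z => if lev k z = i then u k z else 0)`; `∑ hs i = syn m u = syn2 m y`.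
(a) `syn_inf` with `B = 4^i` (`pot_cut`): `|sl| ≤ 2 √(6L) 2^i`.
`Φ x y = ∑ i, (2^i)^(p-2) sl²`; `∑ al Φ ≤ 2 ∑_k ∑_z pi a (2^lev)^(p-2) ≤ 2 * 4^(r-1) Q` with `r = p/2`
(`syn_two`, `pot_Q`), and `∑ k, ab k z = vsq`.  (b) `twoSided 1 ((p-2)/2)` with `A = 2√(6L)`,
`B = √Φ`: the `p`-th power is `C^p (24 L)^((p-2)/2) Φ`. -/

set_option autoImplicit false
open Finset Matrix

namespace Crest.Agent.R232

variable {n : ℕ}

theorem atoms_hi (p : ℝ) (hp : 2 < p) :
    ∃ C : ℝ, 1 ≤ C ∧ ∀ (n : ℕ) (c : Ch n) (L : ℝ), c.OK L → ∀ m : ℕ,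
      (∀ x y, c.theta m x y ≤ 6 * L) → ∀ y : ℕ → Fin n → ℝ,
      IsAtoms c.d c.al p (C * L) (C * L ^ (1 / 2 - 1 / p)) (c.vn m p y) (c.syn2 m y) := by
  obtain ⟨C₀, hC₀, H⟩ := twoSided 1 ((p - 2) / 2) one_pos (by linarith)
  set K₀ : ℝ := 2 * (2 ^ (p - 2) * (p / 2) ^ (p / 2 - 1)) with hK₀
  have hK₀0 : 0 ≤ K₀ := by positivity
  set T : ℝ := C₀ ^ p * 24 ^ ((p - 2) / 2) * K₀ with hT
  have hT0 : 0 ≤ T := by positivity
  refine ⟨6 + K₀ + T, by linarith, fun n c L h m hΘ y => ?_⟩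
  have hL := h.one_le
  have he := h.eta_pos
  let ab : ℕ → Fin n → ℝ := fun k z => c.eta * y k z ^ 2
  let a : ℕ → Fin n → ℝ := fun k => (c.M ^ k) *ᵥ ab k
  let u : ℕ → Fin n → ℝ := fun k => (c.M ^ k) *ᵥ y k
  let lev : ℕ → Fin n → ℤ := fun k z => Int.clog 2 √(c.pot m a k z)
  let I : Finset ℤ := (range m ×ˢ univ).image fun q : ℕ × Fin n => lev q.1 q.2
  have hI : ∀ k < m, ∀ z, lev k z ∈ I := fun k hk z =>
    mem_image.2 ⟨(k, z), mem_product.2 ⟨mem_range.2 hk, mem_univ _⟩, rfl⟩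
  let g : ℤ → ℕ → Fin n → ℝ := fun i k z => if lev k z = i then u k z else 0
  have hab : ∀ k z, 0 ≤ ab k z := fun k z => by positivity
  have ha : ∀ k z, 0 ≤ a k z := fun k z => (h.stoch.pow k).apply_nonneg (hab k) z
  have hua : ∀ k z, c.eta * u k z ^ 2 ≤ a k z := fun k z => by
    rw [show a k z = _ from AtomsAux.mulVec_mul _ _ _ _]
    exact mul_le_mul_of_nonneg_left ((h.stoch.pow k).sq_le _ _) he.le
  have hS := h.vn_nonneg m p y
  have hA : ∀ i x z, |sl c.d (c.syn m (g i)) x z| ≤ 2 * √(6 * L) * (2 : ℝ) ^ i := by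
    intro i x z
    have h1 := h.syn_inf m hΘ (g i) (B := ((2 : ℝ) ^ i) ^ 2) (fun x => ?_) x z
    · rwa [Real.sqrt_mul (by linarith), Real.sqrt_sq (by positivity), ← mul_assoc] at h1
    refine le_trans ?_ (h.pot_cut m ha (lam := ((2 : ℝ) ^ i) ^ 2) (by positivity) x)
    rw [mul_sum]
    refine sum_le_sum fun k _ => ?_
    rw [← AtomsAux.mulVec_mul]
    refine (h.stoch.pow k).mono (fun z => ?_) x
    by_cases hz : lev k z = i
    · have h2 : c.pot m a k z ≤ ((2 : ℝ) ^ i) ^ 2 := by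
        rw [← hz]
        exact (Real.sqrt_le_left (by positivity)).1 (AtomsAux.le_clog _)
      simp only [g, if_pos hz, if_pos h2]
      exact hua k z
    · simp only [g, if_neg hz]
      split_ifs
      · simpa using ha k z
      · simp
  have hΦ : ∑ x, ∑ z, c.al x z * ∑ i ∈ I, ((2 : ℝ) ^ i) ^ (p - 2) *
      |sl c.d (c.syn m (g i)) x z| ^ (2 : ℝ) ≤ K₀ * c.vn m p y := by
    rw [AtomsAux.sum_en]
    have h1 := h.pot_Q m hab (r := p / 2) (by linarith)
    have h2 : ∑ z, c.pi z * (∑ k ∈ range m, ab k z) ^ (p / 2) = c.vn m p y := by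
      simp only [Ch.vn, Ch.vsq, ab, mul_sum]
    rw [h2] at h1
    calc ∑ i ∈ I, ((2 : ℝ) ^ i) ^ (p - 2) * en c.d c.al 2 (c.syn m (g i))
        ≤ ∑ i ∈ I, ((2 : ℝ) ^ i) ^ (p - 2) * (2 * ∑ z, c.pi z * c.vsq m (g i) z) :=
          sum_le_sum fun i _ => mul_le_mul_of_nonneg_left (h.syn_two m _) (by positivity)
      _ = 2 * ∑ k ∈ range m, ∑ z, c.pi z * (c.eta * u k z ^ 2 * ((2 : ℝ) ^ lev k z) ^ (p - 2)) := by
          simp only [Ch.vsq, mul_sum]
          rw [sum_comm]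
          refine (sum_congr rfl fun z _ => sum_comm).trans (sum_comm.trans ?_)
          refine sum_congr rfl fun k hk => sum_congr rfl fun z _ => ?_
          rw [sum_eq_single_of_mem _ (hI k (mem_range.1 hk) z)]
          · simp only [g, if_pos]
            ring
          · intro i _ hi
            simp only [g, if_neg hi.symm]
            ring
      _ ≤ 2 * ∑ k ∈ range m, ∑ z, 2 ^ (p - 2) * (c.pi z * (a k z * c.pot m a k z ^ (p / 2 - 1))) := by
          refine mul_le_mul_of_nonneg_left (sum_le_sum fun k hk => sum_le_sum fun z _ => ?_) zero_le_two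
          rw [mul_left_comm _ (c.pi z)]
          refine mul_le_mul_of_nonneg_left ?_ (h.pi_pos z).le
          refine (mul_le_mul_of_nonneg_right (hua k z) (by positivity)).trans ?_
          rcases (h.pot_nonneg m ha k z).eq_or_lt with h3 | h3
          · have h4 : a k z = 0 := le_antisymm (h3 ▸ h.le_pot m ha (mem_range.1 hk) z) (ha k z)
            rw [h4]
            simp
          · rw [mul_left_comm _ (a k z)]
            refine mul_le_mul_of_nonneg_left ?_ (ha k z)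
            refine (Real.rpow_le_rpow (by positivity) (AtomsAux.clog_le (Real.sqrt_pos.2 h3))
              (by linarith)).trans (le_of_eq ?_)
            rw [Real.mul_rpow zero_le_two (Real.sqrt_nonneg _), Real.sqrt_eq_rpow,
              ← Real.rpow_mul h3.le]
            congr 2
            ring
      _ ≤ K₀ * c.vn m p y := by
          simp only [← mul_sum]
          rw [hK₀, mul_assoc, mul_assoc]
          exact mul_le_mul_of_nonneg_left (mul_le_mul_of_nonneg_left h1 (by positivity)) zero_le_two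
  have hj : ∀ x z, ∃ j : ℤ, (∑ i ∈ I, |sl c.d (c.syn m (g i)) x z| * (1 + |((i - j : ℤ) : ℝ)|)) ^ p ≤
      C₀ ^ p * (24 * L) ^ ((p - 2) / 2) * ∑ i ∈ I, ((2 : ℝ) ^ i) ^ (p - 2) *
        |sl c.d (c.syn m (g i)) x z| ^ (2 : ℝ) := by
    intro x z
    set Φ := ∑ i ∈ I, ((2 : ℝ) ^ i) ^ (p - 2) * |sl c.d (c.syn m (g i)) x z| ^ (2 : ℝ) with hΦ
    have hΦ0 : 0 ≤ Φ := sum_nonneg fun i _ => by positivity
    obtain ⟨j, hj⟩ := H I (fun i => |sl c.d (c.syn m (g i)) x z|) (2 * √(6 * L)) √Φ (by positivity)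
      (Real.sqrt_nonneg _) (fun _ _ => abs_nonneg _) (fun i _ => by rw [Real.rpow_one]; exact hA i x z)
      fun i hi => AtomsAux.le_sqrt_mul (β := fun i => sl c.d (c.syn m (g i)) x z) hi
    refine ⟨j, (Real.rpow_le_rpow (sum_nonneg fun i _ => by positivity) hj (by linarith)).trans
      (le_of_eq ?_)⟩
    have e1 : 2 * √(6 * L) = √(24 * L) := by
      rw [show 24 * L = 2 ^ 2 * (6 * L) by ring, Real.sqrt_mul (by norm_num) (6 * L),
        Real.sqrt_sq zero_le_two]
    have hp0 : p ≠ 0 := by linarith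
    have h24 : 0 ≤ 24 * L := by linarith
    rw [e1, Real.mul_rpow hC₀.le (by positivity), Real.mul_rpow (by positivity) (by positivity),
      Real.sqrt_eq_rpow, Real.sqrt_eq_rpow, ← Real.rpow_mul h24, ← Real.rpow_mul h24,
      ← Real.rpow_mul hΦ0, ← Real.rpow_mul hΦ0, mul_assoc (C₀ ^ p),
      show 1 / 2 * ((p - 2) / 2 / (1 + (p - 2) / 2)) * p = (p - 2) / 2 by
        rw [show 1 + (p - 2) / 2 = p / 2 by ring]; field_simp,
      show 1 / 2 * (1 / (1 + (p - 2) / 2)) * p = 1 by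
        rw [show 1 + (p - 2) / 2 = p / 2 by ring]; field_simp, Real.rpow_one]
  choose j hj using hj
  refine ⟨I, fun i => c.syn m (g i), j, ?_, fun i _ x z => (hA i x z).trans ?_, ?_, ?_⟩
  · rw [h.syn2_eq]
    exact AtomsAux.split (fun k => c.M ^ k) c.eta m lev I hI u
  · refine mul_le_mul_of_nonneg_right ?_ (by positivity)
    have h1 : √(6 * L) ≤ 3 * L := Real.sqrt_le_iff.2 ⟨by linarith, by nlinarith⟩
    nlinarith
  · refine (sum_le_sum fun x _ => sum_le_sum fun z _ =>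
      mul_le_mul_of_nonneg_left (hj x z) (h.al_nonneg x z)).trans ?_
    simp only [mul_left_comm (c.al _ _) (C₀ ^ p * _), ← mul_sum]
    refine (mul_le_mul_of_nonneg_left hΦ (by positivity)).trans ?_
    rw [← mul_assoc]
    refine mul_le_mul_of_nonneg_right ?_ hS
    have hp0 : p ≠ 0 := by linarith
    rw [Real.mul_rpow (by norm_num) (by linarith), Real.mul_rpow (by linarith) (by positivity),
      ← Real.rpow_mul (by linarith), show (1 / 2 - 1 / p) * p = (p - 2) / 2 by field_simp]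
    have h1 := AtomsAux.self_le_rpow (C := 6 + K₀ + T) (p := p) (by linarith) (by linarith)
    calc C₀ ^ p * (24 ^ ((p - 2) / 2) * L ^ ((p - 2) / 2)) * K₀ = T * L ^ ((p - 2) / 2) := by
          rw [hT]; ring
      _ ≤ _ := mul_le_mul_of_nonneg_right (by linarith) (by positivity)
  · rw [qq_hi hp.le]
    refine hΦ.trans (mul_le_mul_of_nonneg_right ?_ hS)
    nlinarith

end Crest.Agent.R232
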