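import Crest.Agent.R232.Defs

/-! Row 232, task Basic.  Elementary facts on the lazy reversible chain. -/

set_option autoImplicit false
open Finset Matrix

namespace Crest.Agent.R232

variable {n : ℕ}

/-- a stochastic matrix -/
structure Stoch (A : Matrix (Fin n) (Fin n) ℝ) : Prop where
  nonneg : ∀ x y, 0 ≤ A x y
  rowsum : ∀ x, ∑ y, A x y = 1

theorem Stoch.mul {A B : Matrix (Fin n) (Fin n) ℝ} (hA : Stoch A) (hB : Stoch B) :
    Stoch (A * B) := by
  refine ⟨fun x y => ?_, fun x => ?_⟩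
  · rw [Matrix.mul_apply]
    exact sum_nonneg fun z _ => mul_nonneg (hA.nonneg _ _) (hB.nonneg _ _)
  · simp only [Matrix.mul_apply]
    rw [sum_comm]
    simp only [← mul_sum, hB.rowsum, mul_one, hA.rowsum]

theorem Stoch.pow {A : Matrix (Fin n) (Fin n) ℝ} (hA : Stoch A) (k : ℕ) : Stoch (A ^ k) := by
  induction k with
  | zero =>
    refine ⟨fun x y => ?_, fun x => ?_⟩
    · rw [pow_zero, Matrix.one_apply]; split_ifs <;> norm_num
    · simp [Matrix.one_apply]
  | succ k ih => rw [pow_succ]; exact ih.mul hA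

theorem Stoch.mono {A : Matrix (Fin n) (Fin n) ℝ} (hA : Stoch A) {f g : Fin n → ℝ}
    (h : ∀ z, f z ≤ g z) (x : Fin n) : (A *ᵥ f) x ≤ (A *ᵥ g) x := by
  simp only [mulVec, dotProduct]
  exact sum_le_sum fun z _ => mul_le_mul_of_nonneg_left (h z) (hA.nonneg _ _)

theorem Stoch.const {A : Matrix (Fin n) (Fin n) ℝ} (hA : Stoch A) (t : ℝ) (x : Fin n) :
    (A *ᵥ fun _ => t) x = t := by
  simp only [mulVec, dotProduct, ← sum_mul, hA.rowsum, one_mul]

theorem Stoch.apply_nonneg {A : Matrix (Fin n) (Fin n) ℝ} (hA : Stoch A) {f : Fin n → ℝ}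
    (h : ∀ z, 0 ≤ f z) (x : Fin n) : 0 ≤ (A *ᵥ f) x := by
  simp only [mulVec, dotProduct]
  exact sum_nonneg fun z _ => mul_nonneg (hA.nonneg _ _) (h z)

theorem Stoch.abs_le {A : Matrix (Fin n) (Fin n) ℝ} (hA : Stoch A) {f : Fin n → ℝ} {B : ℝ}
    (h : ∀ z, |f z| ≤ B) (x : Fin n) : |(A *ᵥ f) x| ≤ B := by
  rw [_root_.abs_le]
  constructor
  · rw [← hA.const (-B) x]
    exact hA.mono (fun z => (_root_.abs_le.mp (h z)).1) x
  · rw [← hA.const B x]
    exact hA.mono (fun z => (_root_.abs_le.mp (h z)).2) x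

/-- Jensen for the square (`Finset.inner_mul_le_norm_mul_norm`-type or `ConvexOn.map_sum_le`). -/
theorem Stoch.sq_le {A : Matrix (Fin n) (Fin n) ℝ} (hA : Stoch A) (f : Fin n → ℝ) (x : Fin n) :
    (A *ᵥ f) x ^ 2 ≤ (A *ᵥ fun z => f z ^ 2) x := by
  set t := (A *ᵥ f) x with ht
  have h1 : (A *ᵥ fun z => 2 * t * f z - t ^ 2) x ≤ (A *ᵥ fun z => f z ^ 2) x :=
    hA.mono (fun z => by nlinarith [sq_nonneg (f z - t)]) x
  have h2 : (A *ᵥ fun z => 2 * t * f z - t ^ 2) x = t ^ 2 := by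
    have : (A *ᵥ fun z => 2 * t * f z - t ^ 2) x = 2 * t * (A *ᵥ f) x - (∑ y, A x y) * t ^ 2 := by
      simp only [mulVec, dotProduct, mul_sub, sum_sub_distrib, mul_sum, sum_mul]
      congr 1
      exact sum_congr rfl fun y _ => by ring
    rw [this, hA.rowsum, ← ht]; ring
  linarith

/-- Jensen for powers (`Real.rpow_arith_mean_le_arith_mean_rpow`). -/
theorem Stoch.rpow_le {A : Matrix (Fin n) (Fin n) ℝ} (hA : Stoch A) {f : Fin n → ℝ}
    (h : ∀ z, 0 ≤ f z) {r : ℝ} (hr : 1 ≤ r) (x : Fin n) :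
    (A *ᵥ f) x ^ r ≤ (A *ᵥ fun z => f z ^ r) x := by
  simp only [mulVec, dotProduct]
  exact Real.rpow_arith_mean_le_arith_mean_rpow univ (A x) f (fun z _ => hA.nonneg _ _)
    (hA.rowsum x) (fun z _ => h z) hr

namespace Ch.OK
variable {c : Ch n} {L : ℝ}

theorem q_nonneg (h : c.OK L) (x y : Fin n) : 0 ≤ c.q x y := by
  unfold Ch.q
  have := h.eta_pos; have := h.al_nonneg x y; have := h.pi_pos x
  positivity

theorem q_self (h : c.OK L) (x : Fin n) : c.q x x = 0 := by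
  simp [Ch.q, h.isD.self]

/-- `q x y ≤ al x y / (4 pi x)` by `lazy`, then `marg`. -/
theorem q_sum_le (h : c.OK L) (x : Fin n) : ∑ y, c.q x y ≤ 1 / 2 := by
  have hp := h.pi_pos x
  have h1 : ∀ y, c.q x y ≤ c.al x y / (4 * c.pi x) := by
    intro y
    by_cases hxy : x = y
    · subst hxy; rw [h.q_self]; have := h.al_nonneg x x; positivity
    · have hd := h.isD.pos x y hxy
      unfold Ch.q
      rw [div_le_div_iff₀ (by positivity) (by positivity)]
      have h2 := h.lazy x y hxy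
      have h3 := mul_nonneg (h.al_nonneg x y) hp.le
      nlinarith
  calc ∑ y, c.q x y ≤ ∑ y, c.al x y / (4 * c.pi x) := sum_le_sum fun y _ => h1 y
    _ = (∑ y, c.al x y) / (4 * c.pi x) := by rw [sum_div]
    _ ≤ 1 / 2 := by
      rw [div_le_div_iff₀ (by positivity) (by norm_num)]
      have := h.marg x
      linarith

theorem M_diag (h : c.OK L) (x : Fin n) : c.M x x = 1 - ∑ y, c.q x y := by
  simp [Ch.M, h.q_self]

theorem M_off (_h : c.OK L) {x y : Fin n} (hxy : x ≠ y) : c.M x y = c.q x y := by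
  simp [Ch.M, hxy]

theorem stoch (h : c.OK L) : Stoch c.M := by
  refine ⟨fun x y => ?_, fun x => ?_⟩
  · by_cases hxy : x = y
    · subst hxy; rw [h.M_diag]; have := h.q_sum_le x; linarith
    · rw [h.M_off hxy]; exact h.q_nonneg x y
  · simp [Ch.M, sum_add_distrib]

/-- `pi x * q x y = eta * al x y / d x y ^ 2` -/
theorem pi_mul_q (h : c.OK L) (x y : Fin n) :
    c.pi x * c.q x y = c.eta * c.al x y / c.d x y ^ 2 := by
  unfold Ch.q
  have := (h.pi_pos x).ne'
  by_cases hd : c.d x y = 0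
  · simp [hd]
  · field_simp

/-- reversibility of the powers -/
theorem rev (h : c.OK L) (k : ℕ) (x y : Fin n) :
    c.pi x * (c.M ^ k) x y = c.pi y * (c.M ^ k) y x := by
  have h1 : ∀ x y, c.pi x * c.M x y = c.pi y * c.M y x := by
    intro x y
    by_cases hxy : x = y
    · subst hxy; rfl
    · rw [h.M_off hxy, h.M_off (Ne.symm hxy), h.pi_mul_q, h.pi_mul_q, h.al_symm x y,
        h.isD.symm x y]
  induction k generalizing x y with
  | zero =>
    by_cases hxy : x = y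
    · subst hxy; rfl
    · simp [hxy, Ne.symm hxy]
  | succ k ih =>
    conv_lhs => rw [pow_succ]
    conv_rhs => rw [pow_succ']
    simp only [Matrix.mul_apply, mul_sum]
    refine sum_congr rfl fun z _ => ?_
    calc c.pi x * ((c.M ^ k) x z * c.M z y) = (c.pi x * (c.M ^ k) x z) * c.M z y := by ring
      _ = (c.pi z * c.M z y) * (c.M ^ k) z x := by rw [ih]; ring
      _ = c.pi y * (c.M y z * (c.M ^ k) z x) := by rw [h1]; ring

theorem selfadj (h : c.OK L) (k : ℕ) (f g : Fin n → ℝ) :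
    ∑ x, c.pi x * (((c.M ^ k) *ᵥ f) x * g x) = ∑ x, c.pi x * (f x * ((c.M ^ k) *ᵥ g) x) := by
  simp only [mulVec, dotProduct, sum_mul, mul_sum]
  rw [sum_comm]
  refine sum_congr rfl fun x _ => sum_congr rfl fun y _ => ?_
  calc c.pi y * ((c.M ^ k) y x * f x * g y) = (c.pi y * (c.M ^ k) y x) * (f x * g y) := by ring
    _ = _ := by rw [h.rev k y x]; ring

theorem stat (h : c.OK L) (k : ℕ) (f : Fin n → ℝ) :
    ∑ x, c.pi x * ((c.M ^ k) *ᵥ f) x = ∑ x, c.pi x * f x := by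
  have := h.selfadj k f (fun _ => 1)
  simpa only [mul_one, (h.stoch.pow k).const] using this

theorem M_mulVec (h : c.OK L) (f : Fin n → ℝ) : c.M *ᵥ f = f - c.eta • c.Lap f := by
  funext x
  have hp := (h.pi_pos x).ne'
  have h1 : c.eta * c.Lap f x = ∑ y, c.q x y * (f x - f y) := by
    unfold Ch.Lap Ch.q
    rw [sum_div, mul_sum]
    refine sum_congr rfl fun y _ => ?_
    by_cases hd : c.d x y = 0
    · simp [hd]
    · field_simp
  simp only [Pi.sub_apply, Pi.smul_apply, smul_eq_mul, h1]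
  simp only [mulVec, dotProduct, Ch.M, of_apply, add_mul, sum_add_distrib, ite_mul, zero_mul,
    sum_ite_eq, mem_univ, if_true, mul_sub, sum_sub_distrib, ← sum_mul]
  ring

/-- the Laplacian commutes with the chain (it is `(1 - M) / eta`) -/
theorem Lap_mulVec (h : c.OK L) (k : ℕ) (f : Fin n → ℝ) :
    c.Lap ((c.M ^ k) *ᵥ f) = (c.M ^ k) *ᵥ c.Lap f := by
  have he := h.eta_pos.ne'
  have h1 : ∀ g, c.Lap g = c.eta⁻¹ • (g - c.M *ᵥ g) := by
    intro g
    rw [h.M_mulVec, sub_sub_cancel, smul_smul, inv_mul_cancel₀ he, one_smul]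
  rw [h1, h1, mulVec_smul, mulVec_sub, mulVec_mulVec, mulVec_mulVec, ← pow_succ, ← pow_succ']

/-- Green's identity (symmetrize the double sum) -/
theorem green (h : c.OK L) (f g : Fin n → ℝ) :
    ∑ x, c.pi x * (c.Lap f x * g x) =
      (1 / 2) * ∑ x, ∑ y, c.al x y * (sl c.d f x y * sl c.d g x y) := by
  have h1 : ∑ x, c.pi x * (c.Lap f x * g x) =
      ∑ x, ∑ y, c.al x y * (f x - f y) / c.d x y ^ 2 * g x := by
    refine sum_congr rfl fun x _ => ?_
    have hp := (h.pi_pos x).ne'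
    unfold Ch.Lap
    rw [← sum_mul]
    field_simp
  have h2 : ∑ x, ∑ y, c.al x y * (f x - f y) / c.d x y ^ 2 * g x =
      ∑ x, ∑ y, -(c.al x y * (f x - f y) / c.d x y ^ 2 * g y) := by
    rw [sum_comm]
    refine sum_congr rfl fun x _ => sum_congr rfl fun y _ => ?_
    rw [h.al_symm y x, h.isD.symm y x]; ring
  have h3 : ∑ x, ∑ y, c.al x y * (sl c.d f x y * sl c.d g x y) =
      ∑ x, ∑ y, c.al x y * (f x - f y) / c.d x y ^ 2 * g x +
      ∑ x, ∑ y, -(c.al x y * (f x - f y) / c.d x y ^ 2 * g y) := by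
    simp only [← sum_add_distrib]
    refine sum_congr rfl fun x _ => sum_congr rfl fun y _ => ?_
    unfold sl
    ring
  rw [h1, h3, ← h2]; ring

theorem al_sum_le (h : c.OK L) : ∑ x, ∑ y, c.al x y ≤ 2 := by
  calc ∑ x, ∑ y, c.al x y ≤ ∑ x, 2 * c.pi x := sum_le_sum fun x _ => h.marg x
    _ = 2 := by rw [← mul_sum, h.pi_sum, mul_one]

theorem ker_nonneg (h : c.OK L) (k : ℕ) (x z : Fin n) : 0 ≤ c.ker k x z := by
  exact div_nonneg ((h.stoch.pow k).nonneg x z) (h.pi_pos z).le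

theorem ker_symm (h : c.OK L) (k : ℕ) (x z : Fin n) : c.ker k x z = c.ker k z x := by
  unfold Ch.ker
  rw [div_eq_div_iff (h.pi_pos z).ne' (h.pi_pos x).ne', mul_comm, h.rev k x z, mul_comm]

theorem mulVec_eq_ker (h : c.OK L) (k : ℕ) (g : Fin n → ℝ) (x : Fin n) :
    ((c.M ^ k) *ᵥ g) x = ∑ z, c.pi z * (c.ker k x z * g z) := by
  simp only [mulVec, dotProduct, Ch.ker]
  refine sum_congr rfl fun z _ => ?_
  have := (h.pi_pos z).ne'
  field_simp

theorem ker_succ (_h : c.OK L) (k : ℕ) (z : Fin n) :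
    (fun x => c.ker (k + 1) x z) = c.M *ᵥ fun x => c.ker k x z := by
  funext x
  simp only [Ch.ker, mulVec, dotProduct, pow_succ', Matrix.mul_apply, sum_div, mul_div_assoc]

theorem ker_sum (h : c.OK L) (k : ℕ) (z : Fin n) : ∑ x, c.pi x * c.ker k x z = 1 := by
  have := h.mulVec_eq_ker k (fun _ => 1) z
  rw [(h.stoch.pow k).const] at this
  rw [this]
  exact sum_congr rfl fun x _ => by rw [mul_one, h.ker_symm]

theorem syn2_eq (_h : c.OK L) (m : ℕ) (g : ℕ → Fin n → ℝ) :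
    c.syn2 m g = c.syn m fun k => (c.M ^ k) *ᵥ g k := by
  funext x
  simp only [Ch.syn2, Ch.syn, mulVec_mulVec, ← pow_add, two_mul]

theorem vsq_nonneg (h : c.OK L) (m : ℕ) (g : ℕ → Fin n → ℝ) (z : Fin n) : 0 ≤ c.vsq m g z := by
  exact mul_nonneg h.eta_pos.le (sum_nonneg fun k _ => sq_nonneg _)

theorem vn_nonneg (h : c.OK L) (m : ℕ) (p : ℝ) (g : ℕ → Fin n → ℝ) : 0 ≤ c.vn m p g := by
  exact sum_nonneg fun z _ => mul_nonneg (h.pi_pos z).le (Real.rpow_nonneg (h.vsq_nonneg m g z) _)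

theorem theta_nonneg (h : c.OK L) (m : ℕ) (x y : Fin n) : 0 ≤ c.theta m x y := by
  refine div_nonneg (mul_nonneg h.eta_pos.le (sum_nonneg fun k _ => sum_nonneg fun z _ => ?_))
    (sq_nonneg _)
  exact mul_nonneg (h.pi_pos z).le (sq_nonneg _)

theorem theta_symm (h : c.OK L) (m : ℕ) (x y : Fin n) : c.theta m x y = c.theta m y x := by
  unfold Ch.theta Ch.hel
  rw [h.isD.symm x y]
  congr 2
  exact sum_congr rfl fun k _ => sum_congr rfl fun z _ => by ring

end Ch.OK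

end Crest.Agent.R232
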