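import Crest.Agent.R232.Ent
import Crest.Agent.R332.Brouwer

/-! Row 232, task Fix.  Brouwer's theorem makes `theta` uniformly bounded.

For `u : Fin n → Fin n → ℝ` put `σ u = max 1 (∑∑ u⁺)`, `r u = u⁺ / σ u` (total mass ≤ 1),
`w u = (al0 + r u + 1/n²) / 3`, `al u x y = (w u x y + w u y x) / 2` (total mass `A ≤ 1`),
`pi u x = (∑ y, al u x y + (2 - A) / n) / 2 ≥ 1 / (2 n)`.  The chain `ch u` is `OK (log (2n))`.
`T u x y = r u x y + min 1 (max 0 (theta (ch u) m x y - 6 L))` is continuous, bounded by `2`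
(`Crest.Agent.R332.brouwer`).  At a fixed point `u ≥ 0`; if `σ u = 1` the correction vanishes
(done).  Otherwise `σ = ∑∑ u > 1`, `r u` is a probability supported where `theta > 6 L`, so
`∑ r theta > 6 L`, while `∑ r theta ≤ 3 ∑ w theta = 3 ∑ al theta ≤ 6 L`
(`theta_symm`, `theta_nonneg`, `theta_avg`). -/

set_option autoImplicit false
open Finset Matrix

namespace Crest.Agent.R232

variable {n : ℕ}

theorem exists_chain (hn : 2 ≤ n) (d : Fin n → Fin n → ℝ) (hd : IsD d) (eta : ℝ) (heta : 0 < eta)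
    (hlazy : ∀ x y, x ≠ y → 4 * eta ≤ d x y ^ 2) (m : ℕ) (al0 : Fin n → Fin n → ℝ)
    (h0 : ∀ x y, 0 ≤ al0 x y) (h1 : ∑ x, ∑ y, al0 x y ≤ 1) :
    ∃ c : Ch n, c.d = d ∧ c.eta = eta ∧ c.OK (Real.log (2 * n)) ∧
      (∀ x y, al0 x y / 6 ≤ c.al x y) ∧ (∀ x y, 1 / (3 * (n : ℝ) ^ 2) ≤ c.al x y) ∧
      ∀ x y, c.theta m x y ≤ 6 * Real.log (2 * n) := by
  have hnR : (2 : ℝ) ≤ n := by exact_mod_cast hn
  have hn0 : (0 : ℝ) < n := by linarith
  let σ : (Fin n → Fin n → ℝ) → ℝ := fun u => max 1 (∑ x, ∑ y, max (u x y) 0)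
  let r : (Fin n → Fin n → ℝ) → Fin n → Fin n → ℝ := fun u x y => max (u x y) 0 / σ u
  let w : (Fin n → Fin n → ℝ) → Fin n → Fin n → ℝ := fun u x y => (al0 x y + r u x y + 1 / (n : ℝ) ^ 2) / 3
  let al : (Fin n → Fin n → ℝ) → Fin n → Fin n → ℝ := fun u x y => (w u x y + w u y x) / 2
  let pi : (Fin n → Fin n → ℝ) → Fin n → ℝ := fun u x => (∑ y, al u x y + (2 - ∑ x, ∑ y, al u x y) / n) / 2
  let ch : (Fin n → Fin n → ℝ) → Ch n := fun u => ⟨d, al u, pi u, eta⟩
  have σ1 : ∀ u, 1 ≤ σ u := fun u => le_max_left _ _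
  have σ0 : ∀ u, 0 < σ u := fun u => one_pos.trans_le (σ1 u)
  have r0 : ∀ u x y, 0 ≤ r u x y := fun u x y => div_nonneg (le_max_right _ _) (σ0 u).le
  have rs : ∀ u, ∑ x, ∑ y, r u x y = (∑ x, ∑ y, max (u x y) 0) / σ u := fun u => by
    simp only [r, sum_div]
  have r1 : ∀ u, ∑ x, ∑ y, r u x y ≤ 1 := fun u => by
    rw [rs, div_le_one (σ0 u)]
    exact le_max_right _ _
  have hi : 0 ≤ 1 / (n : ℝ) ^ 2 := by positivity
  have w0 : ∀ u x y, 0 ≤ w u x y := fun u x y => by
    have := h0 x y; have := r0 u x y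
    simp only [w]; linarith
  have al0' : ∀ u x y, 0 ≤ al u x y := fun u x y => by
    have := w0 u x y; have := w0 u y x
    simp only [al]; linarith
  have alw : ∀ u (θ : Fin n → Fin n → ℝ), (∀ x y, θ x y = θ y x) →
      ∑ x, ∑ y, al u x y * θ x y = ∑ x, ∑ y, w u x y * θ x y := fun u θ hθ => by
    have : ∑ x, ∑ y, w u y x * θ x y = ∑ x, ∑ y, w u x y * θ x y := by
      rw [sum_comm]
      simp only [hθ]
    simp only [al, add_div, add_mul, sum_add_distrib, div_mul_eq_mul_div, ← sum_div, this]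
    ring
  have al1 : ∀ u, ∑ x, ∑ y, al u x y ≤ 1 := fun u => by
    have e := alw u (fun _ _ => 1) fun _ _ => rfl
    simp only [mul_one] at e
    rw [e]
    simp only [w, ← sum_div, sum_add_distrib, sum_const, card_univ, Fintype.card_fin, nsmul_eq_mul]
    have : (n : ℝ) * (n * 1) / (n : ℝ) ^ 2 = 1 := by field_simp
    linarith [r1 u]
  have pi1 : ∀ u x, 1 / (2 * (n : ℝ)) ≤ pi u x := fun u x => by
    have a1 : 0 ≤ ∑ y, al u x y := sum_nonneg fun y _ => al0' u x y
    have a2 : 1 / (n : ℝ) ≤ (2 - ∑ x, ∑ y, al u x y) / n := by gcongr; linarith [al1 u]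
    have a3 : 1 / (2 * (n : ℝ)) = 1 / n / 2 := by field_simp
    simp only [pi]; linarith
  have pi0 : ∀ u x, 0 < pi u x := fun u x => lt_of_lt_of_le (by positivity) (pi1 u x)
  have ok : ∀ u, (ch u).OK (Real.log (2 * n)) := fun u =>
    { isD := hd
      al_symm := fun x y => by simp only [ch, al]; ring
      al_nonneg := al0' u
      pi_pos := pi0 u
      pi_sum := by
        simp only [ch, pi, ← sum_div, sum_add_distrib, sum_const, card_univ, Fintype.card_fin, nsmul_eq_mul]
        field_simp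
        ring
      marg := fun x => by
        have : 0 ≤ (2 - ∑ x, ∑ y, al u x y) / n := div_nonneg (by linarith [al1 u]) hn0.le
        simp only [ch, pi]; linarith
      eta_pos := heta
      lazy := hlazy
      one_le := by
        rw [Real.le_log_iff_exp_le (by positivity)]
        linarith [Real.exp_one_lt_d9]
      logpi := fun z => Real.log_le_log (div_pos one_pos (pi0 u z))
        ((one_div_le (pi0 u z) (by positivity)).2 (pi1 u z)) }
  have cσ : Continuous σ := by simp only [σ]; fun_prop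
  have cr : ∀ x y, Continuous fun u => r u x y := fun x y =>
    Continuous.div (by fun_prop) cσ fun u => (σ0 u).ne'
  have cal : ∀ x y, Continuous fun u => al u x y := fun x y => by
    have := cr x y; have := cr y x
    simp only [al, w]; fun_prop
  have cpi : ∀ x, Continuous fun u => pi u x := fun x => by
    simp only [pi]; fun_prop
  have cq : ∀ x y, Continuous fun u => (ch u).q x y := fun x y => by
    simp only [Ch.q, ch, ← div_div]
    exact ((continuous_const.mul (cal x y)).div_const _).div (cpi x) fun u => (pi0 u x).ne'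
  have cM : Continuous fun u => (ch u).M := continuous_matrix fun x y => by
    simp only [Ch.M, Matrix.of_apply]
    split_ifs <;> fun_prop
  have cker : ∀ k x z, Continuous fun u => (ch u).ker k x z := fun k x z =>
    ((cM.pow k).matrix_elem x z).div (cpi z) fun u => (pi0 u z).ne'
  have cθ : ∀ x y, Continuous fun u => (ch u).theta m x y := fun x y => by
    have e : (fun u => (ch u).theta m x y) = fun u => eta * (∑ k ∈ range m, ∑ z, pi u z *
        (√((ch u).ker k x z) - √((ch u).ker k y z)) ^ 2) / d x y ^ 2 := rfl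
    rw [e]
    fun_prop
  obtain ⟨u, hu⟩ := Crest.Agent.R332.brouwer
    (fun (u : Fin n → Fin n → ℝ) x y => r u x y + min 1 (max 0 ((ch u).theta m x y - 6 * Real.log (2 * n))))
    (by fun_prop) 2 fun u => by
      refine (pi_norm_le_iff_of_nonneg zero_le_two).2 fun x => (pi_norm_le_iff_of_nonneg zero_le_two).2 fun y => ?_
      have a1 : r u x y ≤ 1 := le_trans ((single_le_sum (fun y _ => r0 u x y) (mem_univ y)).trans
        (single_le_sum (f := fun x => ∑ y, r u x y) (fun x _ => sum_nonneg fun y _ => r0 u x y) (mem_univ x))) (r1 u)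
      have a2 := min_le_left (1 : ℝ) (max 0 ((ch u).theta m x y - 6 * Real.log (2 * n)))
      have a3 : 0 ≤ min (1 : ℝ) (max 0 ((ch u).theta m x y - 6 * Real.log (2 * n))) :=
        le_min zero_le_one (le_max_left _ _)
      rw [Real.norm_eq_abs, abs_le]
      constructor <;> linarith [r0 u x y]
  have hu' : ∀ x y, r u x y + min 1 (max 0 ((ch u).theta m x y - 6 * Real.log (2 * n))) = u x y :=
    fun x y => congrFun (congrFun hu x) y
  have u0 : ∀ x y, max (u x y) 0 = u x y := fun x y =>
    max_eq_left (hu' x y ▸ add_nonneg (r0 u x y) (le_min zero_le_one (le_max_left _ _)))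
  refine ⟨ch u, rfl, rfl, ok u, fun x y => ?_, fun x y => ?_, ?_⟩
  · have := r0 u x y; have := w0 u y x
    simp only [ch, al, w] at *; linarith
  · have := r0 u x y; have := r0 u y x; have := h0 x y; have := h0 y x
    have e : 1 / (3 * (n : ℝ) ^ 2) = 1 / (n : ℝ) ^ 2 / 3 := by field_simp
    simp only [ch, al, w] at *; linarith
  rcases (σ1 u).eq_or_lt with h | h
  · intro x y
    have e := hu' x y
    simp only [r, u0, ← h, div_one, add_eq_left] at e
    by_contra hc
    exact (lt_min one_pos (lt_max_of_lt_right (sub_pos.2 (not_le.1 hc)))).ne' e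
  · exfalso
    have e1 : ∑ x, ∑ y, r u x y = 1 := by
      rw [rs, div_eq_one_iff_eq (σ0 u).ne']
      exact (max_eq_right (le_of_lt (lt_max_iff.1 h |>.resolve_left (lt_irrefl _)))).symm
    have e2 : ∀ x y, 0 < r u x y → 6 * Real.log (2 * n) < (ch u).theta m x y := fun x y hr => by
      by_contra hc
      have e := hu' x y
      rw [max_eq_left (sub_nonpos.2 (not_lt.1 hc)), min_eq_right zero_le_one, add_zero] at e
      have e' : r u x y * σ u = r u x y := by
        conv_lhs => simp only [r, u0]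
        rw [div_mul_cancel₀ _ (σ0 u).ne', e]
      nlinarith
    have e3 : ∀ x y, r u x y * (6 * Real.log (2 * n)) ≤ r u x y * (ch u).theta m x y := fun x y => by
      rcases (r0 u x y).eq_or_lt with h0 | h0
      · rw [← h0, zero_mul, zero_mul]
      · exact mul_le_mul_of_nonneg_left (e2 x y h0).le h0.le
    obtain ⟨x, y, hxy⟩ : ∃ x y, 0 < r u x y := by
      by_contra hc
      push Not at hc
      have : ∑ x, ∑ y, r u x y ≤ 0 := sum_nonpos fun x _ => sum_nonpos fun y _ => hc x y
      linarith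
    have e4 : ∑ x, ∑ y, r u x y * (6 * Real.log (2 * n)) < ∑ x, ∑ y, r u x y * (ch u).theta m x y :=
      sum_lt_sum (fun x _ => sum_le_sum fun y _ => e3 x y) ⟨x, mem_univ x,
        sum_lt_sum (fun y _ => e3 x y) ⟨y, mem_univ y, mul_lt_mul_of_pos_left (e2 x y hxy) hxy⟩⟩
    simp only [← sum_mul, e1, one_mul] at e4
    have e5 := (ok u).theta_avg m
    rw [show (ch u).al = al u from rfl, alw u _ ((ok u).theta_symm m)] at e5
    have e6 : ∑ x, ∑ y, r u x y * (ch u).theta m x y ≤ 3 * ∑ x, ∑ y, w u x y * (ch u).theta m x y := by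
      simp only [mul_sum, ← mul_assoc]
      refine sum_le_sum fun x _ => sum_le_sum fun y _ =>
        mul_le_mul_of_nonneg_right ?_ ((ok u).theta_nonneg m x y)
      have := h0 x y
      simp only [w]; linarith
    linarith

end Crest.Agent.R232
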