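import Crest.Agent.R232.Basic

/-! Row 232, task Ident.  The reproducing identity and the four-step averaging. -/

set_option autoImplicit false
open Finset Matrix

namespace Crest.Agent.R232

variable {n : ℕ}

namespace Ch.OK
variable {c : Ch n} {L : ℝ}

/-- Minkowski: `∑_k (A y k x)² = ∑_z A x z ∑_k y k z (A y k x) ≤ ∑_z A x z √(vsq z) √(lhs)`. -/
theorem sqrt_vsq_le (h : c.OK L) (m : ℕ) {A : Matrix (Fin n) (Fin n) ℝ} (hA : Stoch A)
    (y : ℕ → Fin n → ℝ) (x : Fin n) :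
    √(c.vsq m (fun k => A *ᵥ y k) x) ≤ (A *ᵥ fun z => √(c.vsq m y z)) x := by
  set T := √(c.vsq m (fun k => A *ᵥ y k) x) with hT
  have he := h.eta_pos
  have h0 : 0 ≤ (A *ᵥ fun z => √(c.vsq m y z)) x := hA.apply_nonneg (fun z => Real.sqrt_nonneg _) x
  have h1 : T * T ≤ (A *ᵥ fun z => √(c.vsq m y z)) x * T := by
    have e1 : T * T = (A *ᵥ fun z => c.eta * ∑ k ∈ range m, y k z * (A *ᵥ y k) x) x := by
      rw [hT, Real.mul_self_sqrt (h.vsq_nonneg _ _ _)]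
      generalize hB : (fun k => (A *ᵥ y k) x) = B
      have hB' : ∀ k, (A *ᵥ y k) x = B k := fun k => congrFun hB k
      have e2 : c.vsq m (fun k => A *ᵥ y k) x = c.eta * ∑ k ∈ range m, (A *ᵥ y k) x * B k := by
        simp only [Ch.vsq, hB', sq]
      simp only [hB'] at e2 ⊢
      rw [e2]
      conv_lhs => enter [2, 2, k, 1]; rw [← hB' k]
      simp only [mulVec, dotProduct, mul_sum, sum_mul]
      rw [sum_comm]
      exact sum_congr rfl fun z _ => sum_congr rfl fun k _ => by ring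
    have e3 : (A *ᵥ fun z => √(c.vsq m y z)) x * T = (A *ᵥ fun z => √(c.vsq m y z) * T) x := by
      simp only [mulVec, dotProduct, sum_mul, mul_assoc]
    rw [e1, e3]
    refine hA.mono (fun z => ?_) x
    have h2 := Real.sum_mul_le_sqrt_mul_sqrt (range m) (fun k => y k z) fun k => (A *ᵥ y k) x
    rw [hT, Ch.vsq, Ch.vsq, Real.sqrt_mul he.le, Real.sqrt_mul he.le, mul_mul_mul_comm,
      Real.mul_self_sqrt he.le]
    exact mul_le_mul_of_nonneg_left h2 he.le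
  rcases (Real.sqrt_nonneg _ : 0 ≤ T).eq_or_lt with h2 | h2
  · exact h2.symm.le.trans h0
  · exact le_of_mul_le_mul_right h1 h2

/-- `A = (1 + M + M² + M³) / 4` is stochastic and preserves `pi` (`stat`);
`vsq ^ (p/2) = √vsq ^ p`, `sqrt_vsq_le`, `Stoch.rpow_le`. -/
theorem vn_four (h : c.OK L) (m : ℕ) {p : ℝ} (hp : 1 ≤ p) (y : ℕ → Fin n → ℝ) :
    c.vn m p (fun k => (1 + c.M + c.M ^ 2 + c.M ^ 3) *ᵥ y k) ≤ 4 ^ p * c.vn m p y := by
  let A : Matrix (Fin n) (Fin n) ℝ := (1 / 4 : ℝ) • (1 + c.M + c.M ^ 2 + c.M ^ 3)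
  have s0 := h.stoch.pow 0
  have s1 := h.stoch
  have s2 := h.stoch.pow 2
  have s3 := h.stoch.pow 3
  rw [pow_zero] at s0
  have hA : Stoch A := by
    refine ⟨fun x y => ?_, fun x => ?_⟩
    · simp only [A, Matrix.smul_apply, Matrix.add_apply, smul_eq_mul]
      have := s0.nonneg x y; have := s1.nonneg x y; have := s2.nonneg x y; have := s3.nonneg x y
      positivity
    · simp only [A, Matrix.smul_apply, Matrix.add_apply, smul_eq_mul, ← mul_sum, sum_add_distrib,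
        s0.rowsum, s1.rowsum, s2.rowsum, s3.rowsum]
      norm_num
  have hst : ∀ f : Fin n → ℝ, ∑ x, c.pi x * (A *ᵥ f) x = ∑ x, c.pi x * f x := by
    intro f
    have t1 := h.stat 1 f
    have t2 := h.stat 2 f
    have t3 := h.stat 3 f
    rw [pow_one] at t1
    simp only [A, smul_mulVec, add_mulVec, one_mulVec, Pi.smul_apply, Pi.add_apply, smul_eq_mul,
      mul_left_comm _ (1 / 4 : ℝ), ← mul_sum, mul_add, sum_add_distrib, t1, t2, t3]
    ring
  have hv : ∀ (g : ℕ → Fin n → ℝ) z, c.vsq m g z ^ (p / 2) = √(c.vsq m g z) ^ p := fun g z => by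
    rw [Real.sqrt_eq_rpow, ← Real.rpow_mul (h.vsq_nonneg _ _ _)]
    congr 1
    ring
  have h4 : ∀ z, √(c.vsq m (fun k => (1 + c.M + c.M ^ 2 + c.M ^ 3) *ᵥ y k) z) =
      4 * √(c.vsq m (fun k => A *ᵥ y k) z) := fun z => by
    have : c.vsq m (fun k => (1 + c.M + c.M ^ 2 + c.M ^ 3) *ᵥ y k) z =
        4 ^ 2 * c.vsq m (fun k => A *ᵥ y k) z := by
      simp only [Ch.vsq, A, smul_mulVec, Pi.smul_apply, smul_eq_mul, mul_sum]
      exact sum_congr rfl fun k _ => by ring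
    rw [this, Real.sqrt_mul (by norm_num), Real.sqrt_sq (by norm_num)]
  simp only [Ch.vn, hv, h4]
  rw [← hst fun z => √(c.vsq m y z) ^ p, mul_sum]
  refine sum_le_sum fun z _ => ?_
  rw [Real.mul_rpow (by norm_num) (Real.sqrt_nonneg _), mul_left_comm]
  refine mul_le_mul_of_nonneg_left (mul_le_mul_of_nonneg_left ?_ (h.pi_pos z).le) (by positivity)
  exact (Real.rpow_le_rpow (Real.sqrt_nonneg _) (h.sqrt_vsq_le m hA y z) (by linarith)).trans
    (hA.rpow_le (fun z => Real.sqrt_nonneg _) hp z)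

/-- `eta • Lap f = (1 - M) f` (`M_mulVec`), `M^(4k) (1 + M + M² + M³)(1 - M) = M^(4k) - M^(4(k+1))`,
telescope. -/
theorem ident (h : c.OK L) (m : ℕ) (f : Fin n → ℝ) :
    f - c.syn2 m (fun k => (1 + c.M + c.M ^ 2 + c.M ^ 3) *ᵥ ((c.M ^ (2 * k)) *ᵥ c.Lap f)) =
      (c.M ^ (4 * m)) *ᵥ f := by
  have h1 : c.eta • c.Lap f = (1 - c.M) *ᵥ f := by
    rw [sub_mulVec, one_mulVec, h.M_mulVec, sub_sub_cancel]
  have h2 : ∀ k : ℕ, c.M ^ (2 * k) * ((1 + c.M + c.M ^ 2 + c.M ^ 3) * (c.M ^ (2 * k) * (1 - c.M))) =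
      c.M ^ (4 * k) - c.M ^ (4 * (k + 1)) := fun k => by
    have : (Polynomial.X ^ (2 * k) * ((1 + Polynomial.X + Polynomial.X ^ 2 + Polynomial.X ^ 3) *
        (Polynomial.X ^ (2 * k) * (1 - Polynomial.X))) : Polynomial ℝ) =
        Polynomial.X ^ (4 * k) - Polynomial.X ^ (4 * (k + 1)) := by ring
    simpa using congrArg (Polynomial.aeval c.M) this
  have h3 : c.syn2 m (fun k => (1 + c.M + c.M ^ 2 + c.M ^ 3) *ᵥ ((c.M ^ (2 * k)) *ᵥ c.Lap f)) =
      ∑ k ∈ range m, ((c.M ^ (4 * k)) *ᵥ f - (c.M ^ (4 * (k + 1))) *ᵥ f) := by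
    funext x
    rw [Ch.syn2, Finset.sum_apply, mul_sum]
    refine sum_congr rfl fun k _ => ?_
    rw [← sub_mulVec, ← h2, ← mulVec_mulVec, ← mulVec_mulVec, ← mulVec_mulVec, ← h1, mulVec_smul,
      mulVec_smul, mulVec_smul]
    rfl
  rw [h3, sum_range_sub' (fun k => (c.M ^ (4 * k)) *ᵥ f)]
  simp

end Ch.OK

end Crest.Agent.R232
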