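import Crest.Agent.R232.Ana
import Crest.Agent.R232.Ident
import Crest.Agent.R232.Fix

/-! Row 232, task Dec.  The decomposition theorem.

Choose `eta > 0` with `4 eta ≤ d²` off the diagonal and `D₀ ≥ d` (finitely many pairs), then
`m ≥ 1` with `2 * (2 √(6 L D₀² / (m eta)))^p * 3 n² ≤ ε`, then the chain from `exists_chain`.
For `f`: `|f x - f y| ≤ O := D₀ (3 n² en p f)^(1/p)` (each `al ≥ 1/(3n²)`), `h = syn2 m (R y)` as in
`ident`; `rem_le` and `al_sum_le` bound `en p (f - h)`; `atoms`, `vn_four`, `ana`, `IsAtoms.mono`: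
`S ≤ (4 C₂ L^g)^p en`, `g = |1/2 - 1/p| ≤ 1`, `2 g = |1 - 2/p|`. -/

set_option autoImplicit false
set_option linter.unusedSectionVars false
open Finset Matrix

namespace Crest.Agent.R232

variable {n : ℕ}

theorem dec (p : ℝ) (hp1 : 1 < p) (hp2 : p ≠ 2) :
    ∃ C : ℝ, 1 ≤ C ∧ ∀ (n : ℕ), 2 ≤ n → ∀ d : Fin n → Fin n → ℝ, IsD d → ∀ ε : ℝ, 0 < ε →
      ∀ al0 : Fin n → Fin n → ℝ, (∀ x y, 0 ≤ al0 x y) → ∑ x, ∑ y, al0 x y ≤ 1 →
      ∃ al : Fin n → Fin n → ℝ, (∀ x y, 0 ≤ al x y) ∧ (∀ x y, al0 x y / 6 ≤ al x y) ∧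
        ∑ x, ∑ y, al x y ≤ 2 ∧
        ∀ f : Fin n → ℝ, ∃ h : Fin n → ℝ,
          IsAtoms d al p (C * Real.log (2 * n) ^ (p + 1))
            (C * Real.log (2 * n) ^ |1 - 2 / p|) (en d al p f) h ∧
          en d al p (f - h) ≤ ε * en d al p f := by
  obtain ⟨C₁, hC₁, H₁⟩ := atoms p hp1 hp2
  obtain ⟨C₂, hC₂, H₂⟩ := ana p hp1 hp2
  have hp0 : 0 < p := by linarith
  have h4C : 4 * C₂ ≤ (4 * C₂) ^ p := by
    conv_lhs => rw [← Real.rpow_one (4 * C₂)]
    exact Real.rpow_le_rpow_of_exponent_le (by linarith) hp1.le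
  refine ⟨C₁ * (4 * C₂) ^ p, by nlinarith, fun n hn d hd ε hε al0 h0 h1 => ?_⟩
  have hn0 : (0 : ℝ) < n := by exact_mod_cast (by omega : 0 < n)
  obtain ⟨B, hB⟩ := Finite.exists_le fun q : Fin n × Fin n => (d q.1 q.2 ^ 2)⁻¹
  obtain ⟨D₁, hD₁⟩ := Finite.exists_le fun q : Fin n × Fin n => d q.1 q.2
  set D₀ := |D₁| + 1 with hD₀
  have hD : ∀ x y, d x y ≤ D₀ := fun x y => (hD₁ (x, y)).trans (by linarith [le_abs_self D₁])
  have hD0 : 0 < D₀ := by positivity
  set η := (4 * (|B| + 1))⁻¹ with hη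
  have hη0 : 0 < η := by positivity
  have hlazy : ∀ x y, x ≠ y → 4 * η ≤ d x y ^ 2 := by
    intro x y hxy
    have h2 : 0 < d x y ^ 2 := pow_pos (hd.pos x y hxy) 2
    have h3 : (d x y ^ 2)⁻¹ ≤ |B| + 1 := (hB (x, y)).trans (by linarith [le_abs_self B])
    rw [hη, mul_inv, ← mul_assoc, mul_inv_cancel₀ four_ne_zero, one_mul]
    exact inv_le_of_inv_le₀ h2 h3
  set L := Real.log (2 * n) with hL
  set δ := (ε / (6 * (n : ℝ) ^ 2)) ^ p⁻¹ with hδ
  have hδ0 : 0 < δ := by positivity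
  have hδp : δ ^ p = ε / (6 * (n : ℝ) ^ 2) := Real.rpow_inv_rpow (by positivity) hp0.ne'
  obtain ⟨m₀, hm₀⟩ := exists_nat_ge (24 * L * D₀ ^ 2 / (η * δ ^ 2))
  set m := m₀ + 1 with hm
  have hm1 : 1 ≤ m := Nat.le_add_left 1 m₀
  have hmr : (0 : ℝ) < m := by exact_mod_cast hm1
  have hm2 : 24 * L * D₀ ^ 2 ≤ m * (η * δ ^ 2) := by
    rw [← div_le_iff₀ (by positivity)]
    refine hm₀.trans ?_
    exact_mod_cast Nat.le_succ m₀
  obtain ⟨c, rfl, hce, hc, ha0, ha1, hth⟩ := exists_chain hn d hd η hη0 hlazy m al0 h0 h1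
  rw [← hL] at hc hth
  have hL1 : 1 ≤ L := hc.one_le
  refine ⟨c.al, hc.al_nonneg, ha0, hc.al_sum_le, fun f => ?_⟩
  set E := en c.d c.al p f with hE
  have hE0 : 0 ≤ E := en_nonneg hc.al_nonneg p f
  set g := |1 / 2 - 1 / p| with hg
  have hg0 : 0 ≤ g := abs_nonneg _
  have hg1 : g ≤ 1 := by
    have k1 : 0 < 1 / p := by positivity
    have k2 : 1 / p ≤ 1 := by rw [div_le_one hp0]; exact hp1.le
    exact abs_le.2 ⟨by linarith, by linarith⟩
  have hg2 : |1 - 2 / p| = g + g := by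
    rw [show 1 - 2 / p = 2 * (1 / 2 - 1 / p) by ring, abs_mul, abs_two, two_mul]
  have hLg : 0 ≤ L ^ g := by positivity
  refine ⟨c.syn2 m fun k => (1 + c.M + c.M ^ 2 + c.M ^ 3) *ᵥ ((c.M ^ (2 * k)) *ᵥ c.Lap f), ?_, ?_⟩
  · have hS : c.vn m p (fun k => (1 + c.M + c.M ^ 2 + c.M ^ 3) *ᵥ ((c.M ^ (2 * k)) *ᵥ c.Lap f)) ≤
        (4 * C₂ * L ^ g) ^ p * E := by
      refine (hc.vn_four m hp1.le _).trans ?_
      rw [mul_assoc 4, Real.mul_rpow (by norm_num) (by positivity), mul_assoc]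
      exact mul_le_mul_of_nonneg_left (H₂ n c L hc m hth f) (by positivity)
    have hLp : L ≤ L ^ (p + 1) := by
      conv_lhs => rw [← Real.rpow_one L]
      exact Real.rpow_le_rpow_of_exponent_le hL1 (by linarith)
    refine (H₁ n c L hc m hth _).mono ?_ ?_ ?_
    · refine mul_le_mul ?_ hLp (by linarith) (by positivity)
      nlinarith
    · refine (mul_le_mul_of_nonneg_left hS (by positivity)).trans ?_
      rw [← mul_assoc, ← Real.mul_rpow (by positivity) (by positivity)]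
      refine mul_le_mul_of_nonneg_right (Real.rpow_le_rpow (by positivity) ?_ hp0.le) hE0
      rw [hg2, Real.rpow_add (by linarith)]
      calc C₁ * L ^ g * (4 * C₂ * L ^ g) = C₁ * (4 * C₂) * (L ^ g * L ^ g) := by ring
        _ ≤ _ := by gcongr
    · refine (mul_le_mul_of_nonneg_left hS (by positivity)).trans ?_
      rw [← mul_assoc, Real.mul_rpow (by positivity) hLg, ← Real.rpow_mul (by linarith),
        Real.rpow_add (by linarith), Real.rpow_one]
      refine mul_le_mul_of_nonneg_right ?_ hE0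
      have : L ^ (g * p) ≤ L ^ p := Real.rpow_le_rpow_of_exponent_le hL1 (by nlinarith)
      calc C₁ * L * ((4 * C₂) ^ p * L ^ (g * p)) = C₁ * (4 * C₂) ^ p * (L ^ (g * p) * L) := by ring
        _ ≤ _ := by gcongr
  · rw [hc.ident m f]
    set T := (3 * (n : ℝ) ^ 2 * E) ^ p⁻¹ with hT
    have hT0 : 0 ≤ T := by positivity
    have hTp : T ^ p = 3 * (n : ℝ) ^ 2 * E := Real.rpow_inv_rpow (by positivity) hp0.ne'
    have hO : ∀ x y, |f x - f y| ≤ D₀ * T := by
      intro x y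
      rcases eq_or_ne x y with rfl | hxy
      · rw [sub_self, abs_zero]; positivity
      have k0 := hd.pos x y hxy
      have k1 : c.al x y * |sl c.d f x y| ^ p ≤ E := by
        have nn : ∀ x y, 0 ≤ c.al x y * |sl c.d f x y| ^ p := fun x y =>
          mul_nonneg (hc.al_nonneg x y) (by positivity)
        exact (single_le_sum (f := fun y => c.al x y * |sl c.d f x y| ^ p)
          (fun y _ => nn x y) (mem_univ y)).trans
          (single_le_sum (f := fun x => ∑ y, c.al x y * |sl c.d f x y| ^ p)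
            (fun x _ => sum_nonneg fun y _ => nn x y) (mem_univ x))
      have k2 : |sl c.d f x y| ^ p ≤ T ^ p := by
        have k3 := (mul_le_mul_of_nonneg_right (ha1 x y) (by positivity)).trans k1
        rw [div_mul_eq_mul_div, one_mul, div_le_iff₀ (by positivity)] at k3
        rw [hTp]; linarith
      have k4 : |sl c.d f x y| ≤ T := (Real.rpow_le_rpow_iff (abs_nonneg _) hT0 hp0).1 k2
      rw [sl, abs_div, abs_of_pos k0, div_le_iff₀ k0] at k4
      exact k4.trans (by rw [mul_comm]; gcongr; exact hD x y)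
    have hsl : ∀ x y, |sl c.d ((c.M ^ (4 * m)) *ᵥ f) x y| ≤ δ * T := by
      intro x y
      refine (hc.rem_le m hm1 hth f hO x y).trans ?_
      have : √(6 * L * ((D₀ * T) ^ 2 / (m * c.eta))) ≤ δ * T / 2 := by
        refine Real.sqrt_le_iff.2 ⟨by positivity, ?_⟩
        rw [hce, ← mul_div_assoc, div_le_iff₀ (by positivity)]
        nlinarith [mul_le_mul_of_nonneg_right hm2 (sq_nonneg T)]
      linarith
    calc en c.d c.al p ((c.M ^ (4 * m)) *ᵥ f) ≤ ∑ x, ∑ y, c.al x y * (δ * T) ^ p :=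
          sum_le_sum fun x _ => sum_le_sum fun y _ => mul_le_mul_of_nonneg_left
            (Real.rpow_le_rpow (abs_nonneg _) (hsl x y) hp0.le) (hc.al_nonneg x y)
      _ = (∑ x, ∑ y, c.al x y) * (δ * T) ^ p := by simp only [sum_mul]
      _ ≤ 2 * (δ * T) ^ p := mul_le_mul_of_nonneg_right hc.al_sum_le (by positivity)
      _ = ε * E := by
          rw [Real.mul_rpow hδ0.le hT0, hδp, hTp]
          field_simp
          norm_num

end Crest.Agent.R232
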