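import Crest.Agent.R232.Defs

/-! Row 232, task Defect.  Almost additivity of `p`-th powers under a random sign.

For `0 ≤ s ≤ 1`: `0 ≤ ((1+s)^p + (1-s)^p)/2 - 1 ≤ cosh (p s) - 1 ≤ exp (p² s²/2) - 1 ≤ C s²`
(convexity; `1 ± s ≤ exp (± s)`; `Real.cosh_le_exp_half_sq`).  So with `μ = min |a| |b|`,
`ν = max |a| |b|` the defect is `≤ C μ² ν^(p-2) + μ^p ≤ (C+1) μ^σ ν^(p-σ)`, `σ = min p 2 ≥ q`.
With `η = min (p - q) 1`: if `|b| ≤ |a|` this is `≤ |b|^q |a|^(p-q)`, otherwise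
`≤ |a|^η |b|^(p-η) ≤ |a|^η |b|^q T^p`; and `|a|^κ ≤ t^η + t^(-p) |a|^p` for `η ≤ κ ≤ p`. -/

set_option autoImplicit false
open Finset Matrix

namespace Crest.Agent.R232

variable {n : ℕ}

theorem sign_avg (p : ℝ) (hp : 1 ≤ p) :
    ∃ C : ℝ, 0 < C ∧ ∀ s : ℝ, 0 ≤ s → s ≤ 1 →
      0 ≤ ((1 + s) ^ p + (1 - s) ^ p) / 2 - 1 ∧ ((1 + s) ^ p + (1 - s) ^ p) / 2 - 1 ≤ C * s ^ 2 := by
  refine ⟨p ^ 2 / 2 * Real.exp (p ^ 2 / 2), by positivity, fun s hs0 hs1 => ⟨?_, ?_⟩⟩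
  · have h1 := one_add_mul_self_le_rpow_one_add (s := s) (by linarith) hp
    have h2 := one_add_mul_self_le_rpow_one_add (s := -s) (by linarith) hp
    rw [← sub_eq_add_neg] at h2
    linarith
  · have h1 : (1 + s) ^ p ≤ Real.exp (p * s) := by
      rw [mul_comm, Real.exp_mul]
      exact Real.rpow_le_rpow (by linarith) (by linarith [Real.add_one_le_exp s]) (by linarith)
    have h2 : (1 - s) ^ p ≤ Real.exp (-(p * s)) := by
      rw [← mul_neg, mul_comm, Real.exp_mul]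
      exact Real.rpow_le_rpow (by linarith) (by linarith [Real.add_one_le_exp (-s)]) (by linarith)
    have h3 := Real.cosh_le_exp_half_sq (p * s)
    rw [Real.cosh_eq] at h3
    set u := (p * s) ^ 2 / 2 with hu
    have hu0 : 0 ≤ u := by positivity
    have hs2 : s ^ 2 ≤ 1 := by nlinarith
    have hu1 : u ≤ p ^ 2 / 2 := by
      rw [hu, mul_pow]
      nlinarith [sq_nonneg p]
    have h4 : Real.exp u - 1 ≤ u * Real.exp u := by
      have h5 := Real.add_one_le_exp (-u)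
      have h6 : Real.exp u * Real.exp (-u) = 1 := by rw [← Real.exp_add]; simp
      have h7 := mul_le_mul_of_nonneg_left h5 (Real.exp_pos u).le
      nlinarith
    have h5 : u * Real.exp u ≤ u * Real.exp (p ^ 2 / 2) :=
      mul_le_mul_of_nonneg_left (Real.exp_le_exp.2 hu1) hu0
    have h6 : u * Real.exp (p ^ 2 / 2) = p ^ 2 / 2 * Real.exp (p ^ 2 / 2) * s ^ 2 := by
      rw [hu]; ring
    linarith

namespace Defect

theorem core {p C : ℝ} (hp : 0 < p) (hC0 : 0 ≤ C) (hC : ∀ s : ℝ, 0 ≤ s → s ≤ 1 →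
      0 ≤ ((1 + s) ^ p + (1 - s) ^ p) / 2 - 1 ∧ ((1 + s) ^ p + (1 - s) ^ p) / 2 - 1 ≤ C * s ^ 2)
    {μ ν κ : ℝ} (hμ : 0 ≤ μ) (hμν : μ ≤ ν) (hκ : 0 < κ) (hκ2 : κ ≤ 2) (hκp : κ ≤ p) :
    abs (((ν + μ) ^ p + (ν - μ) ^ p) / 2 - ν ^ p - μ ^ p) ≤ (C + 1) * (ν ^ (p - κ) * μ ^ κ) := by
  rcases eq_or_lt_of_le (hμ.trans hμν) with h0 | hν
  · have h1 : μ = 0 := le_antisymm (by linarith) hμ
    subst h0 h1
    simp [Real.zero_rpow hp.ne', Real.zero_rpow hκ.ne']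
  · set s := μ / ν with hs
    have hs0 : 0 ≤ s := div_nonneg hμ hν.le
    have hs1 : s ≤ 1 := (div_le_one hν).2 hμν
    have hμs : μ = ν * s := by rw [hs]; field_simp
    obtain ⟨h1, h2⟩ := hC s hs0 hs1
    have e1 : (ν + μ) ^ p = ν ^ p * (1 + s) ^ p := by
      rw [← Real.mul_rpow hν.le (by linarith), hμs]; ring_nf
    have e2 : (ν - μ) ^ p = ν ^ p * (1 - s) ^ p := by
      rw [← Real.mul_rpow hν.le (by linarith), hμs]; ring_nf
    have e3 : μ ^ p = ν ^ p * s ^ p := by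
      rw [← Real.mul_rpow hν.le hs0, ← hμs]
    have e4 : ν ^ (p - κ) * μ ^ κ = ν ^ p * s ^ κ := by
      have : μ ^ κ = ν ^ κ * s ^ κ := by rw [← Real.mul_rpow hν.le hs0, ← hμs]
      rw [this, ← mul_assoc, ← Real.rpow_add hν, sub_add_cancel]
    have h3 : s ^ 2 ≤ s ^ κ := by
      rw [← Real.rpow_two]
      exact Real.rpow_le_rpow_of_exponent_ge' hs0 hs1 hκ.le hκ2
    have h4 : s ^ p ≤ s ^ κ := Real.rpow_le_rpow_of_exponent_ge' hs0 hs1 hκ.le hκp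
    have h5 : 0 ≤ s ^ p := Real.rpow_nonneg hs0 _
    have h6 : 0 < ν ^ p := Real.rpow_pos_of_pos hν _
    have h7 := mul_le_mul_of_nonneg_left h3 hC0
    have h8 : 0 ≤ C * s ^ κ := mul_nonneg hC0 (h5.trans h4)
    have e5 : ((ν + μ) ^ p + (ν - μ) ^ p) / 2 - ν ^ p - μ ^ p =
        ν ^ p * (((1 + s) ^ p + (1 - s) ^ p) / 2 - 1 - s ^ p) := by
      rw [e1, e2, e3]; ring
    rw [e5, e4, abs_mul, abs_of_pos h6, mul_left_comm]
    refine mul_le_mul_of_nonneg_left (abs_le.2 ⟨?_, ?_⟩) h6.le <;> nlinarith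

theorem sym (p a b : ℝ) : |a + b| ^ p + |a - b| ^ p = abs (|a| + |b|) ^ p + abs (|a| - |b|) ^ p := by
  rcases abs_choice a with ha | ha <;> rcases abs_choice b with hb | hb <;> rw [ha, hb]
  · rw [sub_neg_eq_add, ← sub_eq_add_neg, add_comm]
  · rw [show -a + b = -(a - b) by ring, show -a - b = -(a + b) by ring, abs_neg, abs_neg, add_comm]
  · rw [show -a + -b = -(a + b) by ring, show -a - -b = -(a - b) by ring, abs_neg, abs_neg]

theorem pow_le {a t η κ p : ℝ} (ha : 0 ≤ a) (ht : 0 < t) (ht1 : t ≤ 1) (hη : 0 ≤ η) (hηκ : η ≤ κ)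
    (hκp : κ ≤ p) : a ^ κ ≤ t ^ η + t ^ (-p) * a ^ p := by
  have h1 : 0 ≤ t ^ η := Real.rpow_nonneg ht.le _
  have h2 : 0 ≤ t ^ (-p) * a ^ p := mul_nonneg (Real.rpow_nonneg ht.le _) (Real.rpow_nonneg ha _)
  rcases le_total a t with h | h
  · have h3 : a ^ κ ≤ t ^ κ := Real.rpow_le_rpow ha h (hη.trans hηκ)
    have h4 : t ^ κ ≤ t ^ η := Real.rpow_le_rpow_of_exponent_ge ht ht1 hηκ
    linarith
  · have ha' : 0 < a := ht.trans_le h
    have h3 : a ^ κ = a ^ (κ - p) * a ^ p := by rw [← Real.rpow_add ha', sub_add_cancel]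
    have h4 : a ^ (κ - p) ≤ t ^ (κ - p) := Real.rpow_le_rpow_of_nonpos ht h (by linarith)
    have h5 : t ^ (κ - p) ≤ t ^ (-p) := Real.rpow_le_rpow_of_exponent_ge ht ht1 (by linarith)
    have h6 := mul_le_mul_of_nonneg_right (h4.trans h5) (Real.rpow_nonneg ha p)
    linarith

end Defect
open Defect

theorem defect (p : ℝ) (hp1 : 1 < p) (hp2 : p ≠ 2) :
    ∃ C η : ℝ, 1 ≤ C ∧ 0 < η ∧ η ≤ 1 ∧ ∀ T t a b : ℝ, 1 ≤ T → 0 < t → t ≤ 1 → |b| ≤ T →
      abs ((|a + b| ^ p + |a - b| ^ p) / 2 - |a| ^ p - |b| ^ p) ≤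
        C * T ^ p * |b| ^ qq p * (t ^ η + t ^ (-p) * |a| ^ p) := by
  obtain ⟨C, hC0, hC⟩ := sign_avg p hp1.le
  have hq1 := one_le_qq p
  have hq2 := qq_le_two p
  have hqp := qq_lt hp1 hp2
  have hη0 : 0 < min (p - qq p) 1 := lt_min (by linarith) one_pos
  have hη1 : min (p - qq p) 1 ≤ 1 := min_le_right _ _
  have hη2 : min (p - qq p) 1 ≤ p - qq p := min_le_left _ _
  refine ⟨C + 1, min (p - qq p) 1, by linarith, hη0, hη1, fun T t a b hT ht ht1 hb => ?_⟩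
  set η := min (p - qq p) 1 with hη
  have hTp : 1 ≤ T ^ p := Real.one_le_rpow hT (by linarith)
  have hbq : 0 ≤ |b| ^ qq p := Real.rpow_nonneg (abs_nonneg _) _
  have hR : 0 ≤ t ^ η + t ^ (-p) * |a| ^ p :=
    add_nonneg (Real.rpow_nonneg ht.le _)
      (mul_nonneg (Real.rpow_nonneg ht.le _) (Real.rpow_nonneg (abs_nonneg _) _))
  rw [sym, abs_of_nonneg (add_nonneg (abs_nonneg a) (abs_nonneg b))]
  rw [mul_assoc, mul_assoc]
  rcases le_total |b| |a| with h | h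
  · rw [abs_of_nonneg (sub_nonneg.2 h)]
    refine (core (by linarith) hC0.le hC (abs_nonneg b) h (κ := qq p) (by linarith) hq2
      hqp.le).trans (mul_le_mul_of_nonneg_left ?_ (by linarith))
    have h1 := pow_le (abs_nonneg a) ht ht1 hη0.le hη2 (p := p) (by linarith)
    calc |a| ^ (p - qq p) * |b| ^ qq p ≤ 1 * (|b| ^ qq p * (t ^ η + t ^ (-p) * |a| ^ p)) := by
          rw [one_mul, mul_comm]; exact mul_le_mul_of_nonneg_left h1 hbq
      _ ≤ _ := mul_le_mul_of_nonneg_right hTp (mul_nonneg hbq hR)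
  · rw [abs_sub_comm |a| |b|, abs_of_nonneg (sub_nonneg.2 h), add_comm |a| |b|, sub_right_comm]
    refine (core (by linarith) hC0.le hC (abs_nonneg a) h (κ := η) hη0 (by linarith)
      (by linarith)).trans (mul_le_mul_of_nonneg_left ?_ (by linarith))
    have h1 := pow_le (abs_nonneg a) ht ht1 hη0.le le_rfl (p := p) (by linarith)
    have h2 : |b| ^ (p - η) = |b| ^ (p - η - qq p) * |b| ^ qq p := by
      rw [← Real.rpow_add_of_nonneg (abs_nonneg b) (by linarith) (by linarith), sub_add_cancel]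
    have h3 : |b| ^ (p - η - qq p) ≤ T ^ p :=
      (Real.rpow_le_rpow (abs_nonneg b) hb (by linarith)).trans
        (Real.rpow_le_rpow_of_exponent_le hT (by linarith))
    rw [h2, mul_assoc]
    exact mul_le_mul h3 (mul_le_mul_of_nonneg_left h1 hbq)
      (mul_nonneg hbq (Real.rpow_nonneg (abs_nonneg _) _)) (by linarith)

end Crest.Agent.R232
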