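import Mathlib

/-! Row 232 (dimension reduction in `L^p`).  Definitions.

Points are `Fin n`, `d` is a symmetric positive weight (the distance), `al` a symmetric weight on
ordered pairs, `pi` a probability vector, `M = I - eta * Lap` the lazy reversible chain. -/

set_option autoImplicit false
open Finset Matrix

namespace Crest.Agent.R232

variable {n : ℕ}

/-- slope of `f` along the pair `(x, y)` (zero on the diagonal) -/
noncomputable def sl (d : Fin n → Fin n → ℝ) (f : Fin n → ℝ) (x y : Fin n) : ℝ :=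
  (f x - f y) / d x y

structure IsD (d : Fin n → Fin n → ℝ) : Prop where
  symm : ∀ x y, d x y = d y x
  self : ∀ x, d x x = 0
  pos : ∀ x y, x ≠ y → 0 < d x y

/-- `r`-energy of `f` for the pair weights `al` -/
noncomputable def en (d al : Fin n → Fin n → ℝ) (r : ℝ) (f : Fin n → ℝ) : ℝ :=
  ∑ x, ∑ y, al x y * |sl d f x y| ^ r

/-- the auxiliary lower exponent -/
noncomputable def qq (p : ℝ) : ℝ := if p < 2 then 1 else 2

/-- target vector: one off the diagonal -/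
noncomputable def tgt (x y : Fin n) : ℝ := if x = y then 0 else 1

/-- raw data of a chain -/
structure Ch (n : ℕ) where
  d : Fin n → Fin n → ℝ
  al : Fin n → Fin n → ℝ
  pi : Fin n → ℝ
  eta : ℝ

structure Ch.OK (c : Ch n) (L : ℝ) : Prop where
  isD : IsD c.d
  al_symm : ∀ x y, c.al x y = c.al y x
  al_nonneg : ∀ x y, 0 ≤ c.al x y
  pi_pos : ∀ x, 0 < c.pi x
  pi_sum : ∑ x, c.pi x = 1
  marg : ∀ x, ∑ y, c.al x y ≤ 2 * c.pi x
  eta_pos : 0 < c.eta
  lazy : ∀ x y, x ≠ y → 4 * c.eta ≤ c.d x y ^ 2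
  one_le : 1 ≤ L
  logpi : ∀ z, Real.log (1 / c.pi z) ≤ L

/-- jump probabilities (zero on the diagonal because `d x x = 0`) -/
noncomputable def Ch.q (c : Ch n) (x y : Fin n) : ℝ :=
  c.eta * c.al x y / (c.d x y ^ 2 * c.pi x)

/-- the transition matrix -/
noncomputable def Ch.M (c : Ch n) : Matrix (Fin n) (Fin n) ℝ :=
  Matrix.of fun x y => c.q x y + if x = y then 1 - ∑ z, c.q x z else 0

noncomputable def Ch.Lap (c : Ch n) (f : Fin n → ℝ) : Fin n → ℝ :=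
  fun x => (∑ y, c.al x y * (f x - f y) / c.d x y ^ 2) / c.pi x

/-- density of the `k`-step kernel -/
noncomputable def Ch.ker (c : Ch n) (k : ℕ) (x z : Fin n) : ℝ := (c.M ^ k) x z / c.pi z

/-- squared Hellinger distance of the `k`-step laws from `x` and `y` -/
noncomputable def Ch.hel (c : Ch n) (k : ℕ) (x y : Fin n) : ℝ :=
  ∑ z, c.pi z * (√(c.ker k x z) - √(c.ker k y z)) ^ 2

noncomputable def Ch.theta (c : Ch n) (m : ℕ) (x y : Fin n) : ℝ :=
  c.eta * (∑ k ∈ range m, c.hel k x y) / c.d x y ^ 2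

/-- Fisher-type information of the density `ker k · z` -/
noncomputable def Ch.iota (c : Ch n) (k : ℕ) (z : Fin n) : ℝ :=
  ∑ x, ∑ y, c.al x y * (sl c.d (fun u => √(c.ker k u z)) x y) ^ 2

noncomputable def Ch.syn (c : Ch n) (m : ℕ) (g : ℕ → Fin n → ℝ) : Fin n → ℝ :=
  fun x => c.eta * ∑ k ∈ range m, ((c.M ^ k) *ᵥ g k) x

noncomputable def Ch.syn2 (c : Ch n) (m : ℕ) (g : ℕ → Fin n → ℝ) : Fin n → ℝ :=
  fun x => c.eta * ∑ k ∈ range m, ((c.M ^ (2 * k)) *ᵥ g k) x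

/-- squared vertical square function -/
noncomputable def Ch.vsq (c : Ch n) (m : ℕ) (g : ℕ → Fin n → ℝ) (z : Fin n) : ℝ :=
  c.eta * ∑ k ∈ range m, g k z ^ 2

/-- `p`-th power of the `L^p(pi)` norm of the vertical square function -/
noncomputable def Ch.vn (c : Ch n) (m : ℕ) (p : ℝ) (g : ℕ → Fin n → ℝ) : ℝ :=
  ∑ z, c.pi z * c.vsq m g z ^ (p / 2)

/-- forward potential of the charges `a k, …, a (m-1)` -/
noncomputable def Ch.pot (c : Ch n) (m : ℕ) (a : ℕ → Fin n → ℝ) (k : ℕ) : Fin n → ℝ :=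
  fun x => ∑ j ∈ range (m - k), ((c.M ^ j) *ᵥ a (k + j)) x

/-- atomic decomposition of `h` -/
def IsAtoms (d al : Fin n → Fin n → ℝ) (p K N S : ℝ) (h : Fin n → ℝ) : Prop :=
  ∃ (I : Finset ℤ) (hs : ℤ → Fin n → ℝ) (j : Fin n → Fin n → ℤ),
    h = ∑ i ∈ I, hs i ∧
    (∀ i ∈ I, ∀ x y, |sl d (hs i) x y| ≤ K * (2 : ℝ) ^ i) ∧
    (∑ x, ∑ y, al x y * (∑ i ∈ I, |sl d (hs i) x y| * (1 + |((i - j x y : ℤ) : ℝ)|)) ^ p
      ≤ N ^ p * S) ∧
    (∑ x, ∑ y, al x y * ∑ i ∈ I, ((2 : ℝ) ^ i) ^ (p - qq p) * |sl d (hs i) x y| ^ qq p ≤ K * S)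

/-- `(v, w)` are the `p`-th and `qq p`-th moment vectors of a finite weighted family of
`T`-Lipschitz functions -/
def InCone (d : Fin n → Fin n → ℝ) (p T : ℝ) (v w : Fin n → Fin n → ℝ) : Prop :=
  ∃ (A : Type) (_ : Fintype A) (m : A → ℝ) (g : A → Fin n → ℝ),
    (∀ a, 0 ≤ m a) ∧ (∀ a x y, |sl d (g a) x y| ≤ T) ∧
    (∀ x y, v x y = ∑ a, m a * |sl d (g a) x y| ^ p) ∧
    (∀ x y, w x y = ∑ a, m a * |sl d (g a) x y| ^ qq p)

theorem qq_lo {p : ℝ} (h : p < 2) : qq p = 1 := by simp [qq, h]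

theorem qq_hi {p : ℝ} (h : 2 ≤ p) : qq p = 2 := by simp [qq, not_lt.mpr h]

theorem one_le_qq (p : ℝ) : 1 ≤ qq p := by unfold qq; split_ifs <;> norm_num

theorem qq_le_two (p : ℝ) : qq p ≤ 2 := by unfold qq; split_ifs <;> norm_num

theorem qq_le {p : ℝ} (hp : 1 ≤ p) : qq p ≤ p := by unfold qq; split_ifs <;> linarith

theorem qq_lt {p : ℝ} (hp : 1 < p) (hp2 : p ≠ 2) : qq p < p := by
  unfold qq; split_ifs with h
  · exact hp
  · exact lt_of_le_of_ne (not_lt.mp h) (Ne.symm hp2)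

theorem sl_add (d : Fin n → Fin n → ℝ) (f g : Fin n → ℝ) (x y : Fin n) :
    sl d (f + g) x y = sl d f x y + sl d g x y := by
  simp only [sl, Pi.add_apply]; ring

theorem sl_sub (d : Fin n → Fin n → ℝ) (f g : Fin n → ℝ) (x y : Fin n) :
    sl d (f - g) x y = sl d f x y - sl d g x y := by
  simp only [sl, Pi.sub_apply]; ring

theorem sl_smul (d : Fin n → Fin n → ℝ) (t : ℝ) (f : Fin n → ℝ) (x y : Fin n) :
    sl d (t • f) x y = t * sl d f x y := by
  simp only [sl, Pi.smul_apply, smul_eq_mul]; ring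

theorem sl_sum {ι : Type*} (d : Fin n → Fin n → ℝ) (s : Finset ι) (f : ι → Fin n → ℝ)
    (x y : Fin n) : sl d (∑ i ∈ s, f i) x y = ∑ i ∈ s, sl d (f i) x y := by
  simp only [sl, Finset.sum_apply, ← Finset.sum_sub_distrib, Finset.sum_div]

theorem sl_self (d : Fin n → Fin n → ℝ) (f : Fin n → ℝ) (x : Fin n) : sl d f x x = 0 := by
  simp [sl]

theorem sl_zero (d : Fin n → Fin n → ℝ) (x y : Fin n) : sl d 0 x y = 0 := by
  simp [sl]

theorem en_nonneg {d al : Fin n → Fin n → ℝ} (hal : ∀ x y, 0 ≤ al x y) (r : ℝ) (f : Fin n → ℝ) :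
    0 ≤ en d al r f :=
  sum_nonneg fun x _ => sum_nonneg fun y _ =>
    mul_nonneg (hal x y) (Real.rpow_nonneg (abs_nonneg _) _)

theorem en_two (d al : Fin n → Fin n → ℝ) (f : Fin n → ℝ) :
    en d al 2 f = ∑ x, ∑ y, al x y * sl d f x y ^ 2 := by
  simp only [en, Real.rpow_two, sq_abs]

theorem en_one (d al : Fin n → Fin n → ℝ) (f : Fin n → ℝ) :
    en d al 1 f = ∑ x, ∑ y, al x y * |sl d f x y| := by
  simp only [en, Real.rpow_one]

theorem IsAtoms.mono {d al : Fin n → Fin n → ℝ} {p K N S K' N' S' : ℝ} {h : Fin n → ℝ}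
    (H : IsAtoms d al p K N S h) (hK : K ≤ K') (hN : N ^ p * S ≤ N' ^ p * S')
    (hKS : K * S ≤ K' * S') : IsAtoms d al p K' N' S' h := by
  obtain ⟨I, hs, j, h1, h2, h3, h4⟩ := H
  exact ⟨I, hs, j, h1, fun i hi x y => (h2 i hi x y).trans
    (mul_le_mul_of_nonneg_right hK (by positivity)), h3.trans hN, h4.trans hKS⟩

theorem IsAtoms.en_le {d al : Fin n → Fin n → ℝ} {p K N S : ℝ} {h : Fin n → ℝ}
    (H : IsAtoms d al p K N S h) (hal : ∀ x y, 0 ≤ al x y) (hp : 0 ≤ p) :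
    en d al p h ≤ N ^ p * S := by
  obtain ⟨I, hs, j, h1, -, h3, -⟩ := H
  refine le_trans (sum_le_sum fun x _ => sum_le_sum fun y _ => ?_) h3
  refine mul_le_mul_of_nonneg_left (Real.rpow_le_rpow (abs_nonneg _) ?_ hp) (hal x y)
  rw [h1, sl_sum]
  refine (abs_sum_le_sum_abs _ _).trans (sum_le_sum fun i _ => ?_)
  exact le_mul_of_one_le_right (abs_nonneg _) (le_add_of_nonneg_right (abs_nonneg _))

theorem InCone.mono {d : Fin n → Fin n → ℝ} {p T T' : ℝ} {v w : Fin n → Fin n → ℝ}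
    (H : InCone d p T v w) (hT : T ≤ T') : InCone d p T' v w := by
  obtain ⟨A, iA, m, g, h1, h2, h3, h4⟩ := H
  exact ⟨A, iA, m, g, h1, fun a x y => (h2 a x y).trans hT, h3, h4⟩

theorem InCone.w_nonneg {d : Fin n → Fin n → ℝ} {p T : ℝ} {v w : Fin n → Fin n → ℝ}
    (H : InCone d p T v w) (x y : Fin n) : 0 ≤ w x y := by
  obtain ⟨A, iA, m, g, h1, -, -, h4⟩ := H
  rw [h4]
  exact sum_nonneg fun a _ => mul_nonneg (h1 a) (Real.rpow_nonneg (abs_nonneg _) _)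

end Crest.Agent.R232
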