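import Crest.Agent.R232.Basic

/-! Row 232, task Ent.  Entropy telescoping.

`Ent g = ∑ pi * (g * log g)`.  Scalar: `a log (a/b) - a + b ≥ (√a - √b)²` (`a ≥ 0`, `b > 0`; from
`log t ≥ 1 - 1/t` at `t = √a/√b`).  With `gb = (M g) x`:
`∑_y M x y * Φ(g y) - Φ(gb) = ∑_y M x y (g y log (g y / gb) - g y + gb) ≥ ∑_y M x y (√g y - √gb)²`
(if `gb = 0` all `M x y * g y` vanish and `g x = 0` since `M x x ≥ 1/2`), and
`∑_y q x y (√g x - √g y)² ≤ 2 ∑_y M x y (√g y - √gb)²` because `∑ q x · ≤ 1/2 ≤ M x x`.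
Sum against `pi` (use `stat`, `pi_mul_q`). -/

set_option autoImplicit false
open Finset Matrix

namespace Crest.Agent.R232

variable {n : ℕ}

namespace Ent

theorem scalar {a b : ℝ} (ha : 0 ≤ a) (hb : 0 < b) :
    (√a - √b) ^ 2 ≤ a * Real.log a - a * Real.log b - a + b := by
  rcases ha.eq_or_lt with rfl | ha
  · simp [Real.sq_sqrt hb.le]
  obtain ⟨s, hs, rfl⟩ : ∃ s, 0 < s ∧ a = s ^ 2 := ⟨√a, Real.sqrt_pos.2 ha, (Real.sq_sqrt ha.le).symm⟩
  obtain ⟨t, ht, rfl⟩ : ∃ t, 0 < t ∧ b = t ^ 2 := ⟨√b, Real.sqrt_pos.2 hb, (Real.sq_sqrt hb.le).symm⟩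
  rw [Real.sqrt_sq hs.le, Real.sqrt_sq ht.le, Real.log_pow, Real.log_pow]
  have h1 := Real.log_le_sub_one_of_pos (div_pos ht hs)
  rw [Real.log_div ht.ne' hs.ne'] at h1
  have h2 := mul_le_mul_of_nonneg_left h1 (sq_nonneg s)
  have h3 : s ^ 2 * (t / s - 1) = s * t - s ^ 2 := by field_simp
  push_cast
  nlinarith

theorem row {A : Matrix (Fin n) (Fin n) ℝ} (hA : Stoch A) (g : Fin n → ℝ) (hg : ∀ x, 0 ≤ g x) (x : Fin n) :
    ∑ y, A x y * (√(g y) - √((A *ᵥ g) x)) ^ 2 ≤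
      (A *ᵥ fun y => g y * Real.log (g y)) x - (A *ᵥ g) x * Real.log ((A *ᵥ g) x) := by
  have e : ∀ f : Fin n → ℝ, (A *ᵥ f) x = ∑ y, A x y * f y := fun f => rfl
  rcases (hA.apply_nonneg hg x).eq_or_lt with h0 | h0
  · have h1 : ∀ y, A x y * g y = 0 := fun y =>
      (sum_eq_zero_iff_of_nonneg fun y _ => mul_nonneg (hA.nonneg x y) (hg y)).1 ((e g).symm.trans h0.symm) y
        (mem_univ y)
    rw [← h0, e]
    simp [Real.sq_sqrt (hg _), ← mul_assoc, h1]
  · refine (sum_le_sum fun y _ => mul_le_mul_of_nonneg_left (scalar (hg y) h0) (hA.nonneg x y)).trans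
      (le_of_eq ?_)
    simp only [mul_add, mul_sub, sum_add_distrib, sum_sub_distrib, ← mul_assoc, ← sum_mul, ← e]
    rw [e fun y => g y * Real.log (g y), hA.const]
    simp only [mul_assoc]
    ring

end Ent

namespace Ch.OK
variable {c : Ch n} {L : ℝ}

theorem ent_step (h : c.OK L) (g : Fin n → ℝ) (hg : ∀ x, 0 ≤ g x) :
    c.eta * ∑ x, ∑ y, c.al x y * (sl c.d (fun u => √(g u)) x y) ^ 2 ≤
      2 * (∑ x, c.pi x * (g x * Real.log (g x)) -
        ∑ x, c.pi x * ((c.M *ᵥ g) x * Real.log ((c.M *ᵥ g) x))) := by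
  have key : ∀ x, ∑ y, c.q x y * (√(g x) - √(g y)) ^ 2 ≤
      2 * ((c.M *ᵥ fun y => g y * Real.log (g y)) x - (c.M *ᵥ g) x * Real.log ((c.M *ᵥ g) x)) := fun x => by
    refine le_trans ?_ (mul_le_mul_of_nonneg_left (Ent.row h.stoch g hg x) zero_le_two)
    set b := √((c.M *ᵥ g) x)
    have e : ∑ y, c.M x y * (√(g y) - b) ^ 2 =
        ∑ y, c.q x y * (√(g y) - b) ^ 2 + (1 - ∑ z, c.q x z) * (√(g x) - b) ^ 2 := by
      simp [Ch.M, add_mul, sum_add_distrib]
    have h1 : ∑ y, c.q x y * (√(g x) - √(g y)) ^ 2 ≤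
        ∑ y, (2 * (c.q x y * (√(g y) - b) ^ 2) + 2 * (c.q x y * (√(g x) - b) ^ 2)) :=
      sum_le_sum fun y _ => by
        nlinarith [mul_nonneg (h.q_nonneg x y) (sq_nonneg (√(g x) + √(g y) - 2 * b))]
    rw [sum_add_distrib, ← mul_sum, ← mul_sum, ← sum_mul] at h1
    rw [e]
    nlinarith [h.q_sum_le x, sq_nonneg (√(g x) - b)]
  have h1 := h.stat 1 fun y => g y * Real.log (g y)
  rw [pow_one] at h1
  rw [← h1, ← sum_sub_distrib, mul_sum, mul_sum]
  refine sum_le_sum fun x _ => ?_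
  refine le_trans (le_of_eq ?_) ((mul_le_mul_of_nonneg_left (key x) (h.pi_pos x).le).trans (le_of_eq (by ring)))
  rw [mul_sum, mul_sum]
  refine sum_congr rfl fun y _ => ?_
  rw [← mul_assoc (c.pi x), h.pi_mul_q, sl]
  ring

/-- Telescope `ent_step` along `ker k · z` (`ker_succ`); `Ent (ker 0 · z) = log (1 / pi z) ≤ L` and
`Ent ≥ 0` from `u log u ≥ u - 1` and `ker_sum`. -/
theorem iota_sum_le (h : c.OK L) (m : ℕ) (z : Fin n) :
    c.eta * ∑ k ∈ range m, c.iota k z ≤ 2 * L := by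
  set E : ℕ → ℝ := fun k => ∑ x, c.pi x * (c.ker k x z * Real.log (c.ker k x z)) with hE
  have h1 : ∀ k, c.eta * c.iota k z ≤ 2 * (E k - E (k + 1)) := fun k => by
    have := h.ent_step (fun x => c.ker k x z) fun x => h.ker_nonneg k x z
    rw [← h.ker_succ k z] at this
    exact this
  have h2 : E 0 = Real.log (1 / c.pi z) := by
    simp only [hE, Ch.ker, pow_zero]
    rw [sum_eq_single z (fun x _ hx => by simp [Matrix.one_apply_ne hx]) (by simp), Matrix.one_apply_eq,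
      ← mul_assoc, mul_one_div_cancel (h.pi_pos z).ne', one_mul]
  have h3 : 0 ≤ E m := by
    have : ∑ x, c.pi x * (c.ker m x z - 1) ≤ E m := sum_le_sum fun x _ =>
      mul_le_mul_of_nonneg_left (Real.self_sub_one_le_mul_log (h.ker_nonneg m x z)) (h.pi_pos x).le
    simp only [mul_sub, sum_sub_distrib, mul_one, h.ker_sum, h.pi_sum, sub_self] at this
    exact this
  rw [mul_sum]
  refine (sum_le_sum fun k _ => h1 k).trans ?_
  rw [← mul_sum, sum_range_sub']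
  linarith [h.logpi z]

/-- exchange of sums: `∑ al * theta = ∑ z, pi z * (eta * ∑ k, iota k z)` -/
theorem theta_avg (h : c.OK L) (m : ℕ) :
    ∑ x, ∑ y, c.al x y * c.theta m x y ≤ 2 * L := by
  have e : ∑ x, ∑ y, c.al x y * c.theta m x y = ∑ z, c.pi z * (c.eta * ∑ k ∈ range m, c.iota k z) := by
    simp only [Ch.theta, Ch.hel, Ch.iota, sl, mul_sum, sum_div, div_pow]
    symm
    rw [sum_comm]
    refine (sum_congr rfl fun k _ => sum_comm).trans ?_
    rw [sum_comm]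
    refine sum_congr rfl fun x _ => ?_
    refine (sum_congr rfl fun k _ => sum_comm).trans ?_
    rw [sum_comm]
    exact sum_congr rfl fun y _ => sum_congr rfl fun k _ => sum_congr rfl fun z _ => by ring
  rw [e]
  refine (sum_le_sum fun z _ => mul_le_mul_of_nonneg_left (h.iota_sum_le m z) (h.pi_pos z).le).trans ?_
  rw [← sum_mul, h.pi_sum, one_mul]

end Ch.OK

end Crest.Agent.R232
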