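import Crest.Agent.R232.Defs

/-! Row 232, task MergeInd.  Sums of independent signed samples.

Induction on `k ≤ M`: `B₀ = Unit`, `Y = 0`; `B' = B × A × Bool`, weight `ω b * pr a / 2`,
`Y' = Y b ± g a`.  The `p`-th moment `u` satisfies `u_k ≤ k (2 + ε) / Ω ≤ 3 M / Ω`, so the mean of the
defect bound is `≤ (T / Ω) * Γ * (t₁ + t₂ * 3 M / Ω) ≤ ε / Ω`.  For `cosh`:
`(cosh (s+z) + cosh (s-z)) / 2 = cosh s cosh z`, `cosh z ≤ exp (z²/2) ≤ 1 + z²` for `|z| ≤ 1`,
`(|b|/T)² ≤ |b|^q` (as `|b| ≤ T`, `1 ≤ T`, `1 ≤ q ≤ 2`), so the factor is `≤ 1 + T/Ω ≤ exp (T/Ω)`. -/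

set_option autoImplicit false
open Finset Matrix

namespace Crest.Agent.R232

variable {n : ℕ}

namespace MergeInd

theorem cosh_le {z T q : ℝ} (hT : 1 ≤ T) (hz : |z| ≤ T) (hq1 : 1 ≤ q) (hq2 : q ≤ 2) :
    Real.cosh (z / T) ≤ 1 + |z| ^ q := by
  have hT0 : 0 < T := by linarith
  set u := |z| / T with hu
  have hu0 : 0 ≤ u := div_nonneg (abs_nonneg _) hT0.le
  have hu1 : u ≤ 1 := (div_le_one hT0).2 hz
  have huz : u ≤ |z| := div_le_self (abs_nonneg _) hT
  have h1 := Real.cosh_le_exp_half_sq (z / T)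
  have h2 : (z / T) ^ 2 = u ^ 2 := by rw [hu, div_pow, div_pow, sq_abs]
  rw [h2] at h1
  have h3 : u ^ 2 ≤ 1 := by nlinarith
  have h4 := Real.abs_exp_sub_one_le (x := u ^ 2 / 2)
    (by rw [abs_of_nonneg (by positivity)]; linarith)
  rw [abs_of_nonneg (a := u ^ 2 / 2) (by positivity)] at h4
  have h5 : u ^ 2 ≤ u ^ q := by
    rw [← Real.rpow_two]
    exact Real.rpow_le_rpow_of_exponent_ge' hu0 hu1 (by linarith) hq2
  have h6 : u ^ q ≤ |z| ^ q := Real.rpow_le_rpow hu0 huz (by linarith)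
  linarith [le_abs_self (Real.exp (u ^ 2 / 2) - 1)]

theorem exp_abs_le (u : ℝ) : Real.exp |u| ≤ 2 * Real.cosh u := by
  rw [← Real.cosh_abs, Real.cosh_eq]
  linarith [Real.exp_pos (-|u|)]

theorem pow_le_cosh {s p T : ℝ} (hp : 1 ≤ p) (hT : 0 < T) :
    (|s| ^ p) ^ 2 ≤ (2 * p * T) ^ (2 * p) * (2 * Real.cosh (s / T)) := by
  have hc : 0 < 2 * p * T := by positivity
  set u := |s| / (2 * p * T) with hu
  have hu0 : 0 ≤ u := div_nonneg (abs_nonneg _) hc.le
  have h1 : |s| = 2 * p * T * u := by rw [hu]; field_simp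
  have h2 : (|s| ^ p) ^ 2 = (2 * p * T) ^ (2 * p) * u ^ (2 * p) := by
    rw [← Real.mul_rpow hc.le hu0, ← h1, ← Real.rpow_two, ← Real.rpow_mul (abs_nonneg _), mul_comm]
  rw [h2]
  refine mul_le_mul_of_nonneg_left (le_trans ?_ (exp_abs_le _)) (Real.rpow_nonneg hc.le _)
  have h3 : |s / T| = u * (2 * p) := by
    rw [abs_div, abs_of_pos hT, hu]; field_simp
  rw [h3, Real.exp_mul]
  exact Real.rpow_le_rpow hu0 (by linarith [Real.add_one_le_exp u]) (by linarith)

theorem sum_step {A B : Type} [Fintype A] [Fintype B] (ω : B → ℝ) (pr : A → ℝ)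
    (F : B × A × Bool → ℝ) :
    ∑ z : B × A × Bool, ω z.1 * pr z.2.1 / 2 * F z =
      ∑ b, ω b * ∑ a, pr a * ((F (b, a, true) + F (b, a, false)) / 2) := by
  rw [Fintype.sum_prod_type]
  refine sum_congr rfl fun b _ => ?_
  rw [Fintype.sum_prod_type, mul_sum]
  refine sum_congr rfl fun a _ => ?_
  rw [Fintype.sum_bool]
  ring

end MergeInd
open MergeInd

theorem merge_ind (d : Fin n → Fin n → ℝ) (p T Ω ε Γ t₁ t₂ : ℝ) (hp : 1 < p) (hT : 1 ≤ T)
    (hΩ : 0 < Ω) (hε : 0 < ε) (hε1 : ε ≤ 1) (hΓ : 0 ≤ Γ) (ht₁ : 0 ≤ t₁) (ht₂ : 0 ≤ t₂)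
    (hdef : ∀ a b : ℝ, |b| ≤ T → abs ((|a + b| ^ p + |a - b| ^ p) / 2 - |a| ^ p - |b| ^ p) ≤
      Γ * |b| ^ qq p * (t₁ + t₂ * |a| ^ p))
    {A : Type} [Fintype A] (pr : A → ℝ) (g : A → Fin n → ℝ) (hpr : ∀ a, 0 ≤ pr a)
    (hpr1 : ∑ a, pr a = 1) (hg : ∀ a x y, |sl d (g a) x y| ≤ T) (v : Fin n → Fin n → ℝ)
    (hv : ∀ x y, ∑ a, pr a * |sl d (g a) x y| ^ p = v x y / Ω) (hv2 : ∀ x y, v x y ≤ 2)
    (hw : ∀ x y, ∑ a, pr a * |sl d (g a) x y| ^ qq p ≤ T / Ω)
    (M : ℕ) (hM : T * Γ * (t₁ + t₂ * (3 * M / Ω)) ≤ ε) (k : ℕ) (hk : k ≤ M) :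
    ∃ (B : Type) (_ : Fintype B) (ω : B → ℝ) (Y : B → Fin n → ℝ), (∀ b, 0 ≤ ω b) ∧
      ∑ b, ω b = 1 ∧
      (∀ x y, abs (∑ b, ω b * |sl d (Y b) x y| ^ p - k * (v x y / Ω)) ≤ k * (ε / Ω)) ∧
      ∀ x y, ∑ b, ω b * Real.cosh (sl d (Y b) x y / T) ≤ Real.exp (k * (T / Ω)) := by
  induction k with
  | zero =>
    refine ⟨Unit, inferInstance, fun _ => 1, fun _ => 0, fun _ => zero_le_one, by simp,
      fun x y => ?_, fun x y => ?_⟩
    · simp [sl_zero, Real.zero_rpow (by linarith : p ≠ 0)]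
    · simp [sl_zero]
  | succ k ih =>
    obtain ⟨B, iB, ω, Y, h0, h1, h2, h3⟩ := ih (Nat.le_of_succ_le hk)
    refine ⟨B × A × Bool, inferInstance, fun z => ω z.1 * pr z.2.1 / 2,
      fun z => if z.2.2 then Y z.1 + g z.2.1 else Y z.1 - g z.2.1,
      fun z => div_nonneg (mul_nonneg (h0 _) (hpr _)) zero_le_two, ?_, fun x y => ?_, fun x y => ?_⟩
    · have := sum_step ω pr (fun _ => 1)
      simp only [mul_one] at this
      rw [this]
      simp [hpr1, h1]
    · rw [sum_step]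
      simp only [if_true, Bool.false_eq_true, if_false, sl_add, sl_sub]
      set E := ∑ b, ω b * |sl d (Y b) x y| ^ p with hE
      have hkM : (k : ℝ) ≤ M := by exact_mod_cast Nat.le_of_succ_le hk
      have hE3 : E ≤ 3 * M / Ω := by
        have h4 := (abs_le.1 (h2 x y)).2
        have h5 : v x y / Ω + ε / Ω ≤ 3 / Ω := by
          rw [← add_div]
          exact div_le_div_of_nonneg_right (by linarith [hv2 x y]) hΩ.le
        have h6 : (k : ℝ) * (v x y / Ω + ε / Ω) ≤ k * (3 / Ω) :=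
          mul_le_mul_of_nonneg_left h5 (Nat.cast_nonneg _)
        have h7 : (k : ℝ) * (3 / Ω) ≤ M * (3 / Ω) :=
          mul_le_mul_of_nonneg_right hkM (by positivity)
        have h8 : (M : ℝ) * (3 / Ω) = 3 * M / Ω := by ring
        linarith
      have hE0 : 0 ≤ E := sum_nonneg fun b _ => mul_nonneg (h0 b) (Real.rpow_nonneg (abs_nonneg _) _)
      have e1 : ∑ b, ω b * ∑ a, pr a * ((|sl d (Y b) x y + sl d (g a) x y| ^ p +
            |sl d (Y b) x y - sl d (g a) x y| ^ p) / 2) - E - v x y / Ω =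
          ∑ b, ω b * ∑ a, pr a * ((|sl d (Y b) x y + sl d (g a) x y| ^ p +
            |sl d (Y b) x y - sl d (g a) x y| ^ p) / 2 - |sl d (Y b) x y| ^ p -
              |sl d (g a) x y| ^ p) := by
        simp only [mul_sub, sum_sub_distrib, ← sum_mul, hpr1, one_mul, hv, h1, hE]
      have e2 : abs (∑ b, ω b * ∑ a, pr a * ((|sl d (Y b) x y + sl d (g a) x y| ^ p +
            |sl d (Y b) x y - sl d (g a) x y| ^ p) / 2 - |sl d (Y b) x y| ^ p -
              |sl d (g a) x y| ^ p)) ≤ ε / Ω := by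
        calc _ ≤ ∑ b, ω b * ∑ a, pr a * (Γ * |sl d (g a) x y| ^ qq p *
              (t₁ + t₂ * |sl d (Y b) x y| ^ p)) := by
              refine (abs_sum_le_sum_abs _ _).trans (sum_le_sum fun b _ => ?_)
              rw [abs_mul, abs_of_nonneg (h0 b)]
              refine mul_le_mul_of_nonneg_left ?_ (h0 b)
              refine (abs_sum_le_sum_abs _ _).trans (sum_le_sum fun a _ => ?_)
              rw [abs_mul, abs_of_nonneg (hpr a)]
              exact mul_le_mul_of_nonneg_left (hdef _ _ (hg a x y)) (hpr a)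
          _ = (∑ a, pr a * |sl d (g a) x y| ^ qq p) * (Γ * (t₁ + t₂ * E)) := by
              have e3 : ∀ b, ∑ a, pr a * (Γ * |sl d (g a) x y| ^ qq p *
                  (t₁ + t₂ * |sl d (Y b) x y| ^ p)) = (∑ a, pr a * |sl d (g a) x y| ^ qq p) *
                    (Γ * (t₁ + t₂ * |sl d (Y b) x y| ^ p)) := by
                intro b
                rw [sum_mul]
                exact sum_congr rfl fun a _ => by ring
              simp only [e3]
              have e4 : Γ * (t₁ + t₂ * E) = ∑ b, ω b * (Γ * (t₁ + t₂ * |sl d (Y b) x y| ^ p)) := by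
                have : Γ * (t₁ + t₂ * E) = Γ * t₁ * ∑ b, ω b + Γ * t₂ * E := by rw [h1]; ring
                rw [this, hE, mul_sum, mul_sum, ← sum_add_distrib]
                exact sum_congr rfl fun b _ => by ring
              rw [e4, mul_sum]
              exact sum_congr rfl fun b _ => by ring
          _ ≤ T / Ω * (Γ * (t₁ + t₂ * (3 * M / Ω))) := by
              refine mul_le_mul (hw x y) (mul_le_mul_of_nonneg_left ?_ hΓ)
                (mul_nonneg hΓ (add_nonneg ht₁ (mul_nonneg ht₂ hE0))) (by positivity)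
              linarith [mul_le_mul_of_nonneg_left hE3 ht₂]
          _ = T * Γ * (t₁ + t₂ * (3 * M / Ω)) / Ω := by ring
          _ ≤ ε / Ω := div_le_div_of_nonneg_right hM hΩ.le
      rw [← e1] at e2
      have h4 := abs_le.1 (h2 x y)
      have h5 := abs_le.1 e2
      push_cast
      rw [abs_le]
      constructor <;> linarith [h4.1, h4.2, h5.1, h5.2]
    · rw [sum_step]
      simp only [if_true, Bool.false_eq_true, if_false, sl_add, sl_sub, add_div, sub_div,
        Real.cosh_add, Real.cosh_sub]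
      have e1 : ∀ b, ∑ a, pr a * (Real.cosh (sl d (Y b) x y / T) * Real.cosh (sl d (g a) x y / T) / 2 +
          Real.sinh (sl d (Y b) x y / T) * Real.sinh (sl d (g a) x y / T) / 2 +
          (Real.cosh (sl d (Y b) x y / T) * Real.cosh (sl d (g a) x y / T) / 2 -
          Real.sinh (sl d (Y b) x y / T) * Real.sinh (sl d (g a) x y / T) / 2)) =
          Real.cosh (sl d (Y b) x y / T) * ∑ a, pr a * Real.cosh (sl d (g a) x y / T) := by
        intro b
        rw [mul_sum]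
        exact sum_congr rfl fun a _ => by ring
      simp only [e1, ← mul_assoc, ← sum_mul]
      have h4 : ∑ a, pr a * Real.cosh (sl d (g a) x y / T) ≤ Real.exp (T / Ω) := by
        calc _ ≤ ∑ a, pr a * (1 + |sl d (g a) x y| ^ qq p) :=
              sum_le_sum fun a _ => mul_le_mul_of_nonneg_left
                (cosh_le hT (hg a x y) (one_le_qq p) (qq_le_two p)) (hpr a)
          _ = 1 + ∑ a, pr a * |sl d (g a) x y| ^ qq p := by
              simp only [mul_add, mul_one, sum_add_distrib, hpr1]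
          _ ≤ Real.exp (T / Ω) := by linarith [hw x y, Real.add_one_le_exp (T / Ω)]
      push_cast
      rw [add_mul, one_mul, Real.exp_add]
      exact mul_le_mul (h3 x y) h4
        (sum_nonneg fun a _ => mul_nonneg (hpr a) (Real.cosh_pos _).le) (Real.exp_pos _).le

/-- `Y' b = Y b` if all slopes are `≤ Λ`, else `0`.  With `bad` the complement,
`ω(bad) ≤ ∑_{x,y} E[2 cosh (sl/T)] exp (-Λ/T) ≤ 6 n² exp (-Λ/T)`, `|s|^(2p) ≤ (2p T)^(2p) exp (|s|/T)
≤ 2 (2pT)^(2p) cosh (s/T)` (from `u ≤ exp u` at `u = |s| / (2pT)`), Cauchy-Schwarz. -/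
theorem zeroing (d : Fin n → Fin n → ℝ) (p T Λ κ : ℝ) (hp : 1 ≤ p) (hT : 0 < T) (hΛ : 0 ≤ Λ)
    (hκ : 0 ≤ κ) {B : Type} [Fintype B] (ω : B → ℝ) (Y : B → Fin n → ℝ) (hω : ∀ b, 0 ≤ ω b)
    (hcosh : ∀ x y, ∑ b, ω b * Real.cosh (sl d (Y b) x y / T) ≤ 3)
    (hpar : 36 * (n : ℝ) ^ 2 * (2 * p * T) ^ (2 * p) * Real.exp (-(Λ / T)) ≤ κ ^ 2) :
    ∃ Y' : B → Fin n → ℝ, (∀ b x y, |sl d (Y' b) x y| ≤ Λ) ∧
      ∀ x y, abs (∑ b, ω b * |sl d (Y' b) x y| ^ p - ∑ b, ω b * |sl d (Y b) x y| ^ p) ≤ κ := by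
  classical
  refine ⟨fun b => if ∀ x y, |sl d (Y b) x y| ≤ Λ then Y b else 0, fun b x y => ?_, fun x y => ?_⟩
  · dsimp only
    split_ifs with h
    · exact h x y
    · simpa [sl_zero] using hΛ
  · set χ : B → ℝ := fun b => if ∀ x y, |sl d (Y b) x y| ≤ Λ then 0 else 1 with hχ
    have e1 : ∑ b, ω b * |sl d (if ∀ x y, |sl d (Y b) x y| ≤ Λ then Y b else 0) x y| ^ p -
        ∑ b, ω b * |sl d (Y b) x y| ^ p = -∑ b, ω b * χ b * |sl d (Y b) x y| ^ p := by
      rw [← sum_sub_distrib, ← sum_neg_distrib]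
      refine sum_congr rfl fun b _ => ?_
      simp only [hχ]
      split_ifs with h
      · simp
      · simp [sl_zero, Real.zero_rpow (by linarith : p ≠ 0)]
    have hχ0 : ∀ b, 0 ≤ χ b := fun b => by simp only [hχ]; split_ifs <;> norm_num
    have hχ2 : ∀ b, χ b ^ 2 = χ b := fun b => by simp only [hχ]; split_ifs <;> norm_num
    have hχle : ∀ b, χ b ≤
        ∑ x, ∑ y, 2 * Real.cosh (sl d (Y b) x y / T) * Real.exp (-(Λ / T)) := by
      intro b
      have hnn : ∀ x y, 0 ≤ 2 * Real.cosh (sl d (Y b) x y / T) * Real.exp (-(Λ / T)) :=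
        fun x y => mul_nonneg (mul_nonneg zero_le_two (Real.cosh_pos _).le) (Real.exp_pos _).le
      simp only [hχ]
      split_ifs with h
      · exact sum_nonneg fun x _ => sum_nonneg fun y _ => hnn x y
      · simp only [not_forall, not_le] at h
        obtain ⟨x, y, h⟩ := h
        refine le_trans ?_ (single_le_sum (fun x _ => sum_nonneg fun y _ => hnn x y) (mem_univ x))
        refine le_trans ?_ (single_le_sum (fun y _ => hnn x y) (mem_univ y))
        refine le_trans ?_ (mul_le_mul_of_nonneg_right (exp_abs_le _) (Real.exp_pos _).le)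
        rw [← Real.exp_add, abs_div, abs_of_pos hT]
        refine Real.one_le_exp ?_
        have := div_le_div_of_nonneg_right h.le hT.le
        linarith
    have h1 : ∑ b, ω b * χ b ≤ 6 * (n : ℝ) ^ 2 * Real.exp (-(Λ / T)) := by
      calc _ ≤ ∑ b, ω b * ∑ x, ∑ y, 2 * Real.cosh (sl d (Y b) x y / T) * Real.exp (-(Λ / T)) :=
            sum_le_sum fun b _ => mul_le_mul_of_nonneg_left (hχle b) (hω b)
        _ = ∑ x, ∑ y, 2 * Real.exp (-(Λ / T)) * ∑ b, ω b * Real.cosh (sl d (Y b) x y / T) := by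
            simp only [mul_sum]
            rw [sum_comm]
            refine sum_congr rfl fun x _ => ?_
            rw [sum_comm]
            exact sum_congr rfl fun y _ => sum_congr rfl fun b _ => by ring
        _ ≤ ∑ x : Fin n, ∑ y : Fin n, 2 * Real.exp (-(Λ / T)) * 3 :=
            sum_le_sum fun x _ => sum_le_sum fun y _ =>
              mul_le_mul_of_nonneg_left (hcosh x y) (by positivity)
        _ = _ := by simp; ring
    have hc : 0 ≤ (2 * p * T) ^ (2 * p) := Real.rpow_nonneg (by positivity) _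
    have h2 : ∑ b, ω b * (|sl d (Y b) x y| ^ p) ^ 2 ≤ 6 * (2 * p * T) ^ (2 * p) := by
      calc _ ≤ ∑ b, ω b * ((2 * p * T) ^ (2 * p) * (2 * Real.cosh (sl d (Y b) x y / T))) :=
            sum_le_sum fun b _ => mul_le_mul_of_nonneg_left (pow_le_cosh hp hT) (hω b)
        _ = 2 * (2 * p * T) ^ (2 * p) * ∑ b, ω b * Real.cosh (sl d (Y b) x y / T) := by
            rw [mul_sum]
            exact sum_congr rfl fun b _ => by ring
        _ ≤ 2 * (2 * p * T) ^ (2 * p) * 3 := mul_le_mul_of_nonneg_left (hcosh x y) (by positivity)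
        _ = _ := by ring
    have h3 : (∑ b, ω b * χ b * |sl d (Y b) x y| ^ p) ^ 2 ≤
        (∑ b, ω b * χ b) * ∑ b, ω b * (|sl d (Y b) x y| ^ p) ^ 2 := by
      refine sum_sq_le_sum_mul_sum_of_sq_eq_mul _ (fun b _ => mul_nonneg (hω b) (hχ0 b))
        (fun b _ => mul_nonneg (hω b) (sq_nonneg _)) fun b _ => ?_
      rw [mul_pow, mul_pow, hχ2]; ring
    rw [e1, abs_neg]
    refine abs_le_of_sq_le_sq' (h3.trans (le_trans ?_ hpar)) hκ |> abs_le.2
    calc _ ≤ (6 * (n : ℝ) ^ 2 * Real.exp (-(Λ / T))) * (6 * (2 * p * T) ^ (2 * p)) :=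
          mul_le_mul h1 h2 (sum_nonneg fun b _ => mul_nonneg (hω b) (sq_nonneg _)) (by positivity)
      _ = _ := by ring

end Crest.Agent.R232
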