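import Crest.Agent.R232.Defect
import Crest.Agent.R232.MergeInd

/-! Row 232, task Merge.  Choice of the parameters of the merging step.

`C₀, η` from `defect`; `Γ = C₀ T^p`, `t = (ε / (2 C₀ T^(p+1)))^(1/η) ≤ 1`, `δ = t^(η+p) / 6`.
Add a dummy function `0` with weight `1/δ` (`Option A`), `Ω = ∑ m + 1/δ`, `pr = m / Ω`,
`M = ⌈δ Ω⌉₊ ≤ 2 δ Ω`, `ρ = M / Ω ∈ [δ, 2δ]`, `ρ T ≤ 1` (so `exp (ρ T) ≤ 3`).  `merge_ind` at `k = M`
with `t₁ = t^η`, `t₂ = t^(-p)`; `zeroing` with `κ = ε δ` and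
`Λ = T * log (36 n² (2pT)^(2p) / κ²)`.  Bookkeeping: `1/δ ≤ T^C₁` (constants are `≤ T^c` because
`T ≥ 2`), `Λ ≤ C₂ T² L` with `L = log (2n) ≥ 1`. -/

set_option autoImplicit false
open Finset Matrix

namespace Crest.Agent.R232

variable {n : ℕ}

namespace Merge

theorem const_le (K : ℝ) : ∃ c : ℝ, 0 ≤ c ∧ ∀ T : ℝ, 2 ≤ T → K ≤ T ^ c := by
  obtain ⟨m, hm⟩ := pow_unbounded_of_one_lt K (one_lt_two (α := ℝ))
  refine ⟨m, Nat.cast_nonneg _, fun T hT => ?_⟩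
  rw [Real.rpow_natCast]
  exact hm.le.trans (pow_le_pow_left₀ zero_le_two hT m)

/-- the choice of `t` and `δ` -/
theorem params {p ε C₀ η : ℝ} (hp : 1 < p) (hε : 0 < ε) (hε1 : ε ≤ 1) (hC₀ : 1 ≤ C₀)
    (hη : 0 < η) : ∃ C₁ : ℝ, 0 ≤ C₁ ∧ ∀ T : ℝ, 2 ≤ T → ∃ t δ : ℝ, 0 < t ∧ t ≤ 1 ∧ 0 < δ ∧
      T * (C₀ * T ^ p) * (t ^ η + t ^ (-p) * (6 * δ)) ≤ ε ∧ 2 * δ * T ≤ 1 ∧ 1 / δ ≤ T ^ C₁ := by
  obtain ⟨c₁, hc₁, h₁⟩ := const_le 6
  obtain ⟨c₂, hc₂, h₂⟩ := const_le (2 * C₀ / ε)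
  have hr : 0 ≤ (η + p) / η := div_nonneg (by linarith) hη.le
  refine ⟨c₁ + (c₂ + (p + 1)) * ((η + p) / η),
    add_nonneg hc₁ (mul_nonneg (by linarith) hr), fun T hT => ?_⟩
  have hT0 : 0 < T := by linarith
  have hTp : 1 ≤ T ^ p := Real.one_le_rpow (by linarith) (by linarith)
  set Z := T * (C₀ * T ^ p) with hZ
  have hZT : T ≤ Z := le_mul_of_one_le_right hT0.le (one_le_mul_of_one_le_of_one_le hC₀ hTp)
  have hZ0 : 0 < Z := by linarith
  set a := ε / (2 * Z) with ha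
  have ha0 : 0 < a := by positivity
  have ha1 : a ≤ 1 := by rw [ha, div_le_one (by positivity)]; linarith
  have haZ : a * (2 * Z) = ε := div_mul_cancel₀ _ (by positivity)
  set t := a ^ (1 / η) with ht
  have ht0 : 0 < t := Real.rpow_pos_of_pos ha0 _
  have ht1 : t ≤ 1 := Real.rpow_le_one ha0.le ha1 (by positivity)
  have htη : t ^ η = a := by
    rw [ht, ← Real.rpow_mul ha0.le, one_div_mul_cancel hη.ne', Real.rpow_one]
  have htp : t ^ p ≤ 1 := Real.rpow_le_one ht0.le ht1 (by linarith)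
  have htp0 : 0 < t ^ p := Real.rpow_pos_of_pos ht0 _
  refine ⟨t, a * t ^ p / 6, ht0, ht1, by positivity, ?_, ?_, ?_⟩
  · have : t ^ (-p) * (6 * (a * t ^ p / 6)) = a := by
      rw [Real.rpow_neg ht0.le]; field_simp
    rw [this, htη]; linarith
  · have h1 : a * t ^ p ≤ a := mul_le_of_le_one_right ha0.le htp
    have h2 : a * t ^ p * T ≤ a * Z := mul_le_mul h1 hZT hT0.le ha0.le
    linarith
  · have e1 : a * t ^ p = a ^ ((η + p) / η) := by
      rw [← htη, ← Real.rpow_add ht0, ← Real.rpow_mul ht0.le, mul_div_cancel₀ _ hη.ne']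
    have e2 : 1 / (a * t ^ p / 6) = 6 * a⁻¹ ^ ((η + p) / η) := by
      rw [e1, Real.inv_rpow ha0.le]; field_simp
    have e3 : a⁻¹ = 2 * C₀ / ε * T ^ (p + 1) := by
      rw [ha, hZ, Real.rpow_add_one hT0.ne']; field_simp
    have h3 : a⁻¹ ≤ T ^ (c₂ + (p + 1)) := by
      rw [e3, Real.rpow_add hT0 c₂]
      exact mul_le_mul_of_nonneg_right (h₂ T hT) (Real.rpow_nonneg hT0.le _)
    rw [e2, Real.rpow_add hT0, Real.rpow_mul hT0.le]
    exact mul_le_mul (h₁ T hT) (Real.rpow_le_rpow (inv_pos.2 ha0).le h3 hr)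
      (Real.rpow_nonneg (inv_pos.2 ha0).le _) (Real.rpow_nonneg hT0.le _)

theorem one_le_log {n : ℕ} (hn : 2 ≤ n) : 1 ≤ Real.log (2 * n) := by
  have h : (2 : ℝ) ≤ n := by exact_mod_cast hn
  rw [Real.le_log_iff_exp_le (by linarith)]
  linarith [Real.exp_one_lt_d9]

/-- the choice of `Λ` -/
theorem lam {p ε C₁ : ℝ} (hp : 1 < p) (hε : 0 < ε) (hC₁ : 0 ≤ C₁) :
    ∃ C : ℝ, 0 < C ∧ ∀ n : ℕ, 2 ≤ n → ∀ T δ : ℝ, 2 ≤ T → 0 < δ → 1 / δ ≤ T ^ C₁ →
      ∃ Λ : ℝ, 0 ≤ Λ ∧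
        36 * (n : ℝ) ^ 2 * (2 * p * T) ^ (2 * p) * Real.exp (-(Λ / T)) ≤ (ε * δ) ^ 2 ∧
        Λ ^ p ≤ δ * (T * Real.log (2 * n)) ^ C := by
  obtain ⟨c₃, hc₃, h₃⟩ := const_le (36 * (2 * p) ^ (2 * p) / ε ^ 2)
  set C₂ := c₃ + 2 * p + C₁ * 2 with hC₂
  have hC₂0 : 0 ≤ C₂ := by positivity
  obtain ⟨c₄, hc₄, h₄⟩ := const_le (2 + C₂)
  refine ⟨(c₄ + 2) * p + C₁, by positivity, fun n hn T δ hT hδ hδT => ?_⟩
  have hL := one_le_log hn
  set L := Real.log (2 * n) with hLdef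
  have hn' : (2 : ℝ) ≤ n := by exact_mod_cast hn
  have hT0 : 0 < T := by linarith
  have hTL : T ≤ T * L := le_mul_of_one_le_right hT0.le hL
  have hTL0 : 0 < T * L := by linarith
  refine ⟨(2 + C₂) * T * (T * L), by positivity, ?_, ?_⟩
  · have e1 : (2 + C₂) * T * (T * L) / T = (2 + C₂) * (T * L) := by field_simp
    rw [e1, Real.exp_neg, ← div_eq_mul_inv, div_le_iff₀ (Real.exp_pos _)]
    have h1 : (n : ℝ) ^ 2 ≤ Real.exp (2 * (T * L)) := by
      have h2 : (n : ℝ) ≤ Real.exp (T * L) := by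
        have : Real.exp L ≤ Real.exp (T * L) :=
          Real.exp_le_exp.2 (le_mul_of_one_le_left (by linarith) (by linarith))
        rw [hLdef, Real.exp_log (by linarith)] at this
        linarith
      rw [two_mul, Real.exp_add, sq]
      exact mul_le_mul h2 h2 (by linarith) (Real.exp_pos _).le
    have h2 : T ^ C₂ ≤ Real.exp (C₂ * (T * L)) := by
      rw [mul_comm C₂, Real.exp_mul]
      exact Real.rpow_le_rpow hT0.le (by linarith [Real.add_one_le_exp (T * L)]) hC₂0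
    have h3 : 36 * (2 * p * T) ^ (2 * p) ≤ (ε * δ) ^ 2 * T ^ C₂ := by
      have h4 : (1 / δ) ^ 2 ≤ (T ^ C₁) ^ 2 := pow_le_pow_left₀ (by positivity) hδT 2
      have h5 : 36 * (2 * p) ^ (2 * p) / ε ^ 2 * T ^ (2 * p) * (1 / δ) ^ 2 ≤ T ^ C₂ := by
        rw [hC₂, Real.rpow_add hT0, Real.rpow_add hT0, Real.rpow_mul hT0.le C₁, Real.rpow_two]
        exact mul_le_mul (mul_le_mul_of_nonneg_right (h₃ T hT) (Real.rpow_nonneg hT0.le _)) h4
          (by positivity) (by positivity)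
      have h6 := mul_le_mul_of_nonneg_left h5 (sq_nonneg (ε * δ))
      refine le_trans (le_of_eq ?_) h6
      rw [Real.mul_rpow (by positivity) hT0.le]
      field_simp
    calc 36 * (n : ℝ) ^ 2 * (2 * p * T) ^ (2 * p) = (36 * (2 * p * T) ^ (2 * p)) * (n : ℝ) ^ 2 := by
          ring
      _ ≤ ((ε * δ) ^ 2 * Real.exp (C₂ * (T * L))) * Real.exp (2 * (T * L)) :=
          mul_le_mul (h3.trans (mul_le_mul_of_nonneg_left h2 (sq_nonneg _))) h1 (sq_nonneg _)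
            (by positivity)
      _ = _ := by rw [mul_assoc, ← Real.exp_add]; ring_nf
  · have h1 : (2 + C₂) * T * (T * L) ≤ (T * L) ^ (c₄ + 2) := by
      rw [Real.rpow_add hTL0, Real.rpow_two, sq, ← mul_assoc ((T * L) ^ c₄)]
      refine mul_le_mul_of_nonneg_right (mul_le_mul ?_ hTL hT0.le (by positivity)) hTL0.le
      exact h₄ _ (hT.trans hTL)
    have h2 : ((2 + C₂) * T * (T * L)) ^ p ≤ (T * L) ^ ((c₄ + 2) * p) := by
      rw [Real.rpow_mul hTL0.le]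
      exact Real.rpow_le_rpow (by positivity) h1 (by linarith)
    have h3 : 1 ≤ δ * (T * L) ^ C₁ := by
      have := hδT.trans (Real.rpow_le_rpow hT0.le hTL hC₁)
      rwa [div_le_iff₀' hδ] at this
    rw [Real.rpow_add hTL0, mul_left_comm δ]
    exact h2.trans (le_mul_of_one_le_right (by positivity) h3)

end Merge
open Merge

theorem merge (p : ℝ) (hp1 : 1 < p) (hp2 : p ≠ 2) (ε : ℝ) (hε : 0 < ε) (hε1 : ε ≤ 1) :
    ∃ C : ℝ, 0 < C ∧ ∀ (n : ℕ), 2 ≤ n → ∀ (d : Fin n → Fin n → ℝ) (T : ℝ), 2 ≤ T →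
      ∀ v w : Fin n → Fin n → ℝ, InCone d p T v w → (∀ x y, |v x y - tgt x y| ≤ ε) →
      (∀ x y, w x y ≤ T) →
      ∃ (B : Type) (_ : Fintype B) (ω : B → ℝ) (Y : B → Fin n → ℝ) (ρ : ℝ), 0 < ρ ∧
        (∀ b, 0 ≤ ω b) ∧ ∑ b, ω b = 1 ∧
        (∀ b x y, |sl d (Y b) x y| ^ p ≤ ρ * (T * Real.log (2 * n)) ^ C) ∧
        ∀ x y, abs (∑ b, ω b * |sl d (Y b) x y| ^ p - ρ * tgt x y) ≤ 3 * ε * ρ := by
  obtain ⟨C₀, η, hC₀, hη, -, hdef⟩ := defect p hp1 hp2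
  obtain ⟨C₁, hC₁, hpar⟩ := params hp1 hε hε1 hC₀ hη
  obtain ⟨C, hC, hlam⟩ := lam hp1 hε hC₁
  refine ⟨C, hC, fun n hn d T hT v w hc hv hw => ?_⟩
  obtain ⟨t, δ, ht0, ht1, hδ, h1, h2, h3⟩ := hpar T hT
  obtain ⟨Λ, hΛ, h4, h5⟩ := hlam n hn T δ hT hδ h3
  obtain ⟨A, iA, m, g, hm, hg, hv', hw'⟩ := hc
  have hT0 : 0 < T := by linarith
  have hm0 : 0 ≤ ∑ a, m a := sum_nonneg fun a _ => hm a
  set Ω := ∑ a, m a + 1 / δ with hΩ
  have hΩ0 : 0 < Ω := by positivity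
  have hδΩ : 1 ≤ δ * Ω := by
    rw [hΩ, mul_add, mul_one_div_cancel hδ.ne']
    linarith [mul_nonneg hδ.le hm0]
  set M := ⌈δ * Ω⌉₊ with hM
  have hM1 : δ * Ω ≤ M := Nat.le_ceil _
  have hM2 : (M : ℝ) ≤ 2 * (δ * Ω) := by
    have := Nat.ceil_lt_add_one (a := δ * Ω) (by linarith)
    linarith
  have hρ1 : δ ≤ M / Ω := (le_div_iff₀ hΩ0).2 hM1
  have hρ2 : M / Ω ≤ 2 * δ := (div_le_iff₀ hΩ0).2 (by linarith)
  have hΓ : 0 ≤ C₀ * T ^ p := by positivity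
  have hq : qq p ≠ 0 := by linarith [one_le_qq p]
  obtain ⟨B, iB, ω, Y, hω, hω1, h6, h7⟩ := merge_ind d p T Ω ε (C₀ * T ^ p) (t ^ η) (t ^ (-p))
    hp1 (by linarith) hΩ0 hε hε1 hΓ (by positivity) (by positivity)
    (fun a b hb => hdef T t a b (by linarith) ht0 ht1 hb) (A := Option A)
    (fun a => a.elim (1 / δ) m / Ω) (fun a => a.elim 0 g)
    (fun a => by
      refine div_nonneg ?_ hΩ0.le
      cases a with
      | none => exact (one_div_pos.2 hδ).le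
      | some a => exact hm a)
    (by
      rw [← sum_div, Fintype.sum_option, div_eq_one_iff_eq hΩ0.ne', hΩ, add_comm]; rfl)
    (fun a x y => by
      cases a with
      | none => simpa [sl_zero] using hT0.le
      | some a => exact hg a x y) v
    (fun x y => by
      rw [Fintype.sum_option, hv', sum_div]
      simp only [Option.elim, sl_zero, abs_zero, Real.zero_rpow (by linarith : p ≠ 0), mul_zero,
        zero_add]
      exact sum_congr rfl fun a _ => by ring)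
    (fun x y => by
      have h8 := (abs_le.1 (hv x y)).2
      have h9 : tgt x y ≤ 1 := by unfold tgt; split_ifs <;> norm_num
      linarith)
    (fun x y => by
      refine le_trans (le_of_eq ?_) (div_le_div_of_nonneg_right (hw x y) hΩ0.le)
      rw [Fintype.sum_option, hw', sum_div]
      simp only [Option.elim, sl_zero, abs_zero, Real.zero_rpow hq, mul_zero, zero_add]
      exact sum_congr rfl fun a _ => by ring)
    M (by
      refine le_trans (mul_le_mul_of_nonneg_left ?_ (by positivity)) h1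
      refine add_le_add le_rfl (mul_le_mul_of_nonneg_left ?_ (by positivity))
      rw [mul_div_assoc]; linarith) M le_rfl
  obtain ⟨Y', h8, h9⟩ := zeroing d p T Λ (ε * δ) hp1.le hT0 hΛ (by positivity) ω Y hω
    (fun x y => by
      refine (h7 x y).trans ?_
      have e1 : (M : ℝ) * (T / Ω) = M / Ω * T := by ring
      have h10 : M / Ω * T ≤ 1 := (mul_le_mul_of_nonneg_right hρ2 hT0.le).trans h2
      rw [e1]
      linarith [Real.exp_le_exp.2 h10, Real.exp_one_lt_d9]) h4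
  have hL := one_le_log hn
  refine ⟨B, iB, ω, Y', M / Ω, by linarith, hω, hω1, fun b x y => ?_, fun x y => ?_⟩
  · refine (Real.rpow_le_rpow (abs_nonneg _) (h8 b x y) (by linarith)).trans (h5.trans ?_)
    exact mul_le_mul_of_nonneg_right hρ1 (by positivity)
  · have h10 := abs_le.1 (h6 x y)
    have h11 := abs_le.1 (h9 x y)
    have h12 := abs_le.1 (hv x y)
    have e1 : (M : ℝ) * (v x y / Ω) = M / Ω * v x y := by ring
    have e2 : (M : ℝ) * (ε / Ω) = M / Ω * ε := by ring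
    rw [e1, e2] at h10
    set ρ := (M : ℝ) / Ω with hρ
    have hρ0 : 0 ≤ ρ := by linarith
    have h13 := mul_le_mul_of_nonneg_left h12.1 hρ0
    have h14 := mul_le_mul_of_nonneg_left h12.2 hρ0
    have h15 := mul_le_mul_of_nonneg_left hρ1 hε.le
    rw [abs_le]
    constructor <;> nlinarith [h10.1, h10.2, h11.1, h11.2]

end Crest.Agent.R232
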