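import Crest.Agent.R232.Defs

/-! Row 232, task Sample.  Greedy sampling (derandomized Hoeffding bound).

`θ = δ / (2 H²)`, `μ e = ∑ ω W · e`.  Induction on `D`: there is `b : Fin D → B` with
`Ψ b = ∑ e, (exp (θ S e) + exp (-θ S e)) ≤ 2 |E| exp (D θ² H²)`, `S e = ∑ j, (W (b j) e - μ e)`:
the `ω`-average over a new sample multiplies each term by
`∑ ω exp (± θ (W - μ)) ≤ 1 + θ² H² ≤ exp (θ² H²)` (`exp u ≤ 1 + u + u²` for `|u| ≤ 1`), and some `b`
is below the average (`Finset.exists_le_of_sum_le`-type).  Then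
`θ |S e| ≤ log (2 |E|) + D θ² H²`. -/

set_option autoImplicit false
open Finset Matrix

namespace Crest.Agent.R232

variable {n : ℕ}

namespace Sample

theorem mgf {B : Type} [Fintype B] (ω : B → ℝ) (hω : ∀ b, 0 ≤ ω b) (hω1 : ∑ b, ω b = 1)
    (u : B → ℝ) (c : ℝ) (hc : c ≤ 1) (hu : ∀ b, |u b| ≤ c) (h0 : ∑ b, ω b * u b = 0) :
    ∑ b, ω b * Real.exp (u b) ≤ Real.exp (c ^ 2) := by
  calc _ ≤ ∑ b, ω b * (1 + u b + c ^ 2) := by
        refine sum_le_sum fun b _ => mul_le_mul_of_nonneg_left ?_ (hω b)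
        have h1 := (abs_le.1 (Real.abs_exp_sub_one_sub_id_le ((hu b).trans hc))).2
        have h2 : u b ^ 2 ≤ c ^ 2 := sq_le_sq' (abs_le.1 (hu b)).1 (abs_le.1 (hu b)).2
        linarith
    _ = 1 + c ^ 2 := by
        simp only [mul_add, sum_add_distrib, mul_one, ← sum_mul, hω1, h0]; ring
    _ ≤ _ := by linarith [Real.add_one_le_exp (c ^ 2)]

theorem greedy {B E : Type} [Fintype B] [Fintype E] (ω : B → ℝ) (hω : ∀ b, 0 ≤ ω b)
    (hω1 : ∑ b, ω b = 1) (u : B → E → ℝ) (c : ℝ) (hc : c ≤ 1) (hu : ∀ b e, |u b e| ≤ c)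
    (h0 : ∀ e, ∑ b, ω b * u b e = 0) (D : ℕ) :
    ∃ b : Fin D → B, ∑ e, (Real.exp (∑ j, u (b j) e) + Real.exp (-∑ j, u (b j) e)) ≤
      2 * Fintype.card E * Real.exp (D * c ^ 2) := by
  induction D with
  | zero => exact ⟨Fin.elim0, by simp; ring_nf; rfl⟩
  | succ D ih =>
    obtain ⟨b, hb⟩ := ih
    have hne : (univ : Finset B).Nonempty := by
      rcases (univ : Finset B).eq_empty_or_nonempty with h | h
      · rw [h] at hω1; simp at hω1
      · exact h
    set Ψ : B → ℝ := fun a => ∑ e, (Real.exp (u a e + ∑ j, u (b j) e) +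
      Real.exp (-(u a e + ∑ j, u (b j) e))) with hΨ
    obtain ⟨a, -, ha⟩ := exists_min_image univ Ψ hne
    refine ⟨Fin.cons a b, ?_⟩
    simp only [Fin.sum_univ_succ, Fin.cons_zero, Fin.cons_succ]
    change Ψ a ≤ _
    calc Ψ a = ∑ a', ω a' * Ψ a := by rw [← sum_mul, hω1, one_mul]
      _ ≤ ∑ a', ω a' * Ψ a' :=
          sum_le_sum fun a' _ => mul_le_mul_of_nonneg_left (ha a' (mem_univ _)) (hω a')
      _ = ∑ e, ((∑ a', ω a' * Real.exp (u a' e)) * Real.exp (∑ j, u (b j) e) +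
            (∑ a', ω a' * Real.exp (-u a' e)) * Real.exp (-∑ j, u (b j) e)) := by
          simp only [hΨ, mul_sum]
          rw [sum_comm]
          refine sum_congr rfl fun e _ => ?_
          rw [sum_mul, sum_mul, ← sum_add_distrib]
          refine sum_congr rfl fun a' _ => ?_
          rw [neg_add, Real.exp_add, Real.exp_add]; ring
      _ ≤ ∑ e, Real.exp (c ^ 2) * (Real.exp (∑ j, u (b j) e) + Real.exp (-∑ j, u (b j) e)) := by
          refine sum_le_sum fun e _ => ?_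
          rw [mul_add]
          refine add_le_add (mul_le_mul_of_nonneg_right ?_ (Real.exp_pos _).le)
            (mul_le_mul_of_nonneg_right ?_ (Real.exp_pos _).le)
          · exact mgf ω hω hω1 _ c hc (fun a' => hu a' e) (h0 e)
          · refine mgf ω hω hω1 _ c hc (fun a' => by rw [abs_neg]; exact hu a' e) ?_
            simp only [mul_neg, sum_neg_distrib, h0 e, neg_zero]
      _ ≤ Real.exp (c ^ 2) * (2 * Fintype.card E * Real.exp (D * c ^ 2)) := by
          rw [← mul_sum]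
          exact mul_le_mul_of_nonneg_left hb (Real.exp_pos _).le
      _ = _ := by
          push_cast
          rw [add_mul, one_mul, Real.exp_add]; ring

end Sample
open Sample

theorem sample {B E : Type} [Fintype B] [Fintype E] (ω : B → ℝ) (hω : ∀ b, 0 ≤ ω b)
    (hω1 : ∑ b, ω b = 1) (W : B → E → ℝ) (H δ : ℝ) (hδ : 0 < δ) (hδH : δ ≤ H)
    (hW0 : ∀ b e, 0 ≤ W b e) (hWH : ∀ b e, W b e ≤ H) (D : ℕ)
    (hD : 4 * (H / δ) ^ 2 * Real.log (2 * Fintype.card E) ≤ D) :
    ∃ b : Fin D → B, ∀ e, |∑ j, W (b j) e - D * ∑ b', ω b' * W b' e| ≤ D * δ := by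
  have hH : 0 < H := hδ.trans_le hδH
  set μ : E → ℝ := fun e => ∑ b', ω b' * W b' e with hμ
  have hμ0 : ∀ e, 0 ≤ μ e := fun e => sum_nonneg fun b _ => mul_nonneg (hω b) (hW0 b e)
  have hμH : ∀ e, μ e ≤ H := fun e => by
    calc μ e ≤ ∑ b', ω b' * H := sum_le_sum fun b _ => mul_le_mul_of_nonneg_left (hWH b e) (hω b)
      _ = H := by rw [← sum_mul, hω1, one_mul]
  set θ := δ / (2 * H ^ 2) with hθ
  have hθ0 : 0 < θ := by positivity
  have hθH : θ * H = δ / (2 * H) := by rw [hθ]; field_simp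
  obtain ⟨b, hb⟩ := greedy ω hω hω1 (fun b e => θ * (W b e - μ e)) (θ * H)
    (by rw [hθH, div_le_one (by positivity)]; linarith)
    (fun b e => by
      rw [abs_mul, abs_of_pos hθ0]
      refine mul_le_mul_of_nonneg_left (abs_le.2 ⟨?_, ?_⟩) hθ0.le
      · linarith [hW0 b e, hμH e]
      · linarith [hWH b e, hμ0 e])
    (fun e => by
      have : ∑ b, ω b * (θ * (W b e - μ e)) = θ * (μ e - (∑ b, ω b) * μ e) := by
        simp only [hμ]
        rw [sum_mul, ← sum_sub_distrib, mul_sum]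
        exact sum_congr rfl fun b _ => by ring
      rw [this, hω1]; ring) D
  refine ⟨b, fun e => ?_⟩
  have hE : (0 : ℝ) < Fintype.card E := by exact_mod_cast Fintype.card_pos_iff.2 ⟨e⟩
  set S := ∑ j, W (b j) e - D * μ e with hS
  have e1 : ∑ j, θ * (W (b j) e - μ e) = θ * S := by
    rw [← mul_sum, sum_sub_distrib]; simp [hS]
  have h1 : Real.exp (θ * S) + Real.exp (-(θ * S)) ≤
      2 * Fintype.card E * Real.exp (D * (θ * H) ^ 2) := by
    rw [← e1]
    exact le_trans (single_le_sum (f := fun e => Real.exp (∑ j, θ * (W (b j) e - μ e)) +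
      Real.exp (-∑ j, θ * (W (b j) e - μ e))) (fun e _ => by positivity) (mem_univ e)) hb
  have h2 : Real.exp (θ * |S|) ≤ Real.exp (Real.log (2 * Fintype.card E) + D * (θ * H) ^ 2) := by
    rw [Real.exp_add, Real.exp_log (by positivity)]
    refine le_trans ?_ h1
    rcases abs_choice S with h | h <;> rw [h]
    · linarith [Real.exp_pos (-(θ * S))]
    · rw [mul_neg]; linarith [Real.exp_pos (θ * S)]
  have h3 := Real.exp_le_exp.1 h2
  have h4 : Real.log (2 * Fintype.card E) ≤ D * (θ * H) ^ 2 := by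
    have h5 : (θ * H) ^ 2 * (4 * (H / δ) ^ 2) = 1 := by rw [hθH]; field_simp; norm_num
    have h6 := mul_le_mul_of_nonneg_left hD (sq_nonneg (θ * H))
    rw [← mul_assoc, h5, one_mul, mul_comm ((θ * H) ^ 2)] at h6
    exact h6
  have h5 : 2 * (D * (θ * H) ^ 2) = θ * (D * δ) := by rw [hθ]; field_simp
  exact le_of_mul_le_mul_left (by linarith) hθ0

end Crest.Agent.R232
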