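import Crest.Agent.R232.Main1
import Crest.Agent.R232.Merge
import Crest.Agent.R232.Sample

/-! Row 232, task Final.  Assembly for real exponents.

`main1`, `merge`, then `sample` with `E = Fin n × Fin n`, `W b e = |sl (Y b) e|^p`,
`H = ρ (T L)^C ≥ ρ`, `δ = ε ρ`, `D = ⌈8 (T L)^(2C) L / ε²⌉₊ ≥ 1` (`log (2 n²) ≤ 2 L`);
`y x j = Y (b j) x`, `σ = D ρ`.  Size: `T ≤ exp (C L^g)`, `L ≤ exp (L^g / g)`, `1 ≤ L^g`,
`g = |1 - 2/p| > 0`. -/

set_option autoImplicit false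
open Finset Matrix

namespace Crest.Agent.R232

variable {n : ℕ}

theorem final_real (p : ℝ) (hp1 : 1 < p) (hp2 : p ≠ 2) (ε : ℝ) (hε : 0 < ε) (hε1 : ε ≤ 1) :
    ∃ C : ℝ, 0 < C ∧ ∀ (n : ℕ), 2 ≤ n → ∀ d : Fin n → Fin n → ℝ, IsD d →
      (∀ κ : Fin n → Fin n → ℝ,
        (∀ f : Fin n → ℝ, 0 ≤ ∑ i, ∑ j, κ i j * |sl d f i j| ^ p) →
        0 ≤ ∑ i, ∑ j, κ i j * tgt i j) →
      ∃ D : ℕ, (D : ℝ) ≤ Real.exp (C * Real.log (2 * n) ^ |1 - 2 / p|) ∧
        ∃ (y : Fin n → Fin D → ℝ) (σ : ℝ), 0 < σ ∧ ∀ x x', x ≠ x' →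
          σ * (1 - 4 * ε) * d x x' ^ p ≤ ∑ j, |y x j - y x' j| ^ p ∧
          ∑ j, |y x j - y x' j| ^ p ≤ σ * (1 + 4 * ε) * d x x' ^ p := by
  obtain ⟨C₁, hC₁, H1⟩ := main1 p hp1 hp2 ε hε
  obtain ⟨C₂, hC₂, H2⟩ := merge p hp1 hp2 ε hε hε1
  set g := |1 - 2 / p| with hg
  have hg0 : 0 < g := by
    refine abs_pos.2 fun h => hp2 ?_
    have h' : 2 / p = 1 := by linarith
    rw [div_eq_one_iff_eq (by linarith)] at h'
    exact h'.symm
  refine ⟨16 / ε ^ 2 + (C₁ + 1 / g) * C₂ * 2 + 1 / g, by positivity, fun n hn d hd hdual => ?_⟩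
  obtain ⟨T, hT, hTe, v, w, hc, hv, hw⟩ := H1 n hn d hd hdual
  obtain ⟨B, iB, ω, Y, ρ, hρ, hω, hω1, hY, hE⟩ := H2 n hn d T hT v w hc hv hw
  have hL := Merge.one_le_log hn
  set L := Real.log (2 * n) with hLdef
  have hn' : (2 : ℝ) ≤ n := by exact_mod_cast hn
  have hTL : 1 ≤ T * L := one_le_mul_of_one_le_of_one_le (by linarith) hL
  set Q := (T * L) ^ C₂ with hQ
  have hQ1 : 1 ≤ Q := Real.one_le_rpow hTL hC₂.le
  set X := 8 * Q ^ 2 * L / ε ^ 2 with hX
  have hε2 : ε ^ 2 ≤ 1 := by nlinarith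
  have hX1 : 1 ≤ X := by
    rw [hX, le_div_iff₀ (by positivity)]
    nlinarith
  set D := ⌈X⌉₊ with hD
  have hXD : X ≤ D := Nat.le_ceil _
  have hDX : (D : ℝ) ≤ 2 * X := by
    have := Nat.ceil_lt_add_one (a := X) (by linarith)
    linarith
  obtain ⟨b, hb⟩ := sample (E := Fin n × Fin n) ω hω hω1 (fun b e => |sl d (Y b) e.1 e.2| ^ p)
    (ρ * Q) (ε * ρ) (by positivity) (by nlinarith)
    (fun b e => Real.rpow_nonneg (abs_nonneg _) _) (fun b e => hY b _ _) D (by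
      refine le_trans ?_ hXD
      have h1 : Real.log (2 * Fintype.card (Fin n × Fin n)) ≤ 2 * L := by
        have : 2 * L = Real.log ((2 * n) ^ 2) := by rw [Real.log_pow]; norm_num [hLdef]
        rw [this]
        simp only [Fintype.card_prod, Fintype.card_fin, Nat.cast_mul]
        exact Real.log_le_log (by positivity) (by nlinarith)
      calc _ ≤ 4 * (ρ * Q / (ε * ρ)) ^ 2 * (2 * L) := mul_le_mul_of_nonneg_left h1 (by positivity)
        _ = X := by rw [hX]; field_simp; norm_num)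
  refine ⟨D, ?_, fun x j => Y (b j) x, D * ρ, mul_pos (by linarith) hρ, fun x x' hxx => ?_⟩
  · set G := L ^ g with hG
    have hG1 : 1 ≤ G := Real.one_le_rpow hL hg0.le
    have h1 : L ≤ Real.exp (1 / g * G) := by
      have h2 : G ≤ Real.exp G := by linarith [Real.add_one_le_exp G]
      have h3 := Real.rpow_le_rpow (by linarith) h2 (one_div_pos.2 hg0).le
      rw [hG, ← Real.rpow_mul (by linarith), mul_one_div_cancel hg0.ne', Real.rpow_one,
        ← Real.exp_mul, mul_comm] at h3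
      exact h3
    have h2 : T * L ≤ Real.exp ((C₁ + 1 / g) * G) := by
      rw [add_mul, Real.exp_add]
      exact mul_le_mul hTe h1 (by linarith) (Real.exp_pos _).le
    have h3 : Q ≤ Real.exp ((C₁ + 1 / g) * G * C₂) := by
      rw [Real.exp_mul _ C₂]
      exact Real.rpow_le_rpow (by linarith) h2 hC₂.le
    have h4 : 16 / ε ^ 2 ≤ Real.exp (16 / ε ^ 2 * G) := by
      have : 16 / ε ^ 2 ≤ 16 / ε ^ 2 * G := le_mul_of_one_le_right (by positivity) hG1
      linarith [Real.add_one_le_exp (16 / ε ^ 2 * G)]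
    calc (D : ℝ) ≤ 16 / ε ^ 2 * (Q * Q) * L := by
          refine hDX.trans (le_of_eq ?_)
          rw [hX]; ring
      _ ≤ Real.exp (16 / ε ^ 2 * G) * (Real.exp ((C₁ + 1 / g) * G * C₂) *
            Real.exp ((C₁ + 1 / g) * G * C₂)) * Real.exp (1 / g * G) := by
          refine mul_le_mul (mul_le_mul h4 (mul_le_mul h3 h3 (by linarith) (Real.exp_pos _).le)
            (by positivity) (Real.exp_pos _).le) h1 (by linarith) (by positivity)
      _ = _ := by
          rw [← Real.exp_add, ← Real.exp_add, ← Real.exp_add]; congr 1; ring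
  · have hd0 := hd.pos x x' hxx
    have hdp : 0 < d x x' ^ p := Real.rpow_pos_of_pos hd0 _
    have e1 : ∑ j, |Y (b j) x - Y (b j) x'| ^ p = (∑ j, |sl d (Y (b j)) x x'| ^ p) * d x x' ^ p := by
      rw [sum_mul]
      refine sum_congr rfl fun j _ => ?_
      rw [← Real.mul_rpow (abs_nonneg _) hd0.le, sl, abs_div, abs_of_pos hd0,
        div_mul_cancel₀ _ hd0.ne']
    have h1 := abs_le.1 (hb (x, x'))
    have h2 := abs_le.1 (hE x x')
    have e2 : tgt x x' = 1 := if_neg hxx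
    rw [e2, mul_one] at h2
    simp only at h1
    have hD0 : (0 : ℝ) ≤ D := Nat.cast_nonneg _
    have h3 := mul_le_mul_of_nonneg_left h2.1 hD0
    have h4 := mul_le_mul_of_nonneg_left h2.2 hD0
    rw [e1]
    constructor <;> refine mul_le_mul_of_nonneg_right ?_ hdp.le <;> linarith [h1.1, h1.2]

end Crest.Agent.R232
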