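import Crest.Agent.R232.Defs

/-! Row 232, task HB.  Separation of a cone from an open box, and the dual description of
subsets of `L^p`. -/

set_option autoImplicit false
open Finset Matrix

namespace Crest.Agent.R232

variable {n : ℕ}

/-- `geometric_hahn_banach_open` for the open convex box and the convex cone in
`(E → ℝ) × (E → ℝ)`; write the functional in coordinates; it is `≥ 0` on the cone (scaling) and
`< u ≤ 0` on the box; test at `(t + (3/4) ε sign ξ, (3/4) T sign ζ)` and at `(t, 0)`. -/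
theorem cone_box {E : Type} [Fintype E] (Cn : Set ((E → ℝ) × (E → ℝ))) (h0 : (0, 0) ∈ Cn)
    (hadd : ∀ a ∈ Cn, ∀ b ∈ Cn, a + b ∈ Cn) (hsmul : ∀ t : ℝ, 0 ≤ t → ∀ a ∈ Cn, t • a ∈ Cn)
    (t : E → ℝ) (ε T : ℝ) (hε : 0 < ε) (hT : 0 < T)
    (hno : ¬ ∃ a ∈ Cn, (∀ e, |a.1 e - t e| < ε) ∧ ∀ e, |a.2 e| < T) :
    ∃ ξ ζ : E → ℝ, (∀ a ∈ Cn, 0 ≤ ∑ e, ξ e * a.1 e + ∑ e, ζ e * a.2 e) ∧
      0 < ε * ∑ e, |ξ e| + T * ∑ e, |ζ e| ∧
      ∑ e, ξ e * t e + (3 / 4) * (ε * ∑ e, |ξ e| + T * ∑ e, |ζ e|) < 0 := by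
  classical
  let Bx : Set ((E → ℝ) × (E → ℝ)) := {a | (∀ e, |a.1 e - t e| < ε) ∧ ∀ e, |a.2 e| < T}
  have hBo : IsOpen Bx := by
    have : Bx = (⋂ e, {a : (E → ℝ) × (E → ℝ) | |a.1 e - t e| < ε}) ∩
        ⋂ e, {a : (E → ℝ) × (E → ℝ) | |a.2 e| < T} := by
      ext a; simp [Bx]
    rw [this]
    exact (isOpen_iInter_of_finite fun e => isOpen_lt (by fun_prop) continuous_const).inter
      (isOpen_iInter_of_finite fun e => isOpen_lt (by fun_prop) continuous_const)
  have hconv : ∀ (x y a b r : ℝ), |x| < r → |y| < r → 0 ≤ a → 0 ≤ b → a + b = 1 →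
      |a * x + b * y| < r := by
    intro x y a b r hx hy ha hb hab
    have := (convex_Ioo (𝕜 := ℝ) (-r) r) (abs_lt.mp hx) (abs_lt.mp hy) ha hb hab
    exact abs_lt.mpr this
  have hBc : Convex ℝ Bx := by
    intro x hx y hy a b ha hb hab
    refine ⟨fun e => ?_, fun e => ?_⟩
    · have := hconv _ _ a b ε (hx.1 e) (hy.1 e) ha hb hab
      convert this using 2
      simp only [Prod.fst_add, Prod.smul_fst, Pi.add_apply, Pi.smul_apply, smul_eq_mul]
      linear_combination (-t e) * hab.symm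
    · simpa using hconv _ _ a b T (hx.2 e) (hy.2 e) ha hb hab
  have hCc : Convex ℝ Cn := fun x hx y hy a b ha hb _ =>
    hadd _ (hsmul a ha x hx) _ (hsmul b hb y hy)
  obtain ⟨f, u, h1, h2⟩ := geometric_hahn_banach_open hBc hBo hCc
    (Set.disjoint_left.mpr fun a ha ha' => hno ⟨a, ha', ha⟩)
  have hu : u ≤ 0 := by
    have h := h2 _ h0
    rwa [show ((0, 0) : (E → ℝ) × (E → ℝ)) = 0 from rfl, map_zero] at h
  set ξ : E → ℝ := fun e => f (Pi.single e 1, 0) with hξ
  set ζ : E → ℝ := fun e => f (0, Pi.single e 1) with hζ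
  have hf : ∀ a : (E → ℝ) × (E → ℝ), f a = ∑ e, ξ e * a.1 e + ∑ e, ζ e * a.2 e := by
    intro a
    have ha : a = ∑ e, a.1 e • ((Pi.single e 1, 0) : (E → ℝ) × (E → ℝ)) +
        ∑ e, a.2 e • ((0, Pi.single e 1) : (E → ℝ) × (E → ℝ)) := by
      ext e
      · simp [Prod.fst_sum, Finset.sum_apply, Pi.single_apply]
      · simp [Prod.snd_sum, Finset.sum_apply, Pi.single_apply]
    conv_lhs => rw [ha]
    simp only [map_add, map_sum, map_smul, smul_eq_mul, hξ, hζ, mul_comm]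
  have hpos : ∀ a ∈ Cn, 0 ≤ f a := by
    intro a ha
    by_contra hneg
    push Not at hneg
    have h3 := h2 _ (hsmul ((u - 1) / f a) (div_nonneg_of_nonpos (by linarith) hneg.le) a ha)
    rw [map_smul, smul_eq_mul, div_mul_cancel₀ _ hneg.ne] at h3
    linarith
  have hsg : ∀ x : ℝ, |(SignType.sign x : ℝ)| ≤ 1 := by
    intro x
    rcases lt_trichotomy x 0 with h | h | h <;> simp [h, sign_neg, sign_pos]
  have h4 := h1 (fun e => t e + 3 / 4 * ε * SignType.sign (ξ e),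
      fun e => 3 / 4 * T * SignType.sign (ζ e)) ⟨fun e => by
        simp only [add_sub_cancel_left, abs_mul]
        rw [abs_of_pos hε, abs_of_pos (by norm_num : (0 : ℝ) < 3 / 4)]
        nlinarith [hsg (ξ e)], fun e => by
        simp only [abs_mul]
        rw [abs_of_pos hT, abs_of_pos (by norm_num : (0 : ℝ) < 3 / 4)]
        nlinarith [hsg (ζ e)]⟩
  have h5 := h1 (t, 0) ⟨fun e => by simpa using hε, fun e => by simpa using hT⟩
  rw [hf] at h4 h5
  have hms : ∀ x : ℝ, x * SignType.sign x = |x| := fun x => self_mul_sign x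
  refine ⟨ξ, ζ, fun a ha => hf a ▸ hpos a ha, ?_, ?_⟩
  · have h6 : 0 < ∑ e, |ξ e| := by
      rcases (sum_nonneg fun e _ => abs_nonneg (ξ e) : 0 ≤ ∑ e, |ξ e|).lt_or_eq with h | h
      · exact h
      · exfalso
        have h7 := (sum_eq_zero_iff_of_nonneg fun e _ => abs_nonneg (ξ e)).mp h.symm
        have h8 : ∑ e, ξ e * t e = 0 :=
          sum_eq_zero fun e he => by rw [abs_eq_zero.mp (h7 e he), zero_mul]
        simp only [Pi.zero_apply, mul_zero, sum_const_zero, add_zero] at h5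
        linarith
    have h9 : 0 ≤ ∑ e, |ζ e| := sum_nonneg fun e _ => abs_nonneg _
    positivity
  · have h10 : ∑ e, ξ e * (t e + 3 / 4 * ε * SignType.sign (ξ e)) =
        ∑ e, ξ e * t e + 3 / 4 * (ε * ∑ e, |ξ e|) := by
      simp only [mul_sum, ← sum_add_distrib, ← hms]
      exact sum_congr rfl fun e _ => by ring
    have h11 : ∑ e, ζ e * (3 / 4 * T * SignType.sign (ζ e)) = 3 / 4 * (T * ∑ e, |ζ e|) := by
      simp only [mul_sum, ← hms]
      exact sum_congr rfl fun e _ => by ring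
    simp only [h10, h11] at h4
    linarith

theorem InCone.zero (d : Fin n → Fin n → ℝ) (p T : ℝ) : InCone d p T 0 0 := by
  exact ⟨Empty, inferInstance, fun a => a.elim, fun a => a.elim, fun a => a.elim, fun a => a.elim,
    fun x y => by simp, fun x y => by simp⟩

theorem InCone.add {d : Fin n → Fin n → ℝ} {p T : ℝ} {v w v' w' : Fin n → Fin n → ℝ}
    (H : InCone d p T v w) (H' : InCone d p T v' w') : InCone d p T (v + v') (w + w') := by
  obtain ⟨A, iA, m, g, h1, h2, h3, h4⟩ := H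
  obtain ⟨A', iA', m', g', h1', h2', h3', h4'⟩ := H'
  refine ⟨A ⊕ A', inferInstance, Sum.elim m m', Sum.elim g g', ?_, ?_, fun x y => ?_, fun x y => ?_⟩
  · rintro (a | a)
    · exact h1 a
    · exact h1' a
  · rintro (a | a)
    · exact h2 a
    · exact h2' a
  · simp [Fintype.sum_sum_type, h3, h3']
  · simp [Fintype.sum_sum_type, h4, h4']

theorem InCone.smul {d : Fin n → Fin n → ℝ} {p T : ℝ} {v w : Fin n → Fin n → ℝ}
    (H : InCone d p T v w) {t : ℝ} (ht : 0 ≤ t) : InCone d p T (t • v) (t • w) := by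
  obtain ⟨A, iA, m, g, h1, h2, h3, h4⟩ := H
  refine ⟨A, iA, fun a => t * m a, g, fun a => mul_nonneg ht (h1 a), h2, fun x y => ?_,
    fun x y => ?_⟩
  · simp [h3, mul_sum, mul_assoc]
  · simp [h4, mul_sum, mul_assoc]

open MeasureTheory in
open scoped ENNReal in
/-- Integrate the hypothesis at `f = fun i => x i ω`; `∫ |x i - x j|^p = ‖x i - x j‖^p`
(`MemLp.integrable_norm_rpow`, `MemLp.eLpNorm_eq_integral_rpow_norm`, `Lp.coeFn_sub`). -/
theorem lp_dual (p : ℝ≥0∞) [Fact (1 ≤ p)] (hptop : p ≠ ⊤) {α : Type*} [MeasurableSpace α]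
    (μ : Measure α) (x : Fin n → Lp ℝ p μ) (hx : Function.Injective x) :
    IsD (fun i j => ‖x i - x j‖) ∧
      ∀ κ : Fin n → Fin n → ℝ,
        (∀ f : Fin n → ℝ,
          0 ≤ ∑ i, ∑ j, κ i j * |sl (fun i j => ‖x i - x j‖) f i j| ^ p.toReal) →
        0 ≤ ∑ i, ∑ j, κ i j * tgt i j := by
  have hp1 : 1 ≤ p := Fact.out
  have hp0 : p ≠ 0 := by intro h; rw [h] at hp1; exact absurd hp1 (by simp)
  have hq : 0 < p.toReal := ENNReal.toReal_pos hp0 hptop
  have hd : IsD (fun i j => ‖x i - x j‖) :=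
    ⟨fun i j => norm_sub_rev _ _, fun i => by simp,
      fun i j h => norm_pos_iff.mpr (sub_ne_zero.mpr (hx.ne h))⟩
  refine ⟨hd, fun κ hκ => ?_⟩
  have hm : ∀ i j, MemLp (fun ω => x i ω - x j ω) p μ := fun i j =>
    (Lp.memLp (x i)).sub (Lp.memLp (x j))
  have hint : ∀ i j, Integrable (fun ω => |x i ω - x j ω| ^ p.toReal) μ := fun i j => by
    simpa only [Real.norm_eq_abs] using (hm i j).integrable_norm_rpow hp0 hptop
  have hval : ∀ i j, ∫ ω, |x i ω - x j ω| ^ p.toReal ∂μ = ‖x i - x j‖ ^ p.toReal := by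
    intro i j
    have h1 : ‖x i - x j‖ = (eLpNorm (fun ω => x i ω - x j ω) p μ).toReal := by
      rw [Lp.norm_def]
      congr 1
      exact eLpNorm_congr_ae (Lp.coeFn_sub _ _)
    have h2 : 0 ≤ ∫ ω, ‖x i ω - x j ω‖ ^ p.toReal ∂μ := integral_nonneg fun ω => by positivity
    rw [h1, (hm i j).eLpNorm_eq_integral_rpow_norm hp0 hptop, ENNReal.toReal_ofReal (by positivity),
      ← Real.rpow_mul h2, inv_mul_cancel₀ hq.ne', Real.rpow_one]
    simp only [Real.norm_eq_abs]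
  have hsl : ∀ (ω : α) i j, |sl (fun i j => ‖x i - x j‖) (fun i => x i ω) i j| ^ p.toReal =
      (‖x i - x j‖ ^ p.toReal)⁻¹ * |x i ω - x j ω| ^ p.toReal := by
    intro ω i j
    rw [sl, abs_div, Real.div_rpow (abs_nonneg _) (abs_nonneg _), abs_norm, div_eq_inv_mul]
  have h3 : 0 ≤ ∫ ω, ∑ i, ∑ j, κ i j *
      ((‖x i - x j‖ ^ p.toReal)⁻¹ * |x i ω - x j ω| ^ p.toReal) ∂μ :=
    integral_nonneg fun ω => by
      have h := hκ fun i => x i ω
      simp only [hsl] at h
      exact h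
  rw [integral_finsetSum _ fun i _ => integrable_finsetSum _ fun j _ =>
    ((hint i j).const_mul _).const_mul _] at h3
  refine h3.trans (le_of_eq (sum_congr rfl fun i _ => ?_))
  rw [integral_finsetSum _ fun j _ => ((hint i j).const_mul _).const_mul _]
  refine sum_congr rfl fun j _ => ?_
  rw [integral_const_mul, integral_const_mul, hval]
  congr 1
  unfold tgt
  split_ifs with h
  · subst h; simp [hq.ne']
  · exact inv_mul_cancel₀ (Real.rpow_pos_of_pos (hd.pos i j h) _).ne'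

end Crest.Agent.R232
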