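import Crest.Agent.R232.Defs

/-! Row 232, task Iso.  The isometric lower bound (S0359), real-variable part. -/

set_option autoImplicit false
open Finset Matrix

namespace Crest.Agent.R232

variable {n : ℕ}

namespace Iso

theorem mid_convex {p a b : ℝ} (hp : 1 < p) (ha : 0 ≤ a) (hb : 0 ≤ b) :
    2 * ((a + b) / 2) ^ p ≤ a ^ p + b ^ p ∧ (2 * ((a + b) / 2) ^ p = a ^ p + b ^ p → a = b) := by
  have key : a ≠ b → 2 * ((a + b) / 2) ^ p < a ^ p + b ^ p := fun h => by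
    have := (strictConvexOn_rpow hp).2 (Set.mem_Ici.2 ha) (Set.mem_Ici.2 hb) h
      (show (0 : ℝ) < 1 / 2 by norm_num) (show (0 : ℝ) < 1 / 2 by norm_num) (by norm_num)
    simp only [smul_eq_mul] at this
    rw [show (a + b) / 2 = 1 / 2 * a + 1 / 2 * b by ring]
    linarith
  refine ⟨?_, fun h => by_contra fun h' => (key h').ne h⟩
  by_cases h : a = b
  · subst h
    rw [show (a + a) / 2 = a by ring]; linarith
  · exact (key h).le

theorem mid_concave {p a b : ℝ} (hp0 : 0 < p) (hp : p < 1) (ha : 0 ≤ a) (hb : 0 ≤ b) :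
    a ^ p + b ^ p ≤ 2 * ((a + b) / 2) ^ p ∧ (2 * ((a + b) / 2) ^ p = a ^ p + b ^ p → a = b) := by
  have key : a ≠ b → a ^ p + b ^ p < 2 * ((a + b) / 2) ^ p := fun h => by
    have := (Real.strictConcaveOn_rpow hp0 hp).2 (Set.mem_Ici.2 ha) (Set.mem_Ici.2 hb) h
      (show (0 : ℝ) < 1 / 2 by norm_num) (show (0 : ℝ) < 1 / 2 by norm_num) (by norm_num)
    simp only [smul_eq_mul] at this
    rw [show (a + b) / 2 = 1 / 2 * a + 1 / 2 * b by ring]
    linarith
  refine ⟨?_, fun h => by_contra fun h' => (key h').ne' h⟩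
  by_cases h : a = b
  · subst h
    rw [show (a + a) / 2 = a by ring]; linarith
  · exact (key h).le

theorem abs_rpow_eq (u p : ℝ) : |u| ^ p = (u ^ 2) ^ (p / 2) := by
  rw [← sq_abs, ← Real.rpow_two, ← Real.rpow_mul (abs_nonneg _)]
  congr 1; ring

end Iso
open Iso

/-- strict convexity of `|·|^p`: equality in `|u - w|^p ≤ 2^(p-1) (|u|^p + |w|^p)` -/
theorem eq_neg_of_eq (p : ℝ) (hp : 1 < p) (u w : ℝ) :
    |u - w| ^ p ≤ 2 ^ (p - 1) * (|u| ^ p + |w| ^ p) ∧
      (|u - w| ^ p = 2 ^ (p - 1) * (|u| ^ p + |w| ^ p) → w = -u) := by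
  obtain ⟨h1, h2⟩ := mid_convex hp (abs_nonneg u) (abs_nonneg w)
  have h3 : |u - w| ≤ |u| + |w| := abs_sub _ _
  have h4 : |u - w| ^ p ≤ (|u| + |w|) ^ p := Real.rpow_le_rpow (abs_nonneg _) h3 (by linarith)
  have h5 : (|u| + |w|) ^ p = 2 ^ (p - 1) * (2 * ((|u| + |w|) / 2) ^ p) := by
    rw [← mul_assoc, ← Real.rpow_add_one two_ne_zero, sub_add_cancel,
      ← Real.mul_rpow zero_le_two (by positivity)]
    congr 1; ring
  have h6 : (0 : ℝ) < 2 ^ (p - 1) := Real.rpow_pos_of_pos two_pos _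
  have h7 := mul_le_mul_of_nonneg_left h1 h6.le
  refine ⟨by linarith, fun h => ?_⟩
  have h8 : |u| = |w| := h2 (mul_left_cancel₀ h6.ne' (by linarith))
  have h9 : |u - w| = |u| + |w| := by
    refine le_antisymm h3 (le_of_not_gt fun h' => ?_)
    have := Real.rpow_lt_rpow (abs_nonneg _) h' (by linarith : 0 < p)
    linarith
  rcases abs_eq_abs.1 h8 with h10 | h10
  · subst h10
    have : |u| = 0 := by simp only [sub_self, abs_zero] at h9; linarith
    rw [abs_eq_zero.1 this]; simp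
  · rw [h10, neg_neg]

/-- With `r = p/2`: power mean of `(u+v)², (u-v)²` and strict super-additivity of `t^r`. -/
theorem clarkson_hi (p : ℝ) (hp : 2 < p) (u v : ℝ) :
    2 * (|u| ^ p + |v| ^ p) ≤ |u + v| ^ p + |u - v| ^ p ∧
      (2 * (|u| ^ p + |v| ^ p) = |u + v| ^ p + |u - v| ^ p → u * v = 0) := by
  simp only [abs_rpow_eq]
  obtain ⟨h1, h2⟩ := mid_convex (p := p / 2) (by linarith) (sq_nonneg (u + v)) (sq_nonneg (u - v))
  rw [show ((u + v) ^ 2 + (u - v) ^ 2) / 2 = u ^ 2 + v ^ 2 by ring] at h1 h2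
  have h3 := Real.add_rpow_le_rpow_add (p := p / 2) (sq_nonneg u) (sq_nonneg v) (by linarith)
  refine ⟨by linarith, fun h => ?_⟩
  have := h2 (by linarith)
  linarith

theorem clarkson_lo (p : ℝ) (hp0 : 0 < p) (hp : p < 2) (u v : ℝ) :
    |u + v| ^ p + |u - v| ^ p ≤ 2 * (|u| ^ p + |v| ^ p) ∧
      (2 * (|u| ^ p + |v| ^ p) = |u + v| ^ p + |u - v| ^ p → u * v = 0) := by
  simp only [abs_rpow_eq]
  obtain ⟨h1, h2⟩ := mid_concave (p := p / 2) (by linarith) (by linarith) (sq_nonneg (u + v))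
    (sq_nonneg (u - v))
  rw [show ((u + v) ^ 2 + (u - v) ^ 2) / 2 = u ^ 2 + v ^ 2 by ring] at h1 h2
  have h3 := Real.rpow_add_le_add_rpow (p := p / 2) (sq_nonneg u) (sq_nonneg v) (by linarith)
    (by linarith)
  refine ⟨by linarith, fun h => ?_⟩
  have := h2 (by linarith)
  linarith

namespace Iso

theorem neg_of {p : ℝ} (hp : 1 < p) {D : ℕ} {c : ℝ} {A A' : Fin D → ℝ}
    (hA : ∑ t, |A t| ^ p = c) (hA' : ∑ t, |A' t| ^ p = c)
    (hAA : ∑ t, |A t - A' t| ^ p = 2 ^ p * c) (t : Fin D) : A' t = -A t := by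
  have h1 : ∑ t, |A t - A' t| ^ p = ∑ t, 2 ^ (p - 1) * (|A t| ^ p + |A' t| ^ p) := by
    rw [← mul_sum, sum_add_distrib, hA, hA', hAA, ← two_mul, ← mul_assoc,
      ← Real.rpow_add_one two_ne_zero, sub_add_cancel]
  exact (eq_neg_of_eq p hp _ _).2
    ((sum_eq_sum_iff_of_le fun t _ => (eq_neg_of_eq p hp _ _).1).1 h1 t (mem_univ t))

theorem disj {p : ℝ} (hp : 1 < p) (hp2 : p ≠ 2) {D : ℕ} {c : ℝ} {A B : Fin D → ℝ}
    (hA : ∑ t, |A t| ^ p = c) (hB : ∑ t, |B t| ^ p = c)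
    (h1 : ∑ t, |A t - B t| ^ p = 2 * c) (h2 : ∑ t, |A t + B t| ^ p = 2 * c) (t : Fin D) :
    A t * B t = 0 := by
  have h3 : ∑ t, 2 * (|A t| ^ p + |B t| ^ p) = ∑ t, (|A t + B t| ^ p + |A t - B t| ^ p) := by
    rw [← mul_sum, sum_add_distrib, sum_add_distrib, hA, hB, h1, h2]; ring
  rcases lt_or_gt_of_ne hp2 with h | h
  · exact (clarkson_lo p (by linarith) h _ _).2
      ((sum_eq_sum_iff_of_le fun t _ => (clarkson_lo p (by linarith) h _ _).1).1 h3.symm t
        (mem_univ t)).symm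
  · exact (clarkson_hi p h _ _).2
      ((sum_eq_sum_iff_of_le fun t _ => (clarkson_hi p h _ _).1).1 h3 t (mem_univ t))

end Iso

/-- `A i, A' i, B j, B' j` are the images of `a i, -a i, b j, -b j` (row and column indicators of a
`k × k` grid), the image of `0` being `0`.  First `A' = -A`, `B' = -B` coordinatewise
(`eq_neg_of_eq`: the sums agree, so every term agrees); then the Clarkson equality gives disjoint
supports inside each family, and `A i`, `B j` have a common support point `t i j` (otherwise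
the last sum would be `σ * (2 * k)`); `(i, j) ↦ t i j` is injective. -/
theorem iso_core (p : ℝ) (hp : 1 < p) (hp2 : p ≠ 2) (k D : ℕ) (σ : ℝ) (hσ : 0 < σ)
    (A A' B B' : Fin k → Fin D → ℝ)
    (hA : ∀ i, ∑ t, |A i t| ^ p = σ * k) (hA' : ∀ i, ∑ t, |A' i t| ^ p = σ * k)
    (hB : ∀ i, ∑ t, |B i t| ^ p = σ * k) (hB' : ∀ i, ∑ t, |B' i t| ^ p = σ * k)
    (hAA : ∀ i, ∑ t, |A i t - A' i t| ^ p = σ * (2 ^ p * k))
    (hBB : ∀ i, ∑ t, |B i t - B' i t| ^ p = σ * (2 ^ p * k))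
    (hA1 : ∀ i i', i ≠ i' → ∑ t, |A i t - A i' t| ^ p = σ * (2 * k))
    (hA2 : ∀ i i', i ≠ i' → ∑ t, |A i t - A' i' t| ^ p = σ * (2 * k))
    (hB1 : ∀ i i', i ≠ i' → ∑ t, |B i t - B i' t| ^ p = σ * (2 * k))
    (hB2 : ∀ i i', i ≠ i' → ∑ t, |B i t - B' i' t| ^ p = σ * (2 * k))
    (hAB1 : ∀ i j, ∑ t, |A i t - B j t| ^ p = σ * (2 * k - 2)) :
    k ^ 2 ≤ D := by
  have hAn : ∀ i t, A' i t = -A i t := fun i t =>
    neg_of hp (hA i) (hA' i) (by rw [hAA]; ring) t
  have hBn : ∀ i t, B' i t = -B i t := fun i t =>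
    neg_of hp (hB i) (hB' i) (by rw [hBB]; ring) t
  have hAd : ∀ i i', i ≠ i' → ∀ t, A i t * A i' t = 0 := fun i i' h t =>
    disj hp hp2 (hA i) (hA i') (by rw [hA1 i i' h]; ring)
      (by have := hA2 i i' h; simp only [hAn, sub_neg_eq_add] at this; rw [this]; ring) t
  have hBd : ∀ i i', i ≠ i' → ∀ t, B i t * B i' t = 0 := fun i i' h t =>
    disj hp hp2 (hB i) (hB i') (by rw [hB1 i i' h]; ring)
      (by have := hB2 i i' h; simp only [hBn, sub_neg_eq_add] at this; rw [this]; ring) t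
  have hex : ∀ i j, ∃ t, A i t ≠ 0 ∧ B j t ≠ 0 := by
    intro i j
    by_contra hcon
    have h1 : ∑ t, |A i t - B j t| ^ p = ∑ t, (|A i t| ^ p + |B j t| ^ p) := by
      refine sum_congr rfl fun t _ => ?_
      by_cases ha : A i t = 0
      · simp [ha, Real.zero_rpow (by linarith : p ≠ 0)]
      · have hb : B j t = 0 := by_contra fun hb => hcon ⟨t, ha, hb⟩
        simp [hb, Real.zero_rpow (by linarith : p ≠ 0)]
    rw [sum_add_distrib, hA, hB, hAB1] at h1
    linarith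
  choose τ hτA hτB using hex
  have hinj : Function.Injective fun z : Fin k × Fin k => τ z.1 z.2 := by
    rintro ⟨i, j⟩ ⟨i', j'⟩ h
    simp only at h
    have h1 : i = i' := by
      by_contra h'
      exact mul_ne_zero (hτA i j) (h ▸ hτA i' j') (hAd i i' h' _)
    have h2 : j = j' := by
      by_contra h'
      exact mul_ne_zero (hτB i j) (h ▸ hτB i' j') (hBd j j' h' _)
    rw [h1, h2]
  have := Fintype.card_le_of_injective _ hinj
  simpa [sq] using this

end Crest.Agent.R232
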