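import Crest.Agent.R232.Defs

/-! Row 232, task Window.  Tent windows over the levels.

`ψ t = max 0 (1 - |t| / V)`, `cV = ∑ t ∈ Ioo (-V) V, ψ t ^ p ≥ V / 2^(p+1)`.  Index set: the finite
interval `J = Icc (-R) R` of levels `l` containing all `i ± V` (`i ∈ I`) and all `j x y ± V`
(as a subtype).  `G l = ∑ i ∈ I, ψ (i - l) • hs i`, `g l = (2^l)⁻¹ • G l`, weight `(2^l)^p / cV`.
Lipschitz: `|sl (g l)| ≤ K * 2V * 2^V`.  For a pair with `b i = sl (hs i)`, `j = j x y`,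
`B = ∑ |b i| (1 + |i - j|)`: `sl (G l) = ψ(j-l) sl f + e l - ψ(j-l) sl (f - h)` with
`e l = ∑ (ψ(i-l) - ψ(j-l)) b i`, `|e l| ≤ B / V`, `∑_l |e l| ≤ 4 B` (each difference is
`≤ |i-j| / V` on at most `4V` values of `l`), so `∑_l |e l|^p ≤ 4 V (B/V)^p`;
`∑_l ψ(j-l)^p = cV`; use `pert` and `|a+b|^p ≤ 2^p (|a|^p + |b|^p)`.
`w ≤ cV⁻¹ (2V)^q 2^(V (p-q)) ∑_i (2^i)^(p-q) |b i|^q * (2V)` (at most `2V` terms in each window,
`q = 1` or `2`). -/

set_option autoImplicit false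
set_option linter.unusedSectionVars false
open Finset Matrix

namespace Crest.Agent.R232

variable {n : ℕ}

/-- `|b| ≤ δ |a|`: continuity of `t ↦ |1+t|^p` at `0`; otherwise both powers are `≤ C |b|^p`. -/
theorem pert (p : ℝ) (hp : 1 ≤ p) (ε : ℝ) (hε : 0 < ε) :
    ∃ C : ℝ, 0 < C ∧ ∀ a b : ℝ, abs (|a + b| ^ p - |a| ^ p) ≤ ε * |a| ^ p + C * |b| ^ p := by
  have hp0 : 0 < p := by linarith
  have hc : ContinuousAt (fun t : ℝ => |1 + t| ^ p) 0 :=
    (Continuous.rpow_const (by fun_prop) fun _ => Or.inr hp0.le).continuousAt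
  obtain ⟨δ, hδ, H⟩ := Metric.continuousAt_iff.1 hc ε hε
  simp only [add_zero, abs_one, Real.one_rpow, Real.dist_eq, sub_zero] at H
  refine ⟨(1 + δ⁻¹) ^ p, by positivity, fun a b => ?_⟩
  have n1 : 0 ≤ |a| ^ p := by positivity
  have n2 : 0 ≤ |a + b| ^ p := by positivity
  have n3 : 0 ≤ (1 + δ⁻¹) ^ p * |b| ^ p := by positivity
  by_cases h : |b| < δ * |a|
  · have ha : 0 < |a| := by
      by_contra h'
      have : |a| = 0 := le_antisymm (not_lt.1 h') (abs_nonneg _)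
      rw [this, mul_zero] at h
      exact absurd h (not_lt.2 (abs_nonneg _))
    have ha' : a ≠ 0 := abs_pos.1 ha
    have h1 := H (x := b / a) (by rw [abs_div, div_lt_iff₀ ha]; exact h)
    have e : |a + b| ^ p - |a| ^ p = (|1 + b / a| ^ p - 1) * |a| ^ p := by
      rw [sub_mul, ← Real.mul_rpow (abs_nonneg _) (abs_nonneg _), ← abs_mul, one_mul]
      congr 3
      field_simp
    rw [e, abs_mul, abs_of_nonneg n1]
    nlinarith
  · have h1 : |a| ≤ δ⁻¹ * |b| := by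
      rw [inv_mul_eq_div, le_div_iff₀ hδ, mul_comm]
      exact not_lt.1 h
    rw [← Real.mul_rpow (by positivity) (abs_nonneg _)] at n3 ⊢
    have h2 : |a| ^ p ≤ ((1 + δ⁻¹) * |b|) ^ p :=
      Real.rpow_le_rpow (abs_nonneg _) (by linarith [abs_nonneg b]) hp0.le
    have h3 : |a + b| ^ p ≤ ((1 + δ⁻¹) * |b|) ^ p :=
      Real.rpow_le_rpow (abs_nonneg _) (by linarith [abs_add_le a b]) hp0.le
    have h4 := mul_nonneg hε.le n1
    exact abs_le.2 ⟨by linarith, by linarith⟩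

namespace Window

noncomputable def ψ (V : ℕ) (t : ℤ) : ℝ := max 0 (1 - |(t : ℝ)| / V)

noncomputable def cV (V : ℕ) (p : ℝ) : ℝ := ∑ t ∈ Ioo (-(V : ℤ)) V, ψ V t ^ p

variable {V : ℕ} {p : ℝ}

theorem ψ_nonneg (t : ℤ) : 0 ≤ ψ V t := le_max_left _ _

theorem ψ_le_one (t : ℤ) : ψ V t ≤ 1 :=
  max_le zero_le_one (sub_le_self _ (by positivity))

theorem ψ_eq_zero (hV : 1 ≤ V) {t : ℤ} (h : ¬ |t| < V) : ψ V t = 0 := by
  have hV' : (0 : ℝ) < V := by exact_mod_cast hV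
  have h1 : (V : ℝ) ≤ |(t : ℝ)| := by exact_mod_cast not_lt.1 h
  refine max_eq_left ?_
  rw [sub_nonpos, one_le_div hV']
  exact h1

theorem ψ_lip (s t : ℤ) : |ψ V s - ψ V t| ≤ |((s - t : ℤ) : ℝ)| / V := by
  unfold ψ
  rw [max_comm 0, max_comm 0]
  refine (abs_max_sub_max_le_abs _ _ _).trans ?_
  rw [sub_sub_sub_cancel_left, ← sub_div, abs_div, Nat.abs_cast, Int.cast_sub, abs_sub_comm (s : ℝ)]
  exact div_le_div_of_nonneg_right (abs_abs_sub_abs_le_abs_sub _ _) (Nat.cast_nonneg _)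

theorem card_win (s : Finset ℤ) (c : ℤ) :
    ((s.filter fun l => |c - l| < V).card : ℝ) ≤ 2 * V := by
  have h : (s.filter fun l => |c - l| < V) ⊆ Ioo (c - V) (c + V) := by
    intro l hl
    have := abs_lt.1 (mem_filter.1 hl).2
    exact mem_Ioo.2 ⟨by omega, by omega⟩
  have h1 := card_le_card h
  rw [Int.card_Ioo] at h1
  have h2 : (s.filter fun l => |c - l| < V).card ≤ 2 * V := by omega
  exact_mod_cast h2

theorem sum_win (s : Finset ℤ) (c : ℤ) {B : ℝ} (hB : 0 ≤ B) :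
    ∑ l ∈ s, (if |c - l| < V then B else 0) ≤ 2 * V * B := by
  rw [← sum_filter, sum_const, nsmul_eq_mul]
  exact mul_le_mul_of_nonneg_right (card_win s c) hB

theorem sum_ψ (hV : 1 ≤ V) (hp : p ≠ 0) {J : Finset ℤ} {c : ℤ} (hJ : Ioo (c - V) (c + V) ⊆ J) :
    ∑ l ∈ J, ψ V (c - l) ^ p = cV V p := by
  rw [← sum_subset hJ fun l _ hl => by
    rw [ψ_eq_zero hV fun h => hl (by
      have := abs_lt.1 h
      exact mem_Ioo.2 ⟨by omega, by omega⟩), Real.zero_rpow hp]]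
  refine sum_nbij' (fun l => c - l) (fun t => c - t) (fun l hl => ?_) (fun l hl => ?_)
    (fun l _ => by ring) (fun l _ => by ring) fun l _ => rfl
  · have := mem_Ioo.1 hl
    exact mem_Ioo.2 ⟨by omega, by omega⟩
  · have := mem_Ioo.1 hl
    exact mem_Ioo.2 ⟨by omega, by omega⟩

theorem one_le_cV (hV : 1 ≤ V) : 1 ≤ cV V p := by
  have := single_le_sum (f := fun t => ψ V t ^ p) (s := Ioo (-(V : ℤ)) V)
    (fun t _ => Real.rpow_nonneg (ψ_nonneg t) p) (a := 0) (mem_Ioo.2 ⟨by omega, by omega⟩)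
  simpa [ψ, cV] using this

theorem cV_ge (hV : 1 ≤ V) (hp : 0 ≤ p) : (V : ℝ) ≤ 2 ^ p * cV V p := by
  have hV' : (0 : ℝ) < V := by exact_mod_cast hV
  have hs : Icc (-((V / 2 : ℕ) : ℤ)) (V / 2 : ℕ) ⊆ Ioo (-(V : ℤ)) V := by
    intro t ht
    have := mem_Icc.1 ht
    exact mem_Ioo.2 ⟨by omega, by omega⟩
  have h1 : ∀ t ∈ Icc (-((V / 2 : ℕ) : ℤ)) (V / 2 : ℕ), (1 : ℝ) ≤ 2 ^ p * ψ V t ^ p := by
    intro t ht
    have h2 : 2 * |t| ≤ V := by
      have := abs_le.2 (mem_Icc.1 ht)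
      omega
    have h3 : 2 * |(t : ℝ)| ≤ V := by exact_mod_cast h2
    rw [← Real.mul_rpow zero_le_two (ψ_nonneg t)]
    refine Real.one_le_rpow ?_ hp
    have h4 : |(t : ℝ)| / V ≤ 1 / 2 := by
      rw [div_le_iff₀ hV']; linarith
    have h5 : 1 - |(t : ℝ)| / V ≤ ψ V t := le_max_right _ _
    linarith
  have h2 := card_nsmul_le_sum _ _ _ h1
  rw [nsmul_eq_mul, mul_one, ← mul_sum, Int.card_Icc] at h2
  have h3 : V ≤ (((V / 2 : ℕ) : ℤ) + 1 - -((V / 2 : ℕ) : ℤ)).toNat := by omega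
  refine le_trans (by exact_mod_cast h3) (h2.trans ?_)
  exact mul_le_mul_of_nonneg_left (sum_le_sum_of_subset_of_nonneg hs
    fun t _ _ => Real.rpow_nonneg (ψ_nonneg t) p) (by positivity)

theorem abs_add_rpow_le (hp : 0 ≤ p) (a b : ℝ) : |a - b| ^ p ≤ 2 ^ p * (|a| ^ p + |b| ^ p) := by
  have n1 : 0 ≤ |a| ^ p := by positivity
  have n2 : 0 ≤ |b| ^ p := by positivity
  have n3 : (0 : ℝ) ≤ 2 ^ p := by positivity
  rcases le_total |a| |b| with h | h
  · have : |a - b| ^ p ≤ (2 * |b|) ^ p :=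
      Real.rpow_le_rpow (abs_nonneg _) (by linarith [abs_sub a b]) hp
    rw [Real.mul_rpow zero_le_two (abs_nonneg _)] at this
    nlinarith
  · have : |a - b| ^ p ≤ (2 * |a|) ^ p :=
      Real.rpow_le_rpow (abs_nonneg _) (by linarith [abs_sub a b]) hp
    rw [Real.mul_rpow zero_le_two (abs_nonneg _)] at this
    nlinarith

/-- the commutator error -/
theorem err_le (hV : 1 ≤ V) (hp : 1 < p) (I J : Finset ℤ) (b : ℤ → ℝ) (j : ℤ) :
    ∑ l ∈ J, |∑ i ∈ I, (ψ V (i - l) - ψ V (j - l)) * b i| ^ p ≤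
      4 * V * ((∑ i ∈ I, |b i| * (1 + |((i - j : ℤ) : ℝ)|)) / V) ^ p := by
  have hV' : (0 : ℝ) < V := by exact_mod_cast hV
  set B := ∑ i ∈ I, |b i| * (1 + |((i - j : ℤ) : ℝ)|) with hB
  have hB0 : 0 ≤ B := sum_nonneg fun i _ => by positivity
  have h0 : ∀ i l : ℤ, |ψ V (i - l) - ψ V (j - l)| ≤ |((i - j : ℤ) : ℝ)| / V := by
    intro i l
    have := ψ_lip (V := V) (i - l) (j - l)
    rwa [sub_sub_sub_cancel_right] at this
  have h1 : ∀ l, |∑ i ∈ I, (ψ V (i - l) - ψ V (j - l)) * b i| ≤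
      ∑ i ∈ I, |b i| * |ψ V (i - l) - ψ V (j - l)| := fun l =>
    (abs_sum_le_sum_abs _ _).trans_eq (sum_congr rfl fun i _ => by rw [abs_mul, mul_comm])
  have h2 : ∀ l, |∑ i ∈ I, (ψ V (i - l) - ψ V (j - l)) * b i| ≤ B / V := by
    intro l
    refine (h1 l).trans ?_
    rw [hB, sum_div]
    refine sum_le_sum fun i _ => ?_
    rw [mul_div_assoc]
    refine mul_le_mul_of_nonneg_left ((h0 i l).trans ?_) (abs_nonneg _)
    gcongr
    linarith
  have h3 : ∑ l ∈ J, |∑ i ∈ I, (ψ V (i - l) - ψ V (j - l)) * b i| ≤ 4 * B := by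
    refine (sum_le_sum fun l _ => h1 l).trans ?_
    rw [sum_comm, hB, mul_sum]
    refine sum_le_sum fun i _ => ?_
    rw [← mul_sum, mul_left_comm]
    refine mul_le_mul_of_nonneg_left ?_ (abs_nonneg _)
    have hD : 0 ≤ |((i - j : ℤ) : ℝ)| / V := by positivity
    have h4 : ∀ l ∈ J, |ψ V (i - l) - ψ V (j - l)| ≤
        (if |i - l| < V then |((i - j : ℤ) : ℝ)| / V else 0) +
          if |j - l| < V then |((i - j : ℤ) : ℝ)| / V else 0 := by
      intro l _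
      have := h0 i l
      split_ifs with k1 k2 k2
      · linarith
      · linarith
      · linarith
      · rw [ψ_eq_zero hV k1, ψ_eq_zero hV k2]; simp
    refine (sum_le_sum h4).trans ?_
    rw [sum_add_distrib]
    have k1 := sum_win (V := V) J i hD
    have k2 := sum_win (V := V) J j hD
    rw [mul_assoc, mul_div_cancel₀ _ hV'.ne'] at k1 k2
    linarith
  have h5 : ∀ l ∈ J, |∑ i ∈ I, (ψ V (i - l) - ψ V (j - l)) * b i| ^ p ≤
      (B / V) ^ (p - 1) * |∑ i ∈ I, (ψ V (i - l) - ψ V (j - l)) * b i| := by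
    intro l _
    conv_lhs => rw [← sub_add_cancel p 1,
      Real.rpow_add_one' (abs_nonneg _) (by linarith)]
    exact mul_le_mul_of_nonneg_right
      (Real.rpow_le_rpow (abs_nonneg _) (h2 l) (by linarith)) (abs_nonneg _)
  refine (sum_le_sum h5).trans ?_
  rw [← mul_sum]
  refine (mul_le_mul_of_nonneg_left h3 (by positivity)).trans_eq ?_
  conv_rhs => rw [← sub_add_cancel p 1, Real.rpow_add_one' (by positivity) (by linarith)]
  field_simp

/-- the main pointwise estimate -/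
theorem main_le (hV : 1 ≤ V) (hp : 1 < p) {ε C : ℝ} (hC : 0 ≤ C)
    (H : ∀ a b : ℝ, abs (|a + b| ^ p - |a| ^ p) ≤ ε * |a| ^ p + C * |b| ^ p)
    (I J : Finset ℤ) (b : ℤ → ℝ) (j : ℤ) (hJ : Ioo (j - V) (j + V) ⊆ J) (F : ℝ) :
    abs ((∑ l ∈ J, |∑ i ∈ I, ψ V (i - l) * b i| ^ p) / cV V p - |F| ^ p) ≤
      ε * |F| ^ p + C * 2 ^ p * (4 * 2 ^ p *
        ((∑ i ∈ I, |b i| * (1 + |((i - j : ℤ) : ℝ)|)) / V) ^ p + |F - ∑ i ∈ I, b i| ^ p) := by
  have hp0 : 0 < p := by linarith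
  have hc : 0 < cV V p := zero_lt_one.trans_le (one_le_cV hV)
  have hs : ∀ x : ℝ, ∑ l ∈ J, |ψ V (j - l) * x| ^ p = cV V p * |x| ^ p := by
    intro x
    rw [← sum_ψ hV hp0.ne' hJ, sum_mul]
    exact sum_congr rfl fun l _ => by
      rw [abs_mul, abs_of_nonneg (ψ_nonneg _), Real.mul_rpow (ψ_nonneg _) (abs_nonneg _)]
  set R := F - ∑ i ∈ I, b i with hR
  set e : ℤ → ℝ := fun l => ∑ i ∈ I, (ψ V (i - l) - ψ V (j - l)) * b i with he
  have h1 : ∀ l, ∑ i ∈ I, ψ V (i - l) * b i = ψ V (j - l) * F + (e l - ψ V (j - l) * R) := by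
    intro l
    simp only [he, hR, sub_mul, sum_sub_distrib, ← mul_sum]
    ring
  have h2 := err_le hV hp I J b j
  set Y := ((∑ i ∈ I, |b i| * (1 + |((i - j : ℤ) : ℝ)|)) / V) ^ p with hY
  have hY0 : 0 ≤ Y := Real.rpow_nonneg
    (div_nonneg (sum_nonneg fun i _ => by positivity) (Nat.cast_nonneg _)) _
  rw [div_sub' hc.ne', abs_div, abs_of_pos hc, div_le_iff₀ hc, ← hs, ← sum_sub_distrib]
  refine (abs_sum_le_sum_abs _ _).trans ?_
  have h3 : ∀ l ∈ J, abs (|∑ i ∈ I, ψ V (i - l) * b i| ^ p - |ψ V (j - l) * F| ^ p) ≤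
      ε * |ψ V (j - l) * F| ^ p + C * 2 ^ p * (|e l| ^ p + |ψ V (j - l) * R| ^ p) := by
    intro l _
    rw [h1]
    refine (H _ _).trans ?_
    rw [mul_assoc]
    gcongr
    exact abs_add_rpow_le hp0.le _ _
  refine (sum_le_sum h3).trans ?_
  rw [sum_add_distrib, ← mul_sum, ← mul_sum, sum_add_distrib, hs, hs]
  have h4 : ∑ l ∈ J, |e l| ^ p ≤ 4 * (2 ^ p * cV V p) * Y := by
    refine h2.trans ?_
    gcongr
    exact cV_ge hV hp0.le
  calc _ ≤ ε * (cV V p * |F| ^ p) + C * 2 ^ p * (4 * (2 ^ p * cV V p) * Y + cV V p * |R| ^ p) := by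
        gcongr
    _ = _ := by ring

theorem abs_sum_le_win (hV : 1 ≤ V) (I : Finset ℤ) (b : ℤ → ℝ) (l : ℤ) :
    |∑ i ∈ I, ψ V (i - l) * b i| ≤ ∑ i ∈ I.filter fun i => |l - i| < V, |b i| := by
  rw [sum_filter]
  refine (abs_sum_le_sum_abs _ _).trans (sum_le_sum fun i _ => ?_)
  split_ifs with h
  · rw [abs_mul, abs_of_nonneg (ψ_nonneg _)]
    exact mul_le_of_le_one_left (abs_nonneg _) (ψ_le_one _)
  · rw [ψ_eq_zero hV (by rwa [abs_sub_comm]), zero_mul, abs_zero]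

theorem two_zpow_le {i l : ℤ} (h : |l - i| < V) : (2 : ℝ) ^ i ≤ 2 ^ l * 2 ^ V := by
  rw [← zpow_natCast, ← zpow_add₀ two_ne_zero]
  have := abs_lt.1 h
  exact zpow_le_zpow_right₀ one_le_two (by omega)

theorem two_pow_le_exp : (2 : ℝ) ^ V ≤ Real.exp V := by
  rw [← mul_one (V : ℝ), Real.exp_nat_mul]
  exact pow_le_pow_left₀ zero_le_two (by linarith [Real.add_one_le_exp 1]) V

theorem two_mul_le_exp : (2 : ℝ) * V ≤ Real.exp (2 * V) := by
  linarith [Real.add_one_le_exp (2 * V)]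

theorem lip_le (hV : 1 ≤ V) (I : Finset ℤ) (b : ℤ → ℝ) {K : ℝ} (hK : 0 ≤ K)
    (hb : ∀ i ∈ I, |b i| ≤ K * 2 ^ i) (l : ℤ) :
    |∑ i ∈ I, ψ V (i - l) * b i| ≤ 2 ^ l * (K * Real.exp (3 * V)) := by
  refine (abs_sum_le_win hV I b l).trans ?_
  have h1 := sum_le_card_nsmul (I.filter fun i => |l - i| < V) (fun i => |b i|)
    (K * (2 ^ l * 2 ^ V)) fun i hi => (hb i (mem_filter.1 hi).1).trans
      (mul_le_mul_of_nonneg_left (two_zpow_le (mem_filter.1 hi).2) hK)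
  rw [nsmul_eq_mul] at h1
  refine h1.trans ?_
  have h2 := (card_win (V := V) I l).trans two_mul_le_exp
  have h3 := two_pow_le_exp (V := V)
  rw [show (3 : ℝ) * V = 2 * V + V by ring, Real.exp_add]
  calc _ ≤ Real.exp (2 * V) * (K * (2 ^ l * Real.exp V)) := by gcongr
    _ = _ := by ring

theorem low_le (hV : 1 ≤ V) {q : ℝ} (hq1 : 1 ≤ q) (hq2 : q ≤ 2) (hqp : q ≤ p) (I J : Finset ℤ)
    (b : ℤ → ℝ) :
    ∑ l ∈ J, ((2 : ℝ) ^ l) ^ (p - q) * |∑ i ∈ I, ψ V (i - l) * b i| ^ q ≤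
      Real.exp ((p + 4) * V) * ∑ i ∈ I, ((2 : ℝ) ^ i) ^ (p - q) * |b i| ^ q := by
  have hV' : (1 : ℝ) ≤ V := by exact_mod_cast hV
  have hE : ((2 : ℝ) ^ V) ^ (p - q) ≤ Real.exp (p * V) := by
    refine (Real.rpow_le_rpow (by positivity) two_pow_le_exp (by linarith)).trans ?_
    rw [← Real.exp_mul]
    exact Real.exp_le_exp.2 (by nlinarith)
  have h1 : ∀ l ∈ J, ((2 : ℝ) ^ l) ^ (p - q) * |∑ i ∈ I, ψ V (i - l) * b i| ^ q ≤
      Real.exp (2 * V) * Real.exp (p * V) *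
        ∑ i ∈ I, if |i - l| < V then ((2 : ℝ) ^ i) ^ (p - q) * |b i| ^ q else 0 := by
    intro l _
    have k1 := (Real.rpow_le_rpow (abs_nonneg _) (abs_sum_le_win hV I b l) (by linarith : 0 ≤ q)).trans
      (Real.rpow_sum_le_const_mul_sum_rpow _ _ hq1)
    have k2 : (((I.filter fun i => |l - i| < V).card : ℝ)) ^ (q - 1) ≤ Real.exp (2 * V) := by
      refine (Real.rpow_le_rpow (Nat.cast_nonneg _) (card_win I l) (by linarith)).trans ?_
      refine le_trans ?_ two_mul_le_exp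
      conv_rhs => rw [← Real.rpow_one (2 * V)]
      exact Real.rpow_le_rpow_of_exponent_le (by linarith) (by linarith)
    have k3 : |∑ i ∈ I, ψ V (i - l) * b i| ^ q ≤
        Real.exp (2 * V) * ∑ i ∈ I.filter fun i => |l - i| < V, |b i| ^ q :=
      k1.trans (mul_le_mul_of_nonneg_right k2 (sum_nonneg fun _ _ => by positivity))
    refine (mul_le_mul_of_nonneg_left k3 (by positivity)).trans ?_
    rw [mul_left_comm, mul_assoc]
    refine mul_le_mul_of_nonneg_left ?_ (Real.exp_pos _).le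
    rw [sum_filter, mul_sum, mul_sum]
    refine sum_le_sum fun i _ => ?_
    rw [abs_sub_comm l i]
    split_ifs with h
    · rw [← mul_assoc]
      refine mul_le_mul_of_nonneg_right ?_ (by positivity)
      refine (Real.rpow_le_rpow (by positivity) (two_zpow_le h) (by linarith)).trans ?_
      rw [Real.mul_rpow (by positivity) (by positivity), mul_comm]
      gcongr
    · simp
  refine (sum_le_sum h1).trans ?_
  rw [← mul_sum, sum_comm, show (p + 4) * V = 2 * V + p * V + 2 * V by ring, Real.exp_add,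
    Real.exp_add, mul_assoc _ (Real.exp (2 * V))]
  refine mul_le_mul_of_nonneg_left ?_ (by positivity)
  rw [mul_sum]
  refine sum_le_sum fun i _ => (sum_win J i (by positivity)).trans ?_
  exact mul_le_mul_of_nonneg_right two_mul_le_exp (by positivity)

theorem exists_cover (V : ℕ) (j : Fin n → Fin n → ℤ) :
    ∃ J : Finset ℤ, ∀ x y, Ioo (j x y - V) (j x y + V) ⊆ J := by
  refine ⟨univ.biUnion fun q : Fin n × Fin n => Ioo (j q.1 q.2 - V) (j q.1 q.2 + V),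
    fun x y t ht => ?_⟩
  rw [mem_biUnion]
  exact ⟨(x, y), mem_univ _, ht⟩

end Window

open Window in

theorem window (p : ℝ) (hp : 1 < p) (ε : ℝ) (hε : 0 < ε) :
    ∃ C : ℝ, 0 < C ∧ ∀ (n : ℕ) (d al : Fin n → Fin n → ℝ), (∀ x y, 0 ≤ al x y) →
      ∀ (K N S : ℝ) (V : ℕ) (f h : Fin n → ℝ), 1 ≤ V → 0 ≤ K → 0 ≤ N → 0 ≤ S →
      IsAtoms d al p K N S h →
      ∃ v w : Fin n → Fin n → ℝ, InCone d p (K * Real.exp (C * V)) v w ∧
        ∑ x, ∑ y, al x y * abs (v x y - |sl d f x y| ^ p) ≤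
          ε * en d al p f + C * ((N / V) ^ p * S + en d al p (f - h)) ∧
        ∑ x, ∑ y, al x y * w x y ≤ K * Real.exp (C * V) * S := by
  obtain ⟨C₀, hC₀, H⟩ := pert p hp.le ε hε
  have hp0 : 0 < p := by linarith
  have h2p : (1 : ℝ) ≤ 2 ^ p := Real.one_le_rpow one_le_two hp0.le
  set C₁ := C₀ * 2 ^ p * (4 * 2 ^ p) with hC₁
  have hC₁0 : 0 < C₁ := by positivity
  refine ⟨C₁ + (p + 4), by positivity, fun n d al hal K N S V f h hV hK hN hS hA => ?_⟩
  obtain ⟨I, hs, j, h1, h2, h3, h4⟩ := hA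
  have hV' : (0 : ℝ) < V := by exact_mod_cast hV
  have hc : 1 ≤ cV V p := one_le_cV hV
  have hc0 : 0 < cV V p := zero_lt_one.trans_le hc
  obtain ⟨J, hJ⟩ := exists_cover V j
  let g : ℤ → Fin n → ℝ := fun l => ((2 : ℝ) ^ l)⁻¹ • ∑ i ∈ I, ψ V (i - l) • hs i
  have hg : ∀ l x y, |sl d (g l) x y| =
      |∑ i ∈ I, ψ V (i - l) * sl d (hs i) x y| / (2 : ℝ) ^ l := by
    intro l x y
    simp only [g, sl_smul, sl_sum]
    rw [abs_mul, abs_of_pos (by positivity), inv_mul_eq_div]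
  have hexp : ∀ t : ℝ, t ≤ C₁ + (p + 4) → K * Real.exp (t * V) ≤ K * Real.exp ((C₁ + (p + 4)) * V) :=
    fun t ht => by gcongr
  refine ⟨fun x y => (∑ l ∈ J, |∑ i ∈ I, ψ V (i - l) * sl d (hs i) x y| ^ p) / cV V p,
    fun x y => (∑ l ∈ J, ((2 : ℝ) ^ l) ^ (p - qq p) *
      |∑ i ∈ I, ψ V (i - l) * sl d (hs i) x y| ^ qq p) / cV V p,
    ⟨J, inferInstance, fun l => ((2 : ℝ) ^ (l : ℤ)) ^ p / cV V p, fun l => g l,
      fun l => by positivity, fun l x y => ?_, fun x y => ?_, fun x y => ?_⟩, ?_, ?_⟩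
  · rw [hg, div_le_iff₀ (by positivity), mul_comm]
    refine (lip_le hV I _ hK (fun i hi => h2 i hi x y) l).trans ?_
    exact mul_le_mul_of_nonneg_left (hexp 3 (by linarith)) (by positivity)
  · beta_reduce
    rw [sum_div, ← sum_coe_sort]
    refine sum_congr rfl fun l _ => ?_
    rw [hg, Real.div_rpow (abs_nonneg _) (by positivity)]
    have : (0 : ℝ) < ((2 : ℝ) ^ (l : ℤ)) ^ p := by positivity
    field_simp
  · beta_reduce
    rw [sum_div, ← sum_coe_sort]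
    refine sum_congr rfl fun l _ => ?_
    rw [hg, Real.div_rpow (abs_nonneg _) (by positivity), Real.rpow_sub (by positivity)]
    ring
  · have k1 : ∀ x y, al x y * abs ((∑ l ∈ J, |∑ i ∈ I, ψ V (i - l) * sl d (hs i) x y| ^ p) /
        cV V p - |sl d f x y| ^ p) ≤ ε * (al x y * |sl d f x y| ^ p) +
          (C₁ / V ^ p * (al x y * (∑ i ∈ I, |sl d (hs i) x y| *
            (1 + |((i - j x y : ℤ) : ℝ)|)) ^ p) + C₀ * 2 ^ p * (al x y * |sl d (f - h) x y| ^ p)) := by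
      intro x y
      refine (mul_le_mul_of_nonneg_left (main_le hV hp hC₀.le H I J (fun i => sl d (hs i) x y)
        (j x y) (hJ x y) (sl d f x y)) (hal x y)).trans_eq ?_
      rw [sl_sub, h1, sl_sum, Real.div_rpow (sum_nonneg fun i _ => by positivity) hV'.le, hC₁]
      ring
    refine (sum_le_sum fun x _ => sum_le_sum fun y _ => k1 x y).trans ?_
    simp only [sum_add_distrib, ← mul_sum]
    have k2 := en_nonneg (d := d) hal p (f - h)
    have k3 : 0 ≤ (N / V) ^ p * S := by positivity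
    have k4 : C₀ * 2 ^ p ≤ C₁ := le_mul_of_one_le_right (by positivity) (by linarith)
    have k5 : C₁ / V ^ p * (N ^ p * S) = C₁ * ((N / V) ^ p * S) := by
      rw [Real.div_rpow hN hV'.le]; ring
    have k6 := mul_le_mul_of_nonneg_left h3 (show 0 ≤ C₁ / V ^ p by positivity)
    rw [k5] at k6
    have k7 := mul_le_mul_of_nonneg_right k4 k2
    have k8 : 0 ≤ (p + 4) * ((N / V) ^ p * S + en d al p (f - h)) :=
      mul_nonneg (by linarith) (add_nonneg k3 k2)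
    refine (add_le_add le_rfl (add_le_add k6 k7)).trans ?_
    rw [add_mul C₁, mul_add C₁]
    exact add_le_add le_rfl (le_add_of_nonneg_right k8)
  · have k1 : ∀ x y, al x y * ((∑ l ∈ J, ((2 : ℝ) ^ l) ^ (p - qq p) *
        |∑ i ∈ I, ψ V (i - l) * sl d (hs i) x y| ^ qq p) / cV V p) ≤ Real.exp ((p + 4) * V) *
          (al x y * ∑ i ∈ I, ((2 : ℝ) ^ i) ^ (p - qq p) * |sl d (hs i) x y| ^ qq p) := by
      intro x y
      rw [mul_left_comm]
      refine mul_le_mul_of_nonneg_left ?_ (hal x y)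
      exact (div_le_self (sum_nonneg fun l _ => by positivity) hc).trans
        (low_le hV (one_le_qq p) (qq_le_two p) (qq_le hp.le) I J _)
    refine (sum_le_sum fun x _ => sum_le_sum fun y _ => k1 x y).trans ?_
    simp only [← mul_sum]
    refine (mul_le_mul_of_nonneg_left h4 (Real.exp_pos _).le).trans ?_
    rw [← mul_assoc, mul_comm _ K]
    exact mul_le_mul_of_nonneg_right (hexp _ (by linarith)) hS

end Crest.Agent.R232
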