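import Crest.Agent.R232.Dec
import Crest.Agent.R232.Window
import Crest.Agent.R232.HB

/-! Row 232, task Main1.  A point of the cone in the box.

Constants: `C₁` from `dec`, `ε₂ = ε / 48`, `C₂` from `window p (ε₂ / 3)`, `L = log (2n) ≥ 1`,
`N = C₁ L^g`, `V = ⌈C₃ N⌉₊` with `C₂ / C₃^p ≤ ε₂ / 3`, `K = C₁ L^(p+1)`, `T₀ = K exp (C₂ V)`,
`T = 48 T₀`; `dec` is used with `ε₂ / (3 C₂)`.  If the box is missed, `cone_box`
(`E = Fin n × Fin n`, cone `InCone d p T₀`, sizes `ε`, `T`) gives `ξ, ζ`, `Σ₀ > 0`;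
`al0 = (ε |ξ| + T |ζ|) / Σ₀`; for every `f` the window pair gives
`0 ≤ ∑ ξ |sl f|^p + 6 Σ₀ (ε₂/ε + T₀/T) en p f = ∑ (ξ + Σ₀ al / 4) |sl f|^p`; the dual hypothesis
gives `0 ≤ ∑ ξ tgt + (Σ₀ / 4) * 2`, a contradiction.  Finally `log L ≤ L^g / g`. -/

set_option autoImplicit false
open Finset Matrix

namespace Crest.Agent.R232

variable {n : ℕ}

namespace Main1A

/-- the separation step -/
theorem box (n : ℕ) (d : Fin n → Fin n → ℝ) (p ε T₀ : ℝ) (hε : 0 < ε) (hT : 0 < T₀)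
    (hdual : ∀ κ : Fin n → Fin n → ℝ,
        (∀ f : Fin n → ℝ, 0 ≤ ∑ i, ∑ j, κ i j * |sl d f i j| ^ p) →
        0 ≤ ∑ i, ∑ j, κ i j * tgt i j)
    (H : ∀ al0 : Fin n → Fin n → ℝ, (∀ x y, 0 ≤ al0 x y) → ∑ x, ∑ y, al0 x y ≤ 1 →
      ∃ al : Fin n → Fin n → ℝ, (∀ x y, 0 ≤ al x y) ∧ (∀ x y, al0 x y / 6 ≤ al x y) ∧
        ∑ x, ∑ y, al x y ≤ 2 ∧ ∀ f : Fin n → ℝ, ∃ v w : Fin n → Fin n → ℝ, InCone d p T₀ v w ∧
          ∑ x, ∑ y, al x y * abs (v x y - |sl d f x y| ^ p) ≤ ε / 48 * en d al p f ∧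
          ∑ x, ∑ y, al x y * w x y ≤ T₀ * en d al p f) :
    ∃ v w : Fin n → Fin n → ℝ, InCone d p T₀ v w ∧ (∀ x y, |v x y - tgt x y| ≤ ε) ∧
      ∀ x y, w x y ≤ 48 * T₀ := by
  by_contra hcon
  let Cn : Set ((Fin n × Fin n → ℝ) × (Fin n × Fin n → ℝ)) :=
    {a | InCone d p T₀ (fun x y => a.1 (x, y)) (fun x y => a.2 (x, y))}
  obtain ⟨ξ, ζ, h1, h2, h3⟩ := cone_box Cn (InCone.zero d p T₀)
    (fun a ha b hb => InCone.add ha hb) (fun t ht a ha => InCone.smul ha ht)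
    (fun e => tgt e.1 e.2) ε (48 * T₀) hε (by positivity) (by
      rintro ⟨a, ha, ha1, ha2⟩
      exact hcon ⟨_, _, ha, fun x y => (ha1 (x, y)).le,
        fun x y => (le_abs_self _).trans (ha2 (x, y)).le⟩)
  set S := ε * ∑ e, |ξ e| + 48 * T₀ * ∑ e, |ζ e| with hS
  obtain ⟨al, hal0, hal1, hal2, hf⟩ := H
    (fun x y => (ε * |ξ (x, y)| + 48 * T₀ * |ζ (x, y)|) / S) (fun x y => by positivity) (by
      rw [← Fintype.sum_prod_type (f := fun e : Fin n × Fin n =>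
        (ε * |ξ e| + 48 * T₀ * |ζ e|) / S), ← sum_div, sum_add_distrib, ← mul_sum, ← mul_sum,
        div_self h2.ne'])
  have hξ : ∀ x y, |ξ (x, y)| ≤ 6 * S / ε * al x y := by
    intro x y
    have h4 := hal1 x y
    rw [div_div, div_le_iff₀ (by positivity)] at h4
    rw [div_mul_eq_mul_div, le_div_iff₀ hε]
    have : 0 ≤ 48 * T₀ * |ζ (x, y)| := by positivity
    nlinarith
  have hζ : ∀ x y, |ζ (x, y)| ≤ 6 * S / (48 * T₀) * al x y := by
    intro x y
    have h4 := hal1 x y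
    rw [div_div, div_le_iff₀ (by positivity)] at h4
    rw [div_mul_eq_mul_div, le_div_iff₀ (by positivity)]
    have : 0 ≤ ε * |ξ (x, y)| := by positivity
    nlinarith
  have key := hdual (fun x y => ξ (x, y) + S / 4 * al x y) (by
    intro f
    obtain ⟨v, w, hc, hv, hw⟩ := hf f
    have h5 := h1 (fun e => v e.1 e.2, fun e => w e.1 e.2) hc
    simp only [Fintype.sum_prod_type] at h5
    have h6 : ∑ x, ∑ y, ξ (x, y) * v x y ≤ ∑ x, ∑ y, ξ (x, y) * |sl d f x y| ^ p +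
        6 * S / ε * ∑ x, ∑ y, al x y * abs (v x y - |sl d f x y| ^ p) := by
      simp only [mul_sum, ← sum_add_distrib]
      refine sum_le_sum fun x _ => sum_le_sum fun y _ => ?_
      have h7 : ξ (x, y) * (v x y - |sl d f x y| ^ p) ≤
          6 * S / ε * al x y * abs (v x y - |sl d f x y| ^ p) := by
        refine (le_abs_self _).trans ?_
        rw [abs_mul]
        exact mul_le_mul_of_nonneg_right (hξ x y) (abs_nonneg _)
      nlinarith
    have h8 : ∑ x, ∑ y, ζ (x, y) * w x y ≤ 6 * S / (48 * T₀) * ∑ x, ∑ y, al x y * w x y := by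
      simp only [mul_sum]
      refine sum_le_sum fun x _ => sum_le_sum fun y _ => ?_
      rw [← mul_assoc]
      exact mul_le_mul_of_nonneg_right ((le_abs_self _).trans (hζ x y)) (hc.w_nonneg x y)
    have h9 : 6 * S / ε * ∑ x, ∑ y, al x y * abs (v x y - |sl d f x y| ^ p) ≤
        S / 8 * en d al p f := by
      refine (mul_le_mul_of_nonneg_left hv (by positivity)).trans (le_of_eq ?_)
      field_simp
      ring
    have h10 : 6 * S / (48 * T₀) * ∑ x, ∑ y, al x y * w x y ≤ S / 8 * en d al p f := by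
      refine (mul_le_mul_of_nonneg_left hw (by positivity)).trans (le_of_eq ?_)
      field_simp
      ring
    have h11 : ∑ x, ∑ y, (ξ (x, y) + S / 4 * al x y) * |sl d f x y| ^ p =
        ∑ x, ∑ y, ξ (x, y) * |sl d f x y| ^ p + S / 4 * en d al p f := by
      simp only [en, mul_sum, ← sum_add_distrib]
      exact sum_congr rfl fun x _ => sum_congr rfl fun y _ => by ring
    rw [h11]
    linarith)
  have h12 : ∑ x, ∑ y, (ξ (x, y) + S / 4 * al x y) * tgt x y ≤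
      ∑ x, ∑ y, ξ (x, y) * tgt x y + S / 4 * ∑ x, ∑ y, al x y := by
    simp only [mul_sum, ← sum_add_distrib]
    refine sum_le_sum fun x _ => sum_le_sum fun y _ => ?_
    have h13 : tgt x y ≤ 1 := by unfold tgt; split_ifs <;> norm_num
    have h14 : 0 ≤ S / 4 * al x y := mul_nonneg (by positivity) (hal0 x y)
    nlinarith
  simp only [Fintype.sum_prod_type] at h3
  have h15 : S / 4 * ∑ x, ∑ y, al x y ≤ S / 4 * 2 :=
    mul_le_mul_of_nonneg_left hal2 (by positivity)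
  linarith

end Main1A

theorem main1 (p : ℝ) (hp1 : 1 < p) (hp2 : p ≠ 2) (ε : ℝ) (hε : 0 < ε) :
    ∃ C : ℝ, 0 < C ∧ ∀ (n : ℕ), 2 ≤ n → ∀ d : Fin n → Fin n → ℝ, IsD d →
      (∀ κ : Fin n → Fin n → ℝ,
        (∀ f : Fin n → ℝ, 0 ≤ ∑ i, ∑ j, κ i j * |sl d f i j| ^ p) →
        0 ≤ ∑ i, ∑ j, κ i j * tgt i j) →
      ∃ T : ℝ, 2 ≤ T ∧ T ≤ Real.exp (C * Real.log (2 * n) ^ |1 - 2 / p|) ∧
        ∃ v w : Fin n → Fin n → ℝ, InCone d p T v w ∧ (∀ x y, |v x y - tgt x y| ≤ ε) ∧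
          ∀ x y, w x y ≤ T := by
  have hp0 : 0 < p := by linarith
  obtain ⟨C₁, hC₁, hdec⟩ := dec p hp1 hp2
  obtain ⟨C₂, hC₂, hwin⟩ := window p hp1 (ε / 144) (by positivity)
  set g := |1 - 2 / p| with hg
  have hg0 : 0 < g := by
    rw [hg, abs_pos, sub_ne_zero]
    intro h
    apply hp2
    field_simp at h
    linarith
  set C₃ : ℝ := max 1 (144 * C₂ / ε) with hC₃
  have hC₃1 : 1 ≤ C₃ := le_max_left _ _
  have hC₃2 : 144 * C₂ / ε ≤ C₃ := le_max_right _ _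
  have hlog48 : 0 ≤ Real.log (48 * C₁) := Real.log_nonneg (by linarith)
  refine ⟨Real.log (48 * C₁) + (p + 1) / g + C₂ * (C₃ * C₁ + 1), by positivity,
    fun n hn d hd hdual => ?_⟩
  have hn2 : (2 : ℝ) ≤ n := by exact_mod_cast hn
  set L := Real.log (2 * n) with hL
  have hL1 : 1 ≤ L := by
    have h1 : Real.log 4 ≤ L := Real.log_le_log (by norm_num) (by linarith)
    have h2 : Real.log 4 = 2 * Real.log 2 := by
      rw [show (4 : ℝ) = 2 ^ 2 by norm_num, Real.log_pow]; norm_num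
    have := Real.log_two_gt_d9
    linarith
  have hLg : 1 ≤ L ^ g := Real.one_le_rpow hL1 hg0.le
  have hLp : 1 ≤ L ^ (p + 1) := Real.one_le_rpow hL1 (by linarith)
  set N := C₁ * L ^ g with hN
  have hN1 : 1 ≤ N := one_le_mul_of_one_le_of_one_le hC₁ hLg
  set V := ⌈C₃ * N⌉₊ with hV
  have hV1 : C₃ * N ≤ V := Nat.le_ceil _
  have hV2 : (V : ℝ) ≤ C₃ * N + 1 := (Nat.ceil_lt_add_one (by positivity)).le
  have hV3 : 1 ≤ V := by
    have : (1 : ℝ) ≤ V := le_trans (one_le_mul_of_one_le_of_one_le hC₃1 hN1) hV1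
    exact_mod_cast this
  have hV0 : (0 : ℝ) < V := by exact_mod_cast hV3
  set K := C₁ * L ^ (p + 1) with hK
  have hK1 : 1 ≤ K := one_le_mul_of_one_le_of_one_le hC₁ hLp
  set T₀ := K * Real.exp (C₂ * V) with hT₀
  have hT₀1 : 1 ≤ T₀ := one_le_mul_of_one_le_of_one_le hK1 (Real.one_le_exp (by positivity))
  have hNV : C₂ * (N / V) ^ p ≤ ε / 144 := by
    have h1 : N / V ≤ 1 / C₃ := by
      rw [div_le_div_iff₀ hV0 (by linarith)]; linarith
    have h2 : 1 / C₃ ≤ 1 := by rw [div_le_one (by linarith)]; exact hC₃1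
    have h3 : (N / V) ^ p ≤ N / V :=
      Real.rpow_le_self_of_le_one (by positivity) (h1.trans h2) hp1.le
    have h4 : C₂ * (1 / C₃) ≤ ε / 144 := by
      rw [mul_one_div, div_le_div_iff₀ (by linarith) (by norm_num)]
      rw [div_le_iff₀ hε] at hC₃2
      linarith
    exact (mul_le_mul_of_nonneg_left (h3.trans h1) hC₂.le).trans h4
  obtain ⟨v, w, h1, h2, h3⟩ := Main1A.box n d p ε T₀ hε (by linarith) hdual (by
    intro al0 h0 h01
    obtain ⟨al, hal0, hal1, hal2, hf⟩ := hdec n hn d hd (ε / (144 * C₂)) (by positivity) al0 h0 h01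
    refine ⟨al, hal0, hal1, hal2, fun f => ?_⟩
    obtain ⟨h, hat, hrem⟩ := hf f
    have hen := en_nonneg (d := d) hal0 p f
    obtain ⟨v, w, hc, hv, hw⟩ := hwin n d al hal0 K N (en d al p f) V f h hV3 (by linarith)
      (by linarith) hen hat
    refine ⟨v, w, hc, hv.trans ?_, hw⟩
    have h5 : C₂ * en d al p (f - h) ≤ ε / 144 * en d al p f := by
      refine (mul_le_mul_of_nonneg_left hrem hC₂.le).trans (le_of_eq ?_)
      field_simp
    have h6 := mul_le_mul_of_nonneg_right hNV hen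
    nlinarith)
  refine ⟨48 * T₀, by linarith, ?_, v, w, h1.mono (by linarith), h2, h3⟩
  have h7 : L ^ (p + 1) ≤ Real.exp ((p + 1) / g * L ^ g) := by
    rw [Real.rpow_def_of_pos (by linarith)]
    refine Real.exp_le_exp.mpr ?_
    have := Real.log_le_rpow_div (x := L) (by linarith) hg0
    calc Real.log L * (p + 1) ≤ L ^ g / g * (p + 1) :=
          mul_le_mul_of_nonneg_right this (by linarith)
      _ = _ := by ring
  have h8 : 48 * C₁ ≤ Real.exp (Real.log (48 * C₁) * L ^ g) := by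
    calc 48 * C₁ = Real.exp (Real.log (48 * C₁)) := (Real.exp_log (by linarith)).symm
      _ ≤ _ := Real.exp_le_exp.mpr (le_mul_of_one_le_right hlog48 hLg)
  have h9 : Real.exp (C₂ * V) ≤ Real.exp (C₂ * (C₃ * C₁ + 1) * L ^ g) := by
    refine Real.exp_le_exp.mpr ?_
    rw [mul_assoc]
    refine mul_le_mul_of_nonneg_left (hV2.trans ?_) hC₂.le
    rw [hN]
    nlinarith
  calc 48 * T₀ = 48 * C₁ * L ^ (p + 1) * Real.exp (C₂ * V) := by rw [hT₀, hK]; ring
    _ ≤ Real.exp (Real.log (48 * C₁) * L ^ g) * Real.exp ((p + 1) / g * L ^ g) *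
        Real.exp (C₂ * (C₃ * C₁ + 1) * L ^ g) := by
      gcongr
    _ = _ := by rw [← Real.exp_add, ← Real.exp_add]; congr 1; ring

end Crest.Agent.R232
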