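import Crest.Agent.R232.Basic

/-! Row 232, task Syn2.  The `L²` bound of the synthesis operator.

`E g = ∑ pi * (Lap g * g) = (1/2) en 2 g` (`green`).  `eta * E u ≤ ∑ pi u²` (as
`(u x - u y)² ≤ 2 u x² + 2 u y²`, `4 eta ≤ d²`, `marg`).  Since `M g = g - eta Lap g`,
`E g - E (M g) = 2 eta ‖Lap g‖² - eta² E (Lap g) ≥ eta ‖Lap g‖²`.  Telescoping:
`eta ∑_k ‖M^k Lap g‖² ≤ E g`.  For `h = syn m g`:
`E h = eta ∑_k ⟨M^k Lap h, g k⟩ ≤ E h / 2 + (eta ∑ ‖g k‖²) / 2`. -/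

set_option autoImplicit false
open Finset Matrix

namespace Crest.Agent.R232

variable {n : ℕ}

namespace Ch.OK
variable {c : Ch n} {L : ℝ}

theorem syn2_en_le (h : c.OK L) (u : Fin n → ℝ) :
    c.eta * ((1 / 2) * en c.d c.al 2 u) ≤ ∑ x, c.pi x * u x ^ 2 := by
  have h1 : ∀ x y, c.eta * (c.al x y * sl c.d u x y ^ 2) ≤
      c.al x y * u x ^ 2 / 2 + c.al y x * u y ^ 2 / 2 := by
    intro x y
    rw [h.al_symm y x]
    have a0 := h.al_nonneg x y
    have : c.eta * sl c.d u x y ^ 2 ≤ u x ^ 2 / 2 + u y ^ 2 / 2 := by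
      by_cases hxy : x = y
      · rw [hxy, sl_self]
        have := sq_nonneg (u y)
        linarith
      · have a1 := h.lazy x y hxy
        have a2 := h.isD.pos x y hxy
        rw [sl, div_pow, ← mul_div_assoc, div_le_iff₀ (by positivity)]
        have a3 := mul_le_mul_of_nonneg_left a1 (sq_nonneg (u x - u y))
        have a4 : (u x - u y) ^ 2 ≤ 2 * u x ^ 2 + 2 * u y ^ 2 := by nlinarith [sq_nonneg (u x + u y)]
        have a5 := mul_le_mul_of_nonneg_right a4 (sq_nonneg (c.d x y))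
        nlinarith
    nlinarith
  have h2 : c.eta * en c.d c.al 2 u ≤
      ∑ x, ∑ y, (c.al x y * u x ^ 2 / 2 + c.al y x * u y ^ 2 / 2) := by
    rw [en_two, mul_sum]
    refine sum_le_sum fun x _ => ?_
    rw [mul_sum]
    exact sum_le_sum fun y _ => h1 x y
  have h3 : ∑ x, ∑ y, c.al x y * u x ^ 2 / 2 ≤ ∑ x, c.pi x * u x ^ 2 := by
    refine sum_le_sum fun x _ => ?_
    rw [← sum_div, ← sum_mul]
    have := mul_le_mul_of_nonneg_right (h.marg x) (sq_nonneg (u x))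
    linarith
  simp only [sum_add_distrib] at h2
  rw [sum_comm (f := fun x y => c.al y x * u y ^ 2 / 2)] at h2
  linarith

theorem syn2_step (h : c.OK L) (g : Fin n → ℝ) :
    (1 / 2) * en c.d c.al 2 (c.M *ᵥ g) + c.eta * ∑ x, c.pi x * c.Lap g x ^ 2 ≤
      (1 / 2) * en c.d c.al 2 g := by
  have h1 := h.green g (c.Lap g)
  have h2 := mul_le_mul_of_nonneg_left (h.syn2_en_le (c.Lap g)) h.eta_pos.le
  have h3 : en c.d c.al 2 (c.M *ᵥ g) = en c.d c.al 2 g -
      2 * c.eta * ∑ x, ∑ y, c.al x y * (sl c.d g x y * sl c.d (c.Lap g) x y) +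
      c.eta ^ 2 * en c.d c.al 2 (c.Lap g) := by
    simp only [en_two, h.M_mulVec, sl_sub, sl_smul, mul_sum, ← sum_sub_distrib, ← sum_add_distrib]
    exact sum_congr rfl fun x _ => sum_congr rfl fun y _ => by ring
  simp only [← sq] at h1
  rw [h1] at h2
  rw [h3, h1]
  linarith

theorem lap_sum_le (h : c.OK L) (m : ℕ) (g : Fin n → ℝ) :
    c.eta * ∑ k ∈ range m, ∑ x, c.pi x * ((c.M ^ k) *ᵥ c.Lap g) x ^ 2 ≤
      (1 / 2) * en c.d c.al 2 g := by
  have key : c.eta * ∑ k ∈ range m, ∑ x, c.pi x * ((c.M ^ k) *ᵥ c.Lap g) x ^ 2 +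
      (1 / 2) * en c.d c.al 2 ((c.M ^ m) *ᵥ g) ≤ (1 / 2) * en c.d c.al 2 g := by
    induction m with
    | zero => simp
    | succ m ih =>
      have h1 := h.syn2_step ((c.M ^ m) *ᵥ g)
      rw [h.Lap_mulVec, mulVec_mulVec, ← pow_succ'] at h1
      rw [sum_range_succ, mul_add]
      linarith
  have := en_nonneg (d := c.d) h.al_nonneg 2 ((c.M ^ m) *ᵥ g)
  linarith

theorem syn_two (h : c.OK L) (m : ℕ) (g : ℕ → Fin n → ℝ) :
    en c.d c.al 2 (c.syn m g) ≤ 2 * ∑ z, c.pi z * c.vsq m g z := by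
  have h1 := h.green (c.syn m g) (c.syn m g)
  simp only [← sq] at h1
  rw [← en_two] at h1
  have h2 := h.lap_sum_le m (c.syn m g)
  have h3 : ∑ x, c.pi x * (c.Lap (c.syn m g) x * c.syn m g x) =
      c.eta * ∑ k ∈ range m, ∑ x, c.pi x * (((c.M ^ k) *ᵥ c.Lap (c.syn m g)) x * g k x) := by
    simp only [h.selfadj]
    generalize c.Lap (c.syn m g) = u
    rw [sum_comm, mul_sum]
    refine sum_congr rfl fun x _ => ?_
    simp only [Ch.syn, mul_sum]
    exact sum_congr rfl fun k _ => by ring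
  have h4 : ∑ z, c.pi z * c.vsq m g z = c.eta * ∑ k ∈ range m, ∑ x, c.pi x * g k x ^ 2 := by
    rw [sum_comm, mul_sum]
    refine sum_congr rfl fun x _ => ?_
    simp only [Ch.vsq, mul_sum]
    exact sum_congr rfl fun k _ => by ring
  have h5 : ∑ k ∈ range m, ∑ x, c.pi x * (((c.M ^ k) *ᵥ c.Lap (c.syn m g)) x * g k x) ≤
      (∑ k ∈ range m, ∑ x, c.pi x * ((c.M ^ k) *ᵥ c.Lap (c.syn m g)) x ^ 2) / 2 +
        (∑ k ∈ range m, ∑ x, c.pi x * g k x ^ 2) / 2 := by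
    simp only [sum_div, ← sum_add_distrib]
    refine sum_le_sum fun k _ => sum_le_sum fun x _ => ?_
    have := mul_nonneg (h.pi_pos x).le (sq_nonneg (((c.M ^ k) *ᵥ c.Lap (c.syn m g)) x - g k x))
    nlinarith
  have h6 := mul_le_mul_of_nonneg_left h5 h.eta_pos.le
  rw [h4]
  linarith

/-- `syn2_eq`, `syn_two`, `Stoch.sq_le`, `stat` -/
theorem syn2_two (h : c.OK L) (m : ℕ) (g : ℕ → Fin n → ℝ) :
    en c.d c.al 2 (c.syn2 m g) ≤ 2 * ∑ z, c.pi z * c.vsq m g z := by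
  rw [h.syn2_eq]
  refine (h.syn_two m _).trans (mul_le_mul_of_nonneg_left ?_ (by norm_num))
  have e : ∀ g : ℕ → Fin n → ℝ,
      ∑ z, c.pi z * c.vsq m g z = c.eta * ∑ k ∈ range m, ∑ x, c.pi x * g k x ^ 2 := by
    intro g
    rw [sum_comm, mul_sum]
    refine sum_congr rfl fun x _ => ?_
    simp only [Ch.vsq, mul_sum]
    exact sum_congr rfl fun k _ => by ring
  rw [e, e]
  refine mul_le_mul_of_nonneg_left (sum_le_sum fun k _ => ?_) h.eta_pos.le
  rw [← h.stat k fun z => g k z ^ 2]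
  exact sum_le_sum fun x _ => mul_le_mul_of_nonneg_left ((h.stoch.pow k).sq_le _ x) (h.pi_pos x).le

end Ch.OK

end Crest.Agent.R232
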